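import Vale.Agent.P219.Rigid.Deficit

/-!
# P219: vanishing slack puts the perimeter on one sphere

Boundary points of least slack converge to one point; away from the sphere of its logarithm the
slack is bounded below, so the perimeter there tends to zero.
-/

noncomputable section

open MeasureTheory Set Filter Topology Matrix
open scoped ENNReal

namespace Vale.Agent.P219.CH.Rigid

variable {n : ℕ} {G : (Fin n → ℝ) → Matrix (Fin n) (Fin n) ℝ}
  {D : (Fin n → ℝ) → (Fin n → ℝ) → ℝ} {u : (Fin n → ℝ) → ℝ} {a : ℝ → ℝ} {b : ℝ}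
  {K : ℝ × ℝ × ℝ → ℝ}

lemma slackPair_anti (s : ℝ) {r r' : ℝ} (hr : r ≤ r') (x y : Fin n → ℝ) :
    slackPair G D a b K u s r' x y ≤ slackPair G D a b K u s r x y := by
  unfold slackPair
  split_ifs with h1 h2
  · exact le_rfl
  · exact absurd (hr.trans h1) h2
  · exact zero_le
  · exact le_rfl

lemma cosAt_smul_pos (h : IsCH G D) {c : ℝ} (hc : 0 < c) (x y ξ : Fin n → ℝ) :
    cosAt G D x y (c • ξ) = cosAt G D x y ξ := by
  rw [cosAt, cosAt, pairing_smul_left, h.conorm_smul, abs_of_pos hc]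
  field_simp

lemma cosAt_cd (u : (Fin n → ℝ) → ℝ) (x y : Fin n → ℝ) :
    cosAt G D x y (cd u y) = Dir.scos G D u x y := by
  rw [cosAt, Dir.scos, normalPart]

lemma cosAt_mem (h : IsCH G D) (x y ξ : Fin n → ℝ) : cosAt G D x y ξ ∈ Icc (-1 : ℝ) 1 := by
  refine abs_le.1 ?_
  rw [cosAt, abs_div, abs_neg,
    abs_of_nonneg (mul_nonneg (conorm_nonneg (G := G) y ξ) (Real.sqrt_nonneg (2 * D x y)))]
  refine div_le_one_of_le₀ ((h.abs_pairing_le y ξ _).trans (le_of_eq ?_))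
    (mul_nonneg (conorm_nonneg _ _) (Real.sqrt_nonneg _))
  rw [conorm, conorm, h.eikonal]

/-- The slack seen from `y` with covector `ξ`, at `z` with cosine `d`. -/
def gapAt (G : (Fin n → ℝ) → Matrix (Fin n) (Fin n) ℝ) (D : (Fin n → ℝ) → (Fin n → ℝ) → ℝ)
    (a : ℝ → ℝ) (b : ℝ) (K : ℝ × ℝ × ℝ → ℝ) (q : ℝ × (Fin n → ℝ) × (Fin n → ℝ))
    (p : (Fin n → ℝ) × ℝ) : ℝ :=
  K (q.1 * Real.sqrt (2 * D q.2.1 p.1), cosAt G D p.1 q.2.1 q.2.2, p.2) -
    usedKer n a b 0 (q.1 * Real.sqrt (2 * D q.2.1 p.1)) (cosAt G D p.1 q.2.1 q.2.2) p.2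

lemma continuousAt_gapAt [NeZero n] (h : IsCH G D) (hK : StrictCert n a b K) {s : ℝ} (hs : 0 < s)
    {y ξ z : Fin n → ℝ} {d : ℝ} (hyz : y ≠ z) (hξ : conorm G y ξ = 1) :
    ContinuousAt (fun w : (ℝ × (Fin n → ℝ) × (Fin n → ℝ)) × ((Fin n → ℝ) × ℝ) =>
      gapAt G D a b K w.1 w.2) ((s, y, ξ), (z, d)) := by
  have hD := Six.dist_pos h hyz
  have hy : Continuous fun w : (ℝ × (Fin n → ℝ) × (Fin n → ℝ)) × ((Fin n → ℝ) × ℝ) => w.1.2.1 := by
    fun_prop
  have hx : Continuous fun w : (ℝ × (Fin n → ℝ) × (Fin n → ℝ)) × ((Fin n → ℝ) × ℝ) => w.1.2.2 := by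
    fun_prop
  have hz : Continuous fun w : (ℝ × (Fin n → ℝ) × (Fin n → ℝ)) × ((Fin n → ℝ) × ℝ) => w.2.1 := by
    fun_prop
  have hd : Continuous fun w : (ℝ × (Fin n → ℝ) × (Fin n → ℝ)) × ((Fin n → ℝ) × ℝ) => w.2.2 := by
    fun_prop
  have hr : Continuous fun w : (ℝ × (Fin n → ℝ) × (Fin n → ℝ)) × ((Fin n → ℝ) × ℝ) =>
      w.1.1 * Real.sqrt (2 * D w.1.2.1 w.2.1) :=
    (continuous_fst.comp continuous_fst).mul
      (continuous_const.mul (h.continuous_D.comp (hy.prodMk hz))).sqrt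
  have hr0 : (fun w : (ℝ × (Fin n → ℝ) × (Fin n → ℝ)) × ((Fin n → ℝ) × ℝ) =>
      w.1.1 * Real.sqrt (2 * D w.1.2.1 w.2.1)) ((s, y, ξ), (z, d)) ≠ 0 := by
    simp only; positivity
  have hD' : 0 < D z y := Six.dist_pos h hyz.symm
  have hc : ContinuousAt (fun w : (ℝ × (Fin n → ℝ) × (Fin n → ℝ)) × ((Fin n → ℝ) × ℝ) =>
      cosAt G D w.2.1 w.1.2.1 w.1.2.2) ((s, y, ξ), (z, d)) := by
    unfold cosAt
    refine ContinuousAt.div ?_ ((h.continuous_conorm.comp (hy.prodMk hx)).mul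
      (continuous_const.mul (h.continuous_D.comp (hz.prodMk hy))).sqrt).continuousAt ?_
    · exact (h.continuous_pairing.comp (hy.prodMk (hx.prodMk
        ((Sharp.contDiff_logCovector h).continuous.comp (hy.prodMk hz))))).neg.continuousAt
    · simp only
      rw [hξ, one_mul]
      positivity
  unfold gapAt
  refine ContinuousAt.sub ?_ ?_
  · have hKat : ContinuousAt K (s * Real.sqrt (2 * D y z), cosAt G D z y ξ, d) :=
      hK.continuous_K.continuousAt ((isOpen_lt continuous_const continuous_fst).mem_nhds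
        (by show 0 < s * Real.sqrt (2 * D y z); positivity))
    exact hKat.comp_of_eq (hr.continuousAt.prodMk (hc.prodMk hd.continuousAt)) rfl
  · unfold usedKer
    have hc0 := hc.max (continuousAt_const (y := (0 : ℝ)))
    have hd0 := (hd.max (continuous_const (y := (0 : ℝ)))).continuousAt (x := ((s, y, ξ), (z, d)))
    have hac := hK.continuous_a.continuousAt.comp hc0
    have had := hK.continuous_a.continuousAt.comp hd0
    exact (((((hac.mul hd0).add (had.mul hc0)).add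
      (((continuousAt_const.mul hr.continuousAt).sub continuousAt_const).mul (hc0.mul hd0))).max
        continuousAt_const).div (hr.continuousAt.pow _) (pow_ne_zero _ hr0))

/-- Some boundary covector of a competitor has slack at most the mean. -/
lemma exists_low_pair [NeZero n] (h : IsCH G D) {Kc : Set (Fin n → ℝ)} (hKc : IsCompact Kc)
    (hu : Comp Kc u) (hP : 0 < per G u) (hK : StrictCert n a b K) (s : ℝ) {r₀ : ℝ} (hr₀ : 0 < r₀) :
    ∃ x ξ, x ∈ Kc ∧ conorm G x ξ = 1 ∧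
      (∀ z, cosAt G D z x ξ = Dir.scos G D u z x) ∧
      (∫⁻ y, slackPair G D a b K u s r₀ x y ∂Sharp.pm G u) * ENNReal.ofReal (per G u) ≤
        ∫⁻ x, (∫⁻ y, slackPair G D a b K u s r₀ x y ∂Sharp.pm G u) ∂Sharp.pm G u := by
  have := Sharp.isFiniteMeasure_pm h hKc hu
  have hm := measurable_slackPair (s := s) h hu.1 hK hr₀
  have huniv : Sharp.pm G u univ = ENNReal.ofReal (per G u) := by
    rw [← Sharp.pm_univ h hKc hu, ENNReal.ofReal_toReal (measure_ne_top _ _)]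
  have hne : Sharp.pm G u ≠ 0 := fun h0 => by
    simp [h0] at huniv
    linarith
  have hgood : ∀ᵐ y ∂Sharp.pm G u, y ∈ Kc ∧ 0 < conorm G y (cd u y) := by
    refine (Sharp.ae_mem_pm h hKc hu).and ?_
    rw [Sharp.pm, ae_withDensity_iff
      (Sharp.continuous_weight h hu.1).measurable.ennreal_ofReal]
    refine Eventually.of_forall fun y hy => lt_of_le_of_ne (conorm_nonneg _ _) fun h0 => ?_
    exact hy (by simp [← h0])
  have hgm : Measurable fun x => ∫⁻ y, slackPair G D a b K u s r₀ x y ∂Sharp.pm G u :=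
    hm.lintegral_prod_right'
  obtain ⟨x, hx, hle⟩ := exists_notMem_null_le_laverage hne hgm.aemeasurable (ae_iff.1 hgood)
  simp only [mem_ofPred_eq, not_not] at hx
  have hc0 : 0 < (conorm G x (cd u x))⁻¹ := inv_pos.2 hx.2
  refine ⟨x, (conorm G x (cd u x))⁻¹ • cd u x, hx.1, ?_, fun z => ?_, ?_⟩
  · rw [h.conorm_smul, abs_of_pos hc0, inv_mul_cancel₀ hx.2.ne']
  · rw [cosAt_smul_pos h hc0, cosAt_cd]
  · rw [laverage_eq, huniv] at hle
    exact (mul_le_mul' hle le_rfl).trans_eq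
      (ENNReal.div_mul_cancel (ENNReal.ofReal_pos.2 hP).ne' ENNReal.ofReal_ne_top)

/-- `SpherePin`. -/
theorem sphere (n : ℕ) [NeZero n] : SpherePin n := by
  intro hn a b Kf hK G D h o R V c u σ hu hσ hr hσlim hc hper hslack
  have hKc := h.proper o R
  obtain ⟨ψ, hψ, hψle⟩ := extraction_forall_of_eventually'
    (P := fun m k => (∫⁻ x, (∫⁻ y, slackPair G D a b Kf (u k) (σ k) (1 / ((m : ℝ) + 1)) x y
      ∂Sharp.pm G (u k)) ∂Sharp.pm G (u k)) ≤ ENNReal.ofReal (1 / ((m : ℝ) + 1)))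
    fun m => eventually_atTop.1 ((hslack _ (by positivity)).eventually
      (eventually_le_nhds (ENNReal.ofReal_pos.2 (by positivity : (0 : ℝ) < 1 / ((m : ℝ) + 1)))))
  have hpts : ∀ m : ℕ, ∃ x ξ, D o x ≤ R ∧ conorm G x ξ = 1 ∧
      (∀ z, cosAt G D z x ξ = Dir.scos G D (u (ψ m)) z x) ∧
      ∫⁻ y, slackPair G D a b Kf (u (ψ m)) (σ (ψ m)) (1 / ((m : ℝ) + 1)) x y
        ∂Sharp.pm G (u (ψ m)) ≤ ENNReal.ofReal (1 / ((m : ℝ) + 1) / c) := fun m => by
    obtain ⟨x, ξ, hx, hξ, hcos, hle⟩ := exists_low_pair h hKc (hu (ψ m))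
      (hc.trans_le (hper _)) hK (σ (ψ m)) (r₀ := 1 / ((m : ℝ) + 1)) (by positivity)
    refine ⟨x, ξ, hx, hξ, hcos, ?_⟩
    rw [ENNReal.ofReal_div_of_pos hc, ENNReal.le_div_iff_mul_le
      (Or.inl (ENNReal.ofReal_pos.2 hc).ne') (Or.inl ENNReal.ofReal_ne_top)]
    exact (mul_le_mul' le_rfl (ENNReal.ofReal_le_ofReal (hper _))).trans (hle.trans (hψle m))
  choose xs ξs hxs hξs hcos hlow using hpts
  have hT : IsCompact ((fun z : (Fin n → ℝ) × (Fin n → ℝ) × ℝ => (z.1, z.2.1)) ''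
      Dir.paramSet G D o R {0}) :=
    (Dir.isCompact_paramSet h o R isCompact_singleton).image (by fun_prop)
  obtain ⟨⟨y, ξ⟩, -, φ, hφ, hφlim⟩ := hT.tendsto_subseq (x := fun k => (xs k, ξs k)) fun k =>
    ⟨(xs k, ξs k, 0), ⟨hxs k, (hξs k).le, rfl⟩, rfl⟩
  have hξ : conorm G y ξ = 1 := by
    refine tendsto_nhds_unique ((h.continuous_conorm.tendsto (y, ξ)).comp hφlim) ?_
    simp [Function.comp_def, hξs]
  refine ⟨y, ξ, ψ ∘ φ, hψ.comp hφ, hξ, fun T hT hne => ?_⟩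
  rcases T.eq_empty_or_nonempty with rfl | hTne
  · simp
  obtain ⟨s, hs⟩ : ∃ s, s = (radius n V)⁻¹ := ⟨_, rfl⟩
  have hs0 : 0 < s := hs ▸ inv_pos.2 hr
  have hyT : ∀ z ∈ T, y ≠ z := fun z hz he => by
    subst he
    refine hne y hz ?_
    have h0 : conorm G y (cd (D y) y) = 0 := by
      rw [conorm, h.eikonal, h.dist_self, mul_zero, Real.sqrt_zero]
    have h2 := h.abs_pairing_le y ξ (cd (D y) y)
    rw [h0, mul_zero, abs_nonpos_iff] at h2
    rw [h.dist_self, h2, mul_zero, add_zero]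
  have hTd := hT.prod (isCompact_Icc (a := (-1 : ℝ)) (b := 1))
  have hpos : ∀ p ∈ T ×ˢ Icc (-1 : ℝ) 1, 0 < gapAt G D a b Kf (s, y, ξ) p := by
    rintro ⟨z, d⟩ ⟨hz, hd⟩
    have hD := Six.dist_pos h (hyT z hz)
    have hr0 : 0 < s * Real.sqrt (2 * D y z) := by positivity
    have hle := hK.used_le _ _ _ hr0 (cosAt_mem h z y ξ) hd
    refine lt_of_le_of_ne (sub_nonneg.2 hle) fun h0 => hne z hz ?_
    have h2 := hK.strict _ _ _ hr0 (cosAt_mem h z y ξ) hd (by
      simp only [gapAt] at h0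
      linarith)
    have e : Real.sqrt (2 * D y z) * Real.sqrt (2 * D y z) = 2 * D y z :=
      Real.mul_self_sqrt (by positivity)
    have hsp : 0 < Real.sqrt (2 * D y z) := by positivity
    rw [cosAt, hξ, one_mul, Sharp.dist_symm h z y, ← mul_div_assoc, eq_div_iff hsp.ne', mul_assoc,
      e, hs, inv_mul_eq_iff_eq_mul₀ hr.ne'] at h2
    rw [Sharp.dist_symm h z y]
    linarith
  obtain ⟨p₀, hp₀, hmin⟩ := hTd.exists_isMinOn (hTne.prod ⟨0, by norm_num, by norm_num⟩)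
    (f := gapAt G D a b Kf (s, y, ξ)) fun p hp =>
      ((continuousAt_gapAt h hK hs0 (hyT p.1 hp.1) hξ (d := p.2)).comp_of_eq
        (continuousAt_const.prodMk continuousAt_id) rfl).continuousWithinAt
  obtain ⟨m, hm⟩ : ∃ m, m = gapAt G D a b Kf (s, y, ξ) p₀ / 2 := ⟨_, rfl⟩
  have hm0 : 0 < m := hm ▸ half_pos (hpos p₀ hp₀)
  obtain ⟨z₀, hz₀, hzmin⟩ := hT.exists_isMinOn hTne (f := fun z => s * Real.sqrt (2 * D y z))
    (continuous_const.mul (continuous_const.mul (h.continuous_D_left y)).sqrt).continuousOn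
  obtain ⟨r₁, hr₁⟩ : ∃ r₁, r₁ = s * Real.sqrt (2 * D y z₀) / 2 := ⟨_, rfl⟩
  have hr₁0 : 0 < r₁ := by
    have := Six.dist_pos h (hyT z₀ hz₀)
    rw [hr₁]; positivity
  have hnear : ∀ᶠ q : ℝ × (Fin n → ℝ) × (Fin n → ℝ) in 𝓝 (s, y, ξ), ∀ p ∈ T ×ˢ Icc (-1 : ℝ) 1,
      m < gapAt G D a b Kf q p ∧ r₁ < q.1 * Real.sqrt (2 * D q.2.1 p.1) := by
    refine hTd.eventually_forall_of_forall_eventually fun p hp => ?_
    refine ((continuousAt_gapAt h hK hs0 (hyT p.1 hp.1) hξ (d := p.2)).eventually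
      (eventually_gt_nhds ?_)).and ?_
    · rw [hm]
      have := hmin hp
      simp only [mem_setOf_eq] at this
      linarith [hpos p₀ hp₀]
    · have hc : Continuous fun w : (ℝ × (Fin n → ℝ) × (Fin n → ℝ)) × ((Fin n → ℝ) × ℝ) =>
          w.1.1 * Real.sqrt (2 * D w.1.2.1 w.2.1) :=
        (continuous_fst.comp continuous_fst).mul (continuous_const.mul (h.continuous_D.comp
          ((continuous_fst.comp (continuous_snd.comp continuous_fst)).prodMk
            (continuous_fst.comp continuous_snd)))).sqrt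
      refine (hc.tendsto ((s, y, ξ), p)).eventually (eventually_gt_nhds ?_)
      have := hzmin hp.1
      simp only [mem_setOf_eq] at this
      simp only
      linarith
  have hqlim : Tendsto (fun k => (σ (ψ (φ k)), xs (φ k), ξs (φ k))) atTop (𝓝 (s, y, ξ)) :=
    (hs ▸ (hσlim.comp (hψ.comp hφ).tendsto_atTop)).prodMk_nhds hφlim
  have hsmall : Tendsto (fun k => 1 / ((φ k : ℝ) + 1)) atTop (𝓝 0) :=
    (tendsto_one_div_add_atTop_nhds_zero_nat).comp hφ.tendsto_atTop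
  have hbound : ∀ᶠ k in atTop, ENNReal.ofReal m *
      (∫⁻ x in T, ENNReal.ofReal (conorm G x (cd (u ((ψ ∘ φ) k)) x) * dens G x)) ≤
        ENNReal.ofReal (1 / ((φ k : ℝ) + 1) / c) := by
    filter_upwards [hqlim.eventually hnear, hsmall.eventually (eventually_le_nhds hr₁0)]
      with k hk hk1
    have e : ∫⁻ x in T, ENNReal.ofReal (conorm G x (cd (u ((ψ ∘ φ) k)) x) * dens G x) =
        Sharp.pm G (u (ψ (φ k))) T := by
      rw [Sharp.pm, withDensity_apply _ hT.isClosed.measurableSet]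
      rfl
    rw [e, ← setLIntegral_const]
    refine le_trans (setLIntegral_mono' hT.isClosed.measurableSet fun z hz => ?_)
      ((setLIntegral_le_lintegral _ _).trans (hlow (φ k)))
    obtain ⟨hg, hr'⟩ := hk (z, Dir.scos G D (u (ψ (φ k))) (xs (φ k)) z)
      ⟨hz, Gen.scos_mem_Icc h _ _ _⟩
    simp only [gapAt, hcos] at hg
    simp only at hr'
    rw [slackPair, if_pos (hk1.trans hr'.le)]
    exact ENNReal.ofReal_le_ofReal hg.le
  have hlim0 : Tendsto (fun k => ENNReal.ofReal (1 / ((φ k : ℝ) + 1) / c) / ENNReal.ofReal m)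
      atTop (𝓝 0) := by
    have h1 := ENNReal.tendsto_ofReal (hsmall.div_const c)
    rw [zero_div, ENNReal.ofReal_zero] at h1
    simpa using ENNReal.Tendsto.div_const h1 (Or.inr (ENNReal.ofReal_pos.2 hm0).ne')
  refine tendsto_of_tendsto_of_tendsto_of_le_of_le' tendsto_const_nhds hlim0
    (Eventually.of_forall fun _ => zero_le) (hbound.mono fun k hk => ?_)
  rw [ENNReal.le_div_iff_mul_le (Or.inl (ENNReal.ofReal_pos.2 hm0).ne')
    (Or.inl ENNReal.ofReal_ne_top), mul_comm]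
  exact hk

end Vale.Agent.P219.CH.Rigid
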