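import Mathlib

/-!
# P219: a set is trivial on a ball where the gradients of approximations vanish
-/

noncomputable section

open MeasureTheory Set Filter Topology
open scoped ENNReal

namespace Vale.Agent.P219.CH.Rigid

variable {n : ℕ}

/-- The difference along a segment is at most the integral of the derivative. -/
lemma ofReal_abs_sub_le {v : (Fin n → ℝ) → ℝ} (hv : ContDiff ℝ 1 v) (z h : Fin n → ℝ) :
    ENNReal.ofReal |v (z + h) - v z| ≤
      ENNReal.ofReal ‖h‖ * ∫⁻ t in Icc (0 : ℝ) 1, ENNReal.ofReal ‖fderiv ℝ v (z + t • h)‖ := by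
  have hl : Continuous fun t : ℝ => z + t • h := by fun_prop
  have hf : Continuous fun t : ℝ => fderiv ℝ v (z + t • h) :=
    (hv.continuous_fderiv one_ne_zero).comp hl
  have hd : ∀ t ∈ uIcc (0 : ℝ) 1,
      HasDerivAt (fun t : ℝ => v (z + t • h)) (fderiv ℝ v (z + t • h) h) t := fun t _ =>
    ((hv.differentiable one_ne_zero _).hasFDerivAt).comp_hasDerivAt t
      (((hasDerivAt_id t).smul_const h).const_add z |>.congr_deriv (by simp))
  have hi : Continuous fun t : ℝ => fderiv ℝ v (z + t • h) h := hf.clm_apply continuous_const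
  have hft := intervalIntegral.integral_eq_sub_of_hasDerivAt hd (hi.intervalIntegrable _ _)
  simp only [one_smul, zero_smul, add_zero] at hft
  rw [← hft, intervalIntegral.integral_of_le zero_le_one, ← integral_Icc_eq_integral_Ioc,
    ← Real.norm_eq_abs]
  refine (ENNReal.ofReal_le_ofReal (norm_integral_le_integral_norm _)).trans ?_
  rw [ofReal_integral_eq_lintegral_ofReal (hi.norm.continuousOn.integrableOn_compact isCompact_Icc)
    (Eventually.of_forall fun t => norm_nonneg _), ← lintegral_const_mul' _ _ ENNReal.ofReal_ne_top]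
  refine lintegral_mono fun t => ?_
  rw [← ENNReal.ofReal_mul (norm_nonneg _)]
  exact ENNReal.ofReal_le_ofReal ((ContinuousLinearMap.le_opNorm _ _).trans_eq (mul_comm _ _))

/-- The oscillation of a function on a ball is at most the mass of its derivative. -/
lemma lintegral_osc_le {v : (Fin n → ℝ) → ℝ} (hv : ContDiff ℝ 1 v) (p : Fin n → ℝ) {δ : ℝ}
    (hδ : 0 < δ) :
    ∫⁻ z in Metric.ball p δ, ∫⁻ z' in Metric.ball p δ, ENNReal.ofReal |v z' - v z| ≤
      volume (Metric.closedBall (0 : Fin n → ℝ) (2 * δ)) * (ENNReal.ofReal (2 * δ) *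
        ∫⁻ x in Metric.closedBall p (3 * δ), ENNReal.ofReal ‖fderiv ℝ v x‖) := by
  obtain ⟨B, hB⟩ : ∃ B, B = Metric.ball p δ := ⟨_, rfl⟩
  obtain ⟨H, hH⟩ : ∃ H, H = Metric.closedBall (0 : Fin n → ℝ) (2 * δ) := ⟨_, rfl⟩
  rw [← hB, ← hH]
  have hvc := hv.continuous
  have hg : Measurable fun x : Fin n → ℝ => ENNReal.ofReal ‖fderiv ℝ v x‖ :=
    (hv.continuous_fderiv one_ne_zero).norm.measurable.ennreal_ofReal
  calc ∫⁻ z in B, ∫⁻ z' in B, ENNReal.ofReal |v z' - v z|
      ≤ ∫⁻ z in B, ∫⁻ h in H, ENNReal.ofReal |v (z + h) - v z| := by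
        refine setLIntegral_mono' (hB ▸ measurableSet_ball) fun z hz => ?_
        rw [← lintegral_indicator (hB ▸ measurableSet_ball),
          ← lintegral_add_left_eq_self _ z, ← lintegral_indicator (hH ▸ measurableSet_closedBall)]
        refine lintegral_mono fun h => ?_
        by_cases hh : z + h ∈ B
        · rw [indicator_of_mem hh, indicator_of_mem]
          rw [hB, Metric.mem_ball] at hz hh
          rw [hH, Metric.mem_closedBall, dist_zero_right]
          have := dist_triangle_right (z + h) z p
          rw [dist_eq_norm, add_sub_cancel_left] at this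
          linarith
        · rw [indicator_of_notMem hh]
          exact zero_le
    _ = ∫⁻ h in H, ∫⁻ z in B, ENNReal.ofReal |v (z + h) - v z| :=
        lintegral_lintegral_swap (by fun_prop : Measurable fun q : (Fin n → ℝ) × (Fin n → ℝ) =>
          ENNReal.ofReal |v (q.1 + q.2) - v q.1|).aemeasurable
    _ ≤ ∫⁻ _h in H, ENNReal.ofReal (2 * δ) *
          ∫⁻ x in Metric.closedBall p (3 * δ), ENNReal.ofReal ‖fderiv ℝ v x‖ := by
        refine setLIntegral_mono' (hH ▸ measurableSet_closedBall) fun h hh => ?_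
        rw [hH, Metric.mem_closedBall, dist_zero_right] at hh
        refine (lintegral_mono fun z => ofReal_abs_sub_le hv z h).trans ?_
        rw [lintegral_const_mul' _ _ ENNReal.ofReal_ne_top]
        refine mul_le_mul' (ENNReal.ofReal_le_ofReal hh) ?_
        have hgm : Measurable fun q : (Fin n → ℝ) × ℝ =>
            ENNReal.ofReal ‖fderiv ℝ v (q.1 + q.2 • h)‖ :=
          hg.comp (by fun_prop : Measurable fun q : (Fin n → ℝ) × ℝ => q.1 + q.2 • h)
        rw [lintegral_lintegral_swap hgm.aemeasurable]
        refine (setLIntegral_mono' measurableSet_Icc (g := fun _ =>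
          ∫⁻ x in Metric.closedBall p (3 * δ), ENNReal.ofReal ‖fderiv ℝ v x‖) fun t ht => ?_).trans
            (by rw [setLIntegral_const, Real.volume_Icc]; simp)
        rw [← lintegral_indicator (hB ▸ measurableSet_ball),
          ← lintegral_indicator measurableSet_closedBall]
        conv_rhs => rw [← lintegral_add_right_eq_self _ (t • h)]
        refine lintegral_mono fun z => ?_
        by_cases hz : z ∈ B
        · rw [indicator_of_mem hz, indicator_of_mem]
          rw [hB, Metric.mem_ball, dist_eq_norm] at hz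
          rw [Metric.mem_closedBall, dist_eq_norm, show z + t • h - p = z - p + t • h by abel]
          refine (norm_add_le _ _).trans ?_
          rw [norm_smul, Real.norm_eq_abs, abs_of_nonneg ht.1]
          nlinarith [mul_le_mul ht.2 hh (norm_nonneg h) zero_le_one]
        · rw [indicator_of_notMem hz]
          exact zero_le
    _ = _ := by rw [setLIntegral_const, mul_comm]

/-- If approximations of the indicator have vanishing derivative on a larger ball, the set fills
the ball or misses it. -/
theorem full_or_null {Ω : Set (Fin n → ℝ)} (hΩ : MeasurableSet Ω) {v : ℕ → (Fin n → ℝ) → ℝ}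
    (hv : ∀ k, ContDiff ℝ 1 (v k))
    (hlim : Tendsto (fun k => ∫⁻ z, ENNReal.ofReal |v k z - Ω.indicator 1 z|) atTop (𝓝 0))
    (p : Fin n → ℝ) {δ : ℝ} (hδ : 0 < δ)
    (hd : Tendsto (fun k => ∫⁻ x in Metric.closedBall p (3 * δ),
      ENNReal.ofReal ‖fderiv ℝ (v k) x‖) atTop (𝓝 0)) :
    volume (Metric.ball p δ ∩ Ω) = 0 ∨ volume (Metric.ball p δ \ Ω) = 0 := by
  obtain ⟨B, hB⟩ : ∃ B, B = Metric.ball p δ := ⟨_, rfl⟩
  rw [← hB]
  have hBf : volume B ≠ ∞ := hB ▸ measure_ball_lt_top.ne
  have hHf : volume (Metric.closedBall (0 : Fin n → ℝ) (2 * δ)) ≠ ∞ := measure_closedBall_lt_top.ne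
  obtain ⟨E, hE⟩ : ∃ E : ℕ → (Fin n → ℝ) → ℝ≥0∞,
      E = fun k z => ENNReal.ofReal |v k z - Ω.indicator 1 z| := ⟨_, rfl⟩
  have hbound : ∀ k, volume (B ∩ Ω) * volume (B \ Ω) ≤
      volume B * (∫⁻ z, E k z) + volume B * (∫⁻ z, E k z) +
        volume (Metric.closedBall (0 : Fin n → ℝ) (2 * δ)) * (ENNReal.ofReal (2 * δ) *
          ∫⁻ x in Metric.closedBall p (3 * δ), ENNReal.ofReal ‖fderiv ℝ (v k) x‖) := by
    intro k
    have hEm : Measurable (E k) := by
      rw [hE]
      exact ((hv k).continuous.measurable.sub (measurable_one.indicator hΩ)).abs.ennreal_ofReal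
    have hm : ∀ z, Measurable fun z' => ENNReal.ofReal |v k z' - v k z| := fun z =>
      ((hv k).continuous.measurable.sub_const _).abs.ennreal_ofReal
    have hm2 : Measurable fun q : (Fin n → ℝ) × (Fin n → ℝ) =>
        ENNReal.ofReal |v k q.2 - v k q.1| := by
      have := (hv k).continuous
      fun_prop
    have hmB : MeasurableSet B := hB ▸ measurableSet_ball
    calc volume (B ∩ Ω) * volume (B \ Ω)
        = ∫⁻ _z in B ∩ Ω, ∫⁻ _z' in B \ Ω, (1 : ℝ≥0∞) := by
          rw [setLIntegral_one, setLIntegral_const, mul_comm]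
      _ ≤ ∫⁻ z in B ∩ Ω, ∫⁻ z' in B \ Ω,
            (E k z + E k z' + ENNReal.ofReal |v k z' - v k z|) := by
          refine setLIntegral_mono' (hmB.inter hΩ) fun z hz => ?_
          refine setLIntegral_mono' (hmB.diff hΩ) fun z' hz' => ?_
          simp only [hE, indicator_of_mem hz.2, indicator_of_notMem hz'.2, Pi.one_apply, sub_zero]
          rw [← ENNReal.ofReal_add (abs_nonneg _) (abs_nonneg _),
            ← ENNReal.ofReal_add (by positivity) (abs_nonneg _)]
          refine ENNReal.one_le_ofReal.2 ?_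
          linarith [neg_le_abs (v k z - 1), le_abs_self (v k z'), neg_le_abs (v k z' - v k z)]
      _ ≤ ∫⁻ z in B, ∫⁻ z' in B, (E k z + E k z' + ENNReal.ofReal |v k z' - v k z|) :=
          (lintegral_mono fun z => lintegral_mono_set sdiff_subset).trans
            (lintegral_mono_set inter_subset_left)
      _ = (∫⁻ z in B, ∫⁻ _z' in B, E k z) + (∫⁻ _z in B, ∫⁻ z' in B, E k z') +
            ∫⁻ z in B, ∫⁻ z' in B, ENNReal.ofReal |v k z' - v k z| := by
          have e : ∀ z, ∫⁻ z' in B, (E k z + E k z' + ENNReal.ofReal |v k z' - v k z|) =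
              (∫⁻ _z' in B, E k z) + (∫⁻ z' in B, E k z') +
                ∫⁻ z' in B, ENNReal.ofReal |v k z' - v k z| := fun z => by
            rw [lintegral_add_left ((hEm.const_add _)), lintegral_add_left measurable_const]
          simp only [e]
          rw [lintegral_add_left, lintegral_add_left]
          · simp only [setLIntegral_const]
            exact hEm.mul_const _
          · simp only [setLIntegral_const]
            exact (hEm.mul_const _).add measurable_const
      _ ≤ _ := by
          refine add_le_add (add_le_add ?_ ?_) (hB ▸ lintegral_osc_le (hv k) p hδ)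
          · simp only [setLIntegral_const]
            rw [lintegral_mul_const' _ _ hBf, mul_comm]
            exact mul_le_mul' le_rfl (setLIntegral_le_lintegral _ _)
          · rw [setLIntegral_const, mul_comm]
            exact mul_le_mul' le_rfl (setLIntegral_le_lintegral _ _)
  have h1 : Tendsto (fun k => volume B * ∫⁻ z, E k z) atTop (𝓝 0) := by
    rw [hE]
    simpa using ENNReal.Tendsto.const_mul hlim (Or.inr hBf)
  have h2 : Tendsto (fun k => volume (Metric.closedBall (0 : Fin n → ℝ) (2 * δ)) *
      (ENNReal.ofReal (2 * δ) * ∫⁻ x in Metric.closedBall p (3 * δ),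
        ENNReal.ofReal ‖fderiv ℝ (v k) x‖)) atTop (𝓝 0) := by
    have h3 := ENNReal.Tendsto.const_mul hd
      (Or.inr (ENNReal.ofReal_ne_top (r := 2 * δ)))
    rw [mul_zero] at h3
    have h4 := ENNReal.Tendsto.const_mul h3 (Or.inr hHf)
    rw [mul_zero] at h4
    exact h4
  have h0 : volume (B ∩ Ω) * volume (B \ Ω) ≤ 0 + 0 + 0 :=
    ge_of_tendsto' ((h1.add h1).add h2) hbound
  simpa [mul_eq_zero] using h0

end Vale.Agent.P219.CH.Rigid
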