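import Vale.Agent.P219.Rigid.Jac
import Vale.Agent.P219.Sharp.Geom

/-!
# P219: a logarithm of unit Jacobian is an infinitesimal isometry
-/

noncomputable section

open MeasureTheory Set Filter Topology Matrix

namespace Vale.Agent.P219.CH.Rigid

variable {n : ℕ} {G : (Fin n → ℝ) → Matrix (Fin n) (Fin n) ℝ}
  {D : (Fin n → ℝ) → (Fin n → ℝ) → ℝ}

/-- A contraction of unit determinant preserves lengths. -/
lemma dot_of_abs_det_eq_one {B : Matrix (Fin n) (Fin n) ℝ}
    (hB : ∀ w, (B *ᵥ w) ⬝ᵥ (B *ᵥ w) ≤ w ⬝ᵥ w) (hd : |B.det| = 1) :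
    Bᵀ * B = 1 := by
  have hP : (Bᵀ * B).PosSemidef := by
    simpa [conjTranspose_eq_transpose_of_trivial] using posSemidef_conjTranspose_mul_self B
  have hle : ∀ i, hP.isHermitian.eigenvalues i ≤ 1 := fun i => by
    have e := hP.isHermitian.eigenvalues_eq i
    set v : Fin n → ℝ := WithLp.ofLp (hP.isHermitian.eigenvectorBasis i)
    have hn : v ⬝ᵥ v = 1 := by
      have := hP.isHermitian.eigenvectorBasis.orthonormal.1 i
      have h2 : ‖hP.isHermitian.eigenvectorBasis i‖ ^ 2 = 1 := by rw [this]; norm_num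
      rw [EuclideanSpace.norm_sq_eq] at h2
      simpa [v, dotProduct, sq] using h2
    rw [e, ← hn]
    simp only [star_trivial, RCLike.re_to_real]
    rw [← mulVec_mulVec, dotProduct_mulVec, vecMul_transpose]
    exact hB v
  have hprod : ∏ i, hP.isHermitian.eigenvalues i = 1 := by
    have h1 := hP.isHermitian.det_eq_prod_eigenvalues
    simp only [RCLike.ofReal_real_eq_id, id_eq, det_mul, det_transpose] at h1
    rw [← h1, ← abs_mul_abs_self, hd, one_mul]
  have heq : ∀ i, hP.isHermitian.eigenvalues i = 1 := fun i => by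
    refine le_antisymm (hle i) ?_
    rw [← hprod, ← Finset.mul_prod_erase _ _ (Finset.mem_univ i)]
    exact mul_le_of_le_one_right (hP.eigenvalues_nonneg i)
      (Finset.prod_le_one (fun j _ => hP.eigenvalues_nonneg j) fun j _ => hle j)
  conv_lhs => rw [hP.isHermitian.spectral_theorem]
  have e : (RCLike.ofReal ∘ hP.isHermitian.eigenvalues : Fin n → ℝ) = fun _ => (1 : ℝ) := by
    funext i; simp [heq i]
  rw [e, diagonal_one, map_one]

/-- The coordinates of the logarithm at `y`, moved so that the ball is centred. -/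
def chart (G : (Fin n → ℝ) → Matrix (Fin n) (Fin n) ℝ) (D : (Fin n → ℝ) → (Fin n → ℝ) → ℝ)
    (y a : Fin n → ℝ) (x : Fin n → ℝ) : Fin n → ℝ :=
  Sharp.ucoord G D y x + a

lemma contDiff_chart (h : IsCH G D) (y a : Fin n → ℝ) : ContDiff ℝ 1 (chart G D y a) :=
  (contDiff_pi.2 (Sharp.contDiff_ucoord h y)).add contDiff_const

lemma hasFDerivAt_chart (h : IsCH G D) (y a x : Fin n → ℝ) :
    HasFDerivAt (chart G D y a)
      ((Matrix.toLin' (Sharp.frame G y)).toContinuousLinearMap.comp (Six.mixedD D y x)) x := by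
  have h1 : HasFDerivAt (fun z => Sharp.frame G y *ᵥ cd (D z) y)
      ((Matrix.toLin' (Sharp.frame G y)).toContinuousLinearMap.comp (Six.mixedD D y x)) x :=
    (Matrix.toLin' (Sharp.frame G y)).toContinuousLinearMap.hasFDerivAt.comp x
      (Six.hasFDerivAt_mixed h y x)
  exact h1.add_const a

lemma abs_det_fderiv_chart (h : IsCH G D) (y a x : Fin n → ℝ) :
    |(fderiv ℝ (chart G D y a) x).det| = jfac G D x y * dens G x := by
  obtain ⟨-, -, -, h4⟩ := Sharp.frame_spec h y
  rw [(hasFDerivAt_chart h y a x).fderiv, ContinuousLinearMap.det,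
    ContinuousLinearMap.toLinearMap_comp, LinearMap.det_comp,
    LinearMap.coe_toContinuousLinearMap, LinearMap.det_toLin', abs_mul, h4, jfac_symm h x y,
    jfac]
  have p1 := (h.dens_pos x).ne'
  have p2 := (h.dens_pos y).ne'
  rw [ContinuousLinearMap.det]
  field_simp

/-- Where the Jacobian is one the chart pulls the Euclidean metric back to the metric. -/
theorem chart_isometric (h : IsCH G D) (y a x : Fin n → ℝ) (hj : jfac G D x y = 1)
    (v : Fin n → ℝ) :
    fderiv ℝ (chart G D y a) x v ⬝ᵥ fderiv ℝ (chart G D y a) x v = v ⬝ᵥ (G x *ᵥ v) := by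
  obtain ⟨hx1, hx2, hx3, hx4⟩ := Sharp.frame_spec h x
  set A := Sharp.frame G y
  set A' := Sharp.frame G x
  set C := opMat (Six.mixedD D y x)
  have hf : ∀ v, fderiv ℝ (chart G D y a) x v = A *ᵥ (C *ᵥ v) := fun v => by
    simp [(hasFDerivAt_chart h y a x).fderiv, Six.opMat_mulVec, A, C]
  have hu : ∀ v k, cd (fun z => Sharp.ucoord G D y z k) x ⬝ᵥ v = (A *ᵥ (C *ᵥ v)) k := fun v k => by
    have hd : HasFDerivAt (fun z => A *ᵥ cd (D z) y)
        ((Matrix.toLin' A).toContinuousLinearMap.comp (Six.mixedD D y x)) x :=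
      ((Matrix.toLin' A).toContinuousLinearMap.hasFDerivAt).comp x (Six.hasFDerivAt_mixed h y x)
    rw [cd_dotProduct,
      show (fun z => Sharp.ucoord G D y z k) = fun z => (A *ᵥ cd (D z) y) k from rfl,
      (hasFDerivAt_pi'.1 hd k).fderiv, Six.opMat_mulVec]
    simp
  have hB : ∀ w, ((A * C * A') *ᵥ w) ⬝ᵥ ((A * C * A') *ᵥ w) ≤ w ⬝ᵥ w := fun w => by
    have key := Sharp.sum_fderiv_ucoord_le h y x (A' *ᵥ w)
    simp only [hu] at key
    have e : qf G x (A' *ᵥ w) = w ⬝ᵥ w := by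
      rw [qf, dotProduct_mulVec, vecMul_mulVec, hx1, ← dotProduct_mulVec, mulVec_mulVec, hx2,
        one_mulVec]
    rw [← mulVec_mulVec, ← mulVec_mulVec, ← e]
    simpa [dotProduct, sq] using key
  have hdet : |(A * C * A').det| = 1 := by
    have h1 := abs_det_fderiv_chart h y a x
    rw [hj, one_mul, ContinuousLinearMap.det, (hasFDerivAt_chart h y a x).fderiv,
      ContinuousLinearMap.toLinearMap_comp, LinearMap.det_comp,
      LinearMap.coe_toContinuousLinearMap, LinearMap.det_toLin', abs_mul] at h1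
    rw [det_mul, det_mul, abs_mul, abs_mul, ← det_eq_det_opMat, ContinuousLinearMap.det, h1, hx4,
      mul_inv_cancel₀ (h.dens_pos x).ne']
  have hP := dot_of_abs_det_eq_one hB hdet
  have hA' : IsUnit A'.det := by
    refine Ne.isUnit fun h0 => ?_
    rw [h0, abs_zero] at hx4
    exact (inv_pos.2 (h.dens_pos x)).ne hx4
  obtain ⟨w, rfl⟩ : ∃ w, A' *ᵥ w = v :=
    ⟨A'⁻¹ *ᵥ v, by rw [mulVec_mulVec, Matrix.mul_nonsing_inv _ hA', one_mulVec]⟩
  rw [hf, mulVec_mulVec, mulVec_mulVec, dotProduct_mulVec ((A * C * A') *ᵥ w), ← mulVec_transpose,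
    mulVec_mulVec, hP, one_mulVec, dotProduct_mulVec (A' *ᵥ w), vecMul_mulVec, hx1,
    ← dotProduct_mulVec, mulVec_mulVec, hx2, one_mulVec]

lemma dot_chart (h : IsCH G D) (y x ξ : Fin n → ℝ) (c : ℝ) :
    chart G D y (c • (Sharp.frame G y *ᵥ ξ)) x ⬝ᵥ chart G D y (c • (Sharp.frame G y *ᵥ ξ)) x =
      2 * D x y + 2 * c * pairing G y ξ (cd (D x) y) + c ^ 2 * pairing G y ξ ξ := by
  rw [chart, add_dotProduct, dotProduct_add, dotProduct_add, Sharp.ucoord_dot h, Sharp.ucoord,
    smul_dotProduct, smul_dotProduct, dotProduct_smul, dotProduct_smul, Sharp.frame_dot h,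
    Sharp.frame_dot h, Sharp.frame_dot h, h.pairing_comm y (cd (D x) y) ξ]
  simp only [smul_eq_mul]
  ring

lemma chart_bijective (h : IsCH G D) (y a : Fin n → ℝ)
    (hb : Function.Bijective fun z => cd (D z) y) : Function.Bijective (chart G D y a) := by
  obtain ⟨-, -, -, h4⟩ := Sharp.frame_spec h y
  have hA : IsUnit (Sharp.frame G y).det := by
    refine Ne.isUnit fun h0 => ?_
    rw [h0, abs_zero] at h4
    exact (inv_pos.2 (h.dens_pos y)).ne h4
  refine ⟨fun p q hpq => hb.1 ?_, fun z => ?_⟩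
  · have h1 := congrArg (fun t => (Sharp.frame G y)⁻¹ *ᵥ t) (add_right_cancel hpq)
    simpa [Sharp.ucoord, mulVec_mulVec, Matrix.nonsing_inv_mul _ hA] using h1
  · obtain ⟨p, hp⟩ := hb.2 ((Sharp.frame G y)⁻¹ *ᵥ (z - a))
    refine ⟨p, ?_⟩
    simp only at hp
    rw [chart, Sharp.ucoord, hp, mulVec_mulVec, Matrix.mul_nonsing_inv _ hA, one_mulVec,
      sub_add_cancel]

end Vale.Agent.P219.CH.Rigid
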