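import Vale.Agent.P219.Rigid.Strict
import Vale.Agent.P219.Rigid.Flatness
import Vale.Agent.P219.Rigid.Isometry
import Vale.Agent.P219.Six.Exists
import Vale.Agent.P219.Six.PairPoint


/-!
# P219: perimeter on a sphere makes the set the ball it bounds

Off the sphere the set is open and closed up to null sets, so it is the ball or null. The chart then
carries the volume of the ball to the volume of the set, so its Jacobian is one and it is an
isometry.
-/

noncomputable section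

open MeasureTheory Set Filter Topology Matrix
open scoped ENNReal

namespace Vale.Agent.P219.CH.Rigid

variable {n : ℕ} {G : (Fin n → ℝ) → Matrix (Fin n) (Fin n) ℝ}
  {D : (Fin n → ℝ) → (Fin n → ℝ) → ℝ}

lemma unitBall_pos (n : ℕ) : 0 < Bend.unitBall n :=
  ENNReal.toReal_pos (Metric.measure_ball_pos volume _ one_pos).ne' measure_ball_lt_top.ne

lemma dot_eq_norm_sq (z : Fin n → ℝ) :
    z ⬝ᵥ z = ‖(WithLp.toLp 2 z : EuclideanSpace ℝ (Fin n))‖ ^ 2 := by
  rw [EuclideanSpace.norm_sq_eq]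
  simp [dotProduct, sq]

/-- The volume of a Euclidean ball, written with the dot product. -/
lemma volume_dot_ball [NeZero n] {r : ℝ} (hr : 0 ≤ r) :
    volume {z : Fin n → ℝ | z ⬝ᵥ z ≤ r ^ 2} = ENNReal.ofReal (r ^ n * Bend.unitBall n) ∧
      volume {z : Fin n → ℝ | z ⬝ᵥ z < r ^ 2} = ENNReal.ofReal (r ^ n * Bend.unitBall n) := by
  have hb : volume (Metric.ball (0 : EuclideanSpace ℝ (Fin n)) 1) =
      ENNReal.ofReal (Bend.unitBall n) := by
    rw [Bend.unitBall, ENNReal.ofReal_toReal measure_ball_lt_top.ne]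
  have hc : volume (Metric.closedBall (0 : EuclideanSpace ℝ (Fin n)) r) =
      ENNReal.ofReal (r ^ n * Bend.unitBall n) := by
    rw [Measure.addHaar_closedBall volume _ hr, hb, ← ENNReal.ofReal_mul (by positivity)]
    simp
  have ho : volume (Metric.ball (0 : EuclideanSpace ℝ (Fin n)) r) =
      ENNReal.ofReal (r ^ n * Bend.unitBall n) := by
    rw [← Measure.addHaar_closedBall_eq_addHaar_ball, hc]
  refine ⟨?_, ?_⟩
  · rw [← hc, ← (PiLp.volume_preserving_toLp (Fin n)).measure_preimage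
      Metric.isClosed_closedBall.measurableSet.nullMeasurableSet]
    congr 1
    ext z
    simp [dot_eq_norm_sq z, sq_le_sq₀ (norm_nonneg _) hr]
  · rw [← ho, ← (PiLp.volume_preserving_toLp (Fin n)).measure_preimage
      Metric.isOpen_ball.measurableSet.nullMeasurableSet]
    congr 1
    ext z
    simp [dot_eq_norm_sq z, sq_lt_sq₀ (norm_nonneg _) hr]

/-- The open ball is preconnected. -/
lemma isPreconnected_dot_ball {r : ℝ} (hr : 0 ≤ r) :
    IsPreconnected {z : Fin n → ℝ | z ⬝ᵥ z < r ^ 2} := by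
  have e : {z : Fin n → ℝ | z ⬝ᵥ z < r ^ 2} =
      (WithLp.linearEquiv 2 ℝ (Fin n → ℝ)).symm.toLinearMap ⁻¹' Metric.ball 0 r := by
    ext z
    simp [dot_eq_norm_sq z, sq_lt_sq₀ (norm_nonneg _) hr]
  rw [e]
  exact ((convex_ball (0 : EuclideanSpace ℝ (Fin n)) r).linear_preimage _).isPreconnected

/-- The derivative is bounded by the density of perimeter on a compact set. -/
lemma exists_opNorm_le (h : IsCH G D) {T : Set (Fin n → ℝ)} (hT : IsCompact T) :
    ∃ C : ℝ, 0 ≤ C ∧ ∀ v : (Fin n → ℝ) → ℝ, ∀ x ∈ T,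
      ‖fderiv ℝ v x‖ ≤ C * (conorm G x (cd v x) * dens G x) := by
  obtain ⟨B, hB⟩ := (hT.prod (isCompact_sphere (0 : Fin n → ℝ) 1)).bddAbove_image
    (f := fun p : (Fin n → ℝ) × (Fin n → ℝ) => Six.vnorm G p.1 p.2 / dens G p.1)
    ((h.continuous_vnorm.div (h.continuous_dens.comp continuous_fst)
      fun p => (h.dens_pos _).ne').continuousOn)
  refine ⟨max B 0, le_max_right _ _, fun v x hx => ?_⟩
  have hd := h.dens_pos x
  have hc := conorm_nonneg (G := G) x (cd v x)
  refine ContinuousLinearMap.opNorm_le_of_unit_norm (by positivity) fun w hw => ?_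
  have h1 : Six.vnorm G x w / dens G x ≤ max B 0 :=
    (hB ⟨(x, w), ⟨hx, mem_sphere_zero_iff_norm.2 hw⟩, rfl⟩).trans (le_max_left _ _)
  rw [div_le_iff₀ hd] at h1
  rw [Real.norm_eq_abs, ← cd_dotProduct]
  calc |cd v x ⬝ᵥ w| ≤ conorm G x (cd v x) * Six.vnorm G x w := h.dotProduct_le _ _ _
    _ ≤ conorm G x (cd v x) * (max B 0 * dens G x) := mul_le_mul_of_nonneg_left h1 hc
    _ = _ := by ring

/-- `ShapePin`. -/
theorem shape (n : ℕ) : ShapePin n := by
  intro hn G D h Ω o R y ξ u hΩ hV ⟨hΩK, hu, hlim⟩ hξ hon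
  have : NeZero n := ⟨by omega⟩
  have hK : IsCompact {y | D o y ≤ R} := h.proper o R
  obtain ⟨V, hVd⟩ : ∃ V, V = volG G Ω := ⟨_, rfl⟩
  rw [← hVd] at hV hon
  have hw := unitBall_pos n
  obtain ⟨r, hr⟩ : ∃ r, r = radius n V := ⟨_, rfl⟩
  have hr0 : 0 < r := by rw [hr, radius]; positivity
  have hr2 : (V / Bend.unitBall n) ^ (2 / n : ℝ) = r ^ 2 := by
    rw [hr, radius, ← Real.rpow_natCast _ 2, ← Real.rpow_mul (by positivity)]
    congr 1
    push_cast
    ring
  have hrn : r ^ n * Bend.unitBall n = V := by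
    rw [hr, radius, one_div, Real.rpow_inv_natCast_pow (by positivity) (NeZero.ne n),
      div_mul_cancel₀ _ hw.ne']
  unfold Isometric
  rw [← hVd, hr2]
  set a : Fin n → ℝ := r • (Sharp.frame G y *ᵥ ξ)
  set Φ := chart G D y a
  have hΦ : ContDiff ℝ 1 Φ := contDiff_chart h y a
  have hbij : Function.Bijective Φ := chart_bijective h y a (Six.covector_bijective h y)
  have hsq : ∀ x, Φ x ⬝ᵥ Φ x = r ^ 2 + 2 * (D x y + r * pairing G y ξ (cd (D x) y)) := fun x => by
    have hp : pairing G y ξ ξ = 1 := by rw [← h.conorm_sq, hξ, one_pow]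
    rw [dot_chart h, hp]
    ring
  have hdet : ∀ x, |(fderiv ℝ Φ x).det| = jfac G D x y * dens G x := abs_det_fderiv_chart h y a
  have hd0 : ∀ x, 0 < |(fderiv ℝ Φ x).det| := fun x => by
    rw [hdet]
    refine mul_pos (lt_of_le_of_ne (jfac_nonneg h x y) (Ne.symm ?_)) (h.dens_pos x)
    refine div_ne_zero (abs_ne_zero.2 fun h0 => ?_) (mul_pos (h.dens_pos x) (h.dens_pos y)).ne'
    rw [ContinuousLinearMap.det, LinearMap.det_eq_zero_iff_ker_ne_bot] at h0
    exact h0 (LinearMap.ker_eq_bot.2 (Six.mixed_injective h x y))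
  have hdf : ∀ s : Set (Fin n → ℝ), ∀ x ∈ s, HasFDerivWithinAt Φ (fderiv ℝ Φ x) s x := fun s x _ =>
    ((hΦ.differentiable one_ne_zero x).hasFDerivAt).hasFDerivWithinAt
  have hopen : IsOpenMap Φ := by
    refine IsOpenMap.of_nhds_le fun x => ?_
    obtain ⟨L, hL⟩ : ∃ L : (Fin n → ℝ) ≃L[ℝ] (Fin n → ℝ),
        (L : (Fin n → ℝ) →L[ℝ] (Fin n → ℝ)) = fderiv ℝ Φ x := by
      have hinj : Function.Injective (fderiv ℝ Φ x) := by
        refine (LinearMap.ker_eq_bot (f := (fderiv ℝ Φ x).toLinearMap)).1 ?_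
        by_contra hk
        have := hd0 x
        rw [ContinuousLinearMap.det, LinearMap.det_eq_zero_iff_ker_ne_bot.2 hk, abs_zero] at this
        exact lt_irrefl _ this
      exact ⟨Six.Descent.equivOfInj _ hinj, Six.Descent.coe_equivOfInj _ hinj⟩
    have hstrict : HasStrictFDerivAt Φ (L : (Fin n → ℝ) →L[ℝ] (Fin n → ℝ)) x := by
      rw [hL]; exact hΦ.contDiffAt.hasStrictFDerivAt one_ne_zero
    exact hstrict.map_nhds_eq_of_equiv.ge
  have hdot : Continuous fun z : Fin n → ℝ => z ⬝ᵥ z := continuous_id.dotProduct continuous_id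
  have hnull : ∀ s : Set (Fin n → ℝ), MeasurableSet s → volume (Φ '' s) = 0 → volume s = 0 := by
    intro s hs hz
    rw [← lintegral_abs_det_fderiv_eq_addHaar_image volume hs (hdf _) hbij.1.injOn,
      lintegral_eq_zero_iff (show Measurable fun x => ENNReal.ofReal |(fderiv ℝ Φ x).det| from
        (ContinuousLinearMap.continuous_det.comp
          (hΦ.continuous_fderiv one_ne_zero)).abs.measurable.ennreal_ofReal)] at hz
    have hf : ∀ᵐ x ∂(volume.restrict s), False := hz.mono fun x hx => by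
      simp only [Pi.zero_apply, ENNReal.ofReal_eq_zero] at hx
      exact absurd (hd0 x) (not_lt.2 hx)
    rw [eventually_false_iff_eq_bot, ae_eq_bot, Measure.restrict_eq_zero] at hf
    exact hf
  set W : Set (Fin n → ℝ) := Φ ⁻¹' {z | z ⬝ᵥ z < r ^ 2}
  set U : Set (Fin n → ℝ) := {x | Φ x ⬝ᵥ Φ x ≠ r ^ 2}
  have hWo : IsOpen W := (isOpen_lt hdot continuous_const).preimage hΦ.continuous
  have hUo : IsOpen U := isOpen_ne_fun (hdot.comp hΦ.continuous) continuous_const
  have himg : Φ '' W = {z | z ⬝ᵥ z < r ^ 2} := Set.image_preimage_eq _ hbij.2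
  have hS : volume Uᶜ = 0 := by
    refine hnull _ hUo.measurableSet.compl ?_
    refine measure_mono_null (t := {z : Fin n → ℝ | z ⬝ᵥ z ≤ r ^ 2} \ {z | z ⬝ᵥ z < r ^ 2}) ?_ ?_
    · rintro z ⟨x, hx, rfl⟩
      have e : Φ x ⬝ᵥ Φ x = r ^ 2 := not_not.1 hx
      exact ⟨e.le, fun hlt : Φ x ⬝ᵥ Φ x < r ^ 2 => hlt.ne e⟩
    · rw [measure_sdiff (show {z : Fin n → ℝ | z ⬝ᵥ z < r ^ 2} ⊆ {z | z ⬝ᵥ z ≤ r ^ 2} from
          fun z (hz : z ⬝ᵥ z < r ^ 2) => le_of_lt hz)
        (isOpen_lt hdot continuous_const).measurableSet.nullMeasurableSet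
        (by rw [(volume_dot_ball hr0.le).2]; exact ENNReal.ofReal_ne_top),
        (volume_dot_ball hr0.le).1, (volume_dot_ball hr0.le).2, tsub_self]
  -- locally full or locally null away from the sphere
  have hΩf : volume Ω ≠ ∞ := ((measure_mono hΩK).trans_lt hK.measure_lt_top).ne
  have hlim' : Tendsto (fun k => ∫⁻ z, ENNReal.ofReal |u k z - Ω.indicator 1 z|) atTop (𝓝 0) := by
    have h1 := ENNReal.tendsto_ofReal hlim
    rw [ENNReal.ofReal_zero] at h1
    refine h1.congr fun k => ofReal_integral_eq_lintegral_ofReal ?_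
      (Eventually.of_forall fun z => abs_nonneg _)
    refine ((?_ : Integrable (u k)).sub
      ((integrableOn_const (μ := volume) (C := (1 : ℝ)) hΩf).integrable_indicator hΩ)).abs
    simpa using (hu k).integrable hK (continuous_const (y := (1 : ℝ)))
  set Uin : Set (Fin n → ℝ) := {x | ∃ δ > 0, volume (Metric.ball x δ \ Ω) = 0}
  set Uout : Set (Fin n → ℝ) := {x | ∃ δ > 0, volume (Metric.ball x δ ∩ Ω) = 0}
  have hcover : U ⊆ Uin ∪ Uout := by
    intro x hx
    obtain ⟨ε, hε, hεU⟩ := Metric.nhds_basis_closedBall.mem_iff.1 (hUo.mem_nhds hx)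
    have hT : IsCompact (Metric.closedBall x (3 * (ε / 3))) := isCompact_closedBall _ _
    have hsub : Metric.closedBall x (3 * (ε / 3)) ⊆ U := by
      rw [mul_div_cancel₀ ε three_ne_zero]; exact hεU
    obtain ⟨C, hC0, hC⟩ := exists_opNorm_le h hT
    have h1 := hon _ hT fun z hz hz0 => hsub hz (by rw [hsq, hr]; linarith)
    have h2 := ENNReal.Tendsto.const_mul h1 (Or.inr (ENNReal.ofReal_ne_top (r := C)))
    rw [mul_zero] at h2
    have h3 : Tendsto (fun k => ∫⁻ z in Metric.closedBall x (3 * (ε / 3)),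
        ENNReal.ofReal ‖fderiv ℝ (u k) z‖) atTop (𝓝 0) := by
      refine tendsto_of_tendsto_of_tendsto_of_le_of_le tendsto_const_nhds h2 (fun _ => zero_le)
        fun k => ?_
      rw [← lintegral_const_mul' _ _ ENNReal.ofReal_ne_top]
      refine setLIntegral_mono' hT.isClosed.measurableSet fun z hz => ?_
      rw [← ENNReal.ofReal_mul hC0]
      exact ENNReal.ofReal_le_ofReal (hC _ z hz)
    rcases full_or_null hΩ (fun k => (hu k).1) hlim' x (by positivity : 0 < ε / 3) h3 with h0 | h0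
    · exact Or.inr ⟨ε / 3, by positivity, h0⟩
    · exact Or.inl ⟨ε / 3, by positivity, h0⟩
  have hin : IsOpen Uin := Metric.isOpen_iff.2 fun x ⟨δ, hδ, h0⟩ => ⟨δ, hδ, fun z hz => by
    obtain ⟨ε, hε, hsub⟩ := Metric.isOpen_iff.1 Metric.isOpen_ball z hz
    exact ⟨ε, hε, measure_mono_null (sdiff_subset_sdiff_left hsub) h0⟩⟩
  have hout : IsOpen Uout := Metric.isOpen_iff.2 fun x ⟨δ, hδ, h0⟩ => ⟨δ, hδ, fun z hz => by
    obtain ⟨ε, hε, hsub⟩ := Metric.isOpen_iff.1 Metric.isOpen_ball z hz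
    exact ⟨ε, hε, measure_mono_null (inter_subset_inter_left _ hsub) h0⟩⟩
  have hdisj : Disjoint Uin Uout := by
    refine Set.disjoint_left.2 fun x ⟨δ, hδ, h0⟩ ⟨δ', hδ', h0'⟩ => ?_
    refine (Metric.measure_ball_pos volume x (lt_min hδ hδ')).ne' ?_
    refine measure_mono_null (fun z hz => ?_) (measure_union_null h0 h0')
    by_cases hzΩ : z ∈ Ω
    · exact Or.inr ⟨Metric.ball_subset_ball (min_le_right _ _) hz, hzΩ⟩
    · exact Or.inl ⟨Metric.ball_subset_ball (min_le_left _ _) hz, hzΩ⟩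
  have hdisj' : Disjoint (Φ '' Uin) (Φ '' Uout) := (disjoint_image_iff hbij.1).2 hdisj
  have hpre : ∀ C : Set (Fin n → ℝ), (∀ z ∈ C, z ⬝ᵥ z ≠ r ^ 2) →
      C ⊆ Φ '' Uin ∪ Φ '' Uout := by
    intro C hC z hz
    obtain ⟨x, rfl⟩ := hbij.2 z
    rcases hcover (show x ∈ U from hC _ hz) with hh | hh
    · exact Or.inl ⟨x, hh, rfl⟩
    · exact Or.inr ⟨x, hh, rfl⟩
  have hfar : ∀ x, r ^ 2 < Φ x ⬝ᵥ Φ x → x ∈ Uout := by
    intro x hx
    obtain ⟨M, hM⟩ := (hK.image hΦ.continuous).isBounded.subset_closedBall 0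
    have hne : Φ x ≠ 0 := fun h0 => by
      rw [h0, dotProduct_zero] at hx
      linarith [pow_pos hr0 2]
    obtain ⟨t, ht⟩ : ∃ t, t = max 1 ((M + 1) / ‖Φ x‖) := ⟨_, rfl⟩
    have hray : IsPreconnected ((fun t : ℝ => t • Φ x) '' Ici 1) :=
      isPreconnected_Ici.image _ (by fun_prop)
    have hoff : ∀ z ∈ (fun t : ℝ => t • Φ x) '' Ici 1, z ⬝ᵥ z ≠ r ^ 2 := by
      rintro z ⟨t, ht : 1 ≤ t, rfl⟩
      rw [smul_dotProduct, dotProduct_smul, smul_eq_mul, smul_eq_mul, ← mul_assoc]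
      have : 1 * (Φ x ⬝ᵥ Φ x) ≤ t * t * (Φ x ⬝ᵥ Φ x) :=
        mul_le_mul_of_nonneg_right (by nlinarith) ((pow_pos hr0 2).trans hx).le
      intro he
      linarith
    have hmeet : ((fun t : ℝ => t • Φ x) '' Ici 1 ∩ Φ '' Uout).Nonempty := by
      refine ⟨t • Φ x, ⟨t, mem_Ici.2 (le_of_le_of_eq (le_max_left _ _) ht.symm), rfl⟩, ?_⟩
      obtain ⟨p, hp⟩ := hbij.2 (t • Φ x)
      refine ⟨p, ?_, hp⟩
      have hpK : p ∈ {y | D o y ≤ R}ᶜ := fun hpK => by
        have h1 := hM ⟨p, hpK, rfl⟩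
        rw [hp, Metric.mem_closedBall, dist_zero_right, norm_smul, Real.norm_eq_abs,
          abs_of_pos (by rw [ht]; positivity)] at h1
        have h2 : (M + 1) / ‖Φ x‖ * ‖Φ x‖ ≤ t * ‖Φ x‖ :=
          mul_le_mul_of_nonneg_right (ht ▸ le_max_right _ _) (norm_nonneg _)
        rw [div_mul_cancel₀ _ (norm_ne_zero_iff.2 hne)] at h2
        linarith
      obtain ⟨ε, hε, hsub⟩ := Metric.isOpen_iff.1 hK.isClosed.isOpen_compl p hpK
      exact ⟨ε, hε, measure_mono_null (t := ∅) (fun z hz => (hsub hz.1 (hΩK hz.2)).elim)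
        measure_empty⟩
    have hsub := hray.subset_left_of_subset_union (hopen _ hout) (hopen _ hin) hdisj'.symm
      ((hpre _ hoff).trans (union_comm _ _).subset) hmeet
    obtain ⟨x', hx', he⟩ := hsub ⟨1, Set.self_mem_Ici, one_smul _ _⟩
    exact hbij.1 he ▸ hx'
  have hlocnull : ∀ s : Set (Fin n → ℝ), s ⊆ Uout → volume (s ∩ Ω) = 0 := fun s hs =>
    measure_null_of_locally_null _ fun x hx => by
      obtain ⟨δ, hδ, h0⟩ := hs hx.1
      exact ⟨_, inter_mem_nhdsWithin _ (Metric.ball_mem_nhds x hδ),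
        measure_mono_null (fun z hz => show z ∈ Metric.ball x δ ∩ Ω from ⟨hz.2, hz.1.2⟩) h0⟩
  have hWsub : W ⊆ Uin := by
    have hballdich := hpre {z | z ⬝ᵥ z < r ^ 2} fun z hz => ne_of_lt hz
    rcases (({z : Fin n → ℝ | z ⬝ᵥ z < r ^ 2} ∩ Φ '' Uin)).eq_empty_or_nonempty with he | he
    · exfalso
      have hWout : W ⊆ Uout := by
        intro x hx
        rcases hballdich (show Φ x ∈ _ from hx) with hh | ⟨x', hx', e⟩
        · exact absurd (show Φ x ∈ (∅ : Set (Fin n → ℝ)) from he ▸ ⟨hx, hh⟩) (notMem_empty _)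
        · exact hbij.1 e ▸ hx'
      have hUout : U ⊆ Uout := fun x hx => by
        rcases lt_or_gt_of_ne hx with hl | hg
        · exact hWout hl
        · exact hfar x hg
      have h0 : volume Ω = 0 := measure_mono_null (fun x hx => by
          by_cases hxU : x ∈ U
          · exact Or.inl ⟨hxU, hx⟩
          · exact Or.inr hxU)
        (measure_union_null (hlocnull U hUout) hS)
      rw [hVd, volG, Measure.restrict_eq_zero.2 h0, integral_zero_measure] at hV
      exact lt_irrefl _ hV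
    · have hsub := (isPreconnected_dot_ball hr0.le).subset_left_of_subset_union (hopen _ hin)
        (hopen _ hout) hdisj' hballdich he
      intro x hx
      obtain ⟨x', hx', e⟩ := hsub (show Φ x ∈ _ from hx)
      exact hbij.1 e ▸ hx'
  have hWΩ : volume (W \ Ω) = 0 := measure_null_of_locally_null _ fun x hx => by
    obtain ⟨δ, hδ, h0⟩ := hWsub hx.1
    exact ⟨_, inter_mem_nhdsWithin _ (Metric.ball_mem_nhds x hδ),
      measure_mono_null (fun z hz => show z ∈ Metric.ball x δ \ Ω from ⟨hz.2, hz.1.2⟩) h0⟩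
  have hΩW : volume (Ω \ W) = 0 := by
    refine measure_mono_null (fun x hx => ?_)
      (measure_union_null (hlocnull {x | r ^ 2 < Φ x ⬝ᵥ Φ x} hfar) hS)
    by_cases hxU : x ∈ U
    · exact Or.inl ⟨(lt_or_gt_of_ne hxU).resolve_left hx.2, hx.1⟩
    · exact Or.inr hxU
  have heq : Ω =ᵐ[volume] W := ae_eq_set.2 ⟨hΩW, hWΩ⟩
  -- the Jacobian is one on the ball
  have hdensm : Measurable fun x => ENNReal.ofReal (dens G x) :=
    h.continuous_dens.measurable.ennreal_ofReal
  have hWd : ∫⁻ x in W, ENNReal.ofReal (dens G x) = ENNReal.ofReal V := by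
    rw [← setLIntegral_congr heq, hVd, volG, ofReal_integral_eq_lintegral_ofReal
      ((h.continuous_dens.continuousOn.integrableOn_compact hK).mono_set hΩK)
      (Eventually.of_forall fun x => (h.dens_pos x).le)]
  have hWj : ∫⁻ x in W, ENNReal.ofReal |(fderiv ℝ Φ x).det| = ENNReal.ofReal V := by
    rw [lintegral_abs_det_fderiv_eq_addHaar_image volume hWo.measurableSet (hdf _) hbij.1.injOn,
      himg, (volume_dot_ball hr0.le).2, hrn]
  have haej : ∀ᵐ x ∂(volume.restrict W),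
      ENNReal.ofReal |(fderiv ℝ Φ x).det| = ENNReal.ofReal (dens G x) := by
    refine ae_eq_of_ae_le_of_lintegral_le (Eventually.of_forall fun x => ?_)
      (by rw [hWj]; exact ENNReal.ofReal_ne_top) hdensm.aemeasurable (by rw [hWd, hWj])
    refine ENNReal.ofReal_le_ofReal ?_
    rw [hdet]
    exact mul_le_of_le_one_left (h.dens_pos x).le (jfac_le_one h x y)
  have hj : EqOn (fun x => jfac G D x y) (fun _ => (1 : ℝ)) W := by
    refine Measure.eqOn_open_of_ae_eq (μ := (volume : Measure (Fin n → ℝ))) ?_ hWo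
      ((continuous_jfac h).comp (continuous_id.prodMk continuous_const)).continuousOn
      continuousOn_const
    refine haej.mono fun x hx => ?_
    rw [ENNReal.ofReal_eq_ofReal_iff (abs_nonneg _) (h.dens_pos x).le, hdet] at hx
    simpa [(h.dens_pos x).ne'] using hx
  refine ⟨W, Φ, hWo, hΦ, hbij, himg, fun x hx v => chart_isometric h y a x (hj hx) v, heq, ?_⟩
  intro hΩo hreg
  refine Subset.antisymm ?_ ?_
  · intro x hx
    by_contra hxW
    -- an open set inside the closed ball lies in the open one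
    have hsmall : ∀ z ∈ Ω, Φ z ⬝ᵥ Φ z ≤ r ^ 2 := fun z hz => by
      by_contra hh
      rw [not_le] at hh
      exact (hΩo.inter ((isOpen_lt continuous_const hdot).preimage hΦ.continuous)).measure_ne_zero
        volume ⟨z, hz, hh⟩ (measure_mono_null (fun q hq => show q ∈ Ω \ W from
          ⟨hq.1, fun hq' : Φ q ⬝ᵥ Φ q < r ^ 2 => lt_asymm hq' hq.2⟩) hΩW)
    have hnx : Φ x ⬝ᵥ Φ x = r ^ 2 := le_antisymm (hsmall x hx) (not_lt.1 hxW)
    have hcont : Tendsto (fun t : ℝ => (1 + t) • Φ x) (𝓝[>] 0) (𝓝 (Φ x)) :=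
      (Continuous.tendsto' (by fun_prop) _ _ (by simp)).mono_left nhdsWithin_le_nhds
    obtain ⟨t, ⟨z, hz, hzt⟩, ht⟩ :=
      ((hcont.eventually (hopen.image_mem_nhds (hΩo.mem_nhds hx))).and self_mem_nhdsWithin).exists
    have hzC := hsmall z hz
    rw [hzt, smul_dotProduct, dotProduct_smul, hnx, smul_eq_mul, smul_eq_mul] at hzC
    have ht' : (0 : ℝ) < t := ht
    nlinarith [mul_pos ht' (pow_pos hr0 2)]
  · rw [← hreg, hWo.subset_interior_iff]
    intro x hx
    by_contra hxΩ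
    exact (hWo.inter isClosed_closure.isOpen_compl).measure_ne_zero volume ⟨x, hx, hxΩ⟩
      (measure_mono_null (fun z hz => show z ∈ W \ Ω from
        ⟨hz.1, fun hh => hz.2 (subset_closure hh)⟩) hWΩ)

end Vale.Agent.P219.CH.Rigid
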