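import Vale.Agent.P219.Rigid.Jac
import Vale.Agent.P219.Five.Lines

/-!
# P219: the inequality along geodesics, keeping the slack
-/

noncomputable section

open MeasureTheory Set Filter Topology Matrix
open scoped ENNReal

namespace Vale.Agent.P219.CH.Rigid

open Six (Phase IsExp vnorm liou volM flow slp cosv acos fibre)

variable {G : (Fin 5 → ℝ) → Matrix (Fin 5) (Fin 5) ℝ} {D : (Fin 5 → ℝ) → (Fin 5 → ℝ) → ℝ} {e : Phase 5 → (Fin 5 → ℝ)} {u : (Fin 5 → ℝ) → ℝ}

lemma abs_cosAt_le (h : IsCH G D) (x y ξ : (Fin 5 → ℝ)) : |cosAt G D x y ξ| ≤ 1 := by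
  rw [cosAt, abs_div, abs_neg,
    abs_of_nonneg (mul_nonneg (conorm_nonneg (G := G) y ξ) (Real.sqrt_nonneg (2 * D x y)))]
  refine div_le_one_of_le₀ ((h.abs_pairing_le y ξ _).trans (le_of_eq ?_))
    (mul_nonneg (conorm_nonneg _ _) (Real.sqrt_nonneg _))
  rw [conorm, conorm, h.eikonal]

lemma abs_cosAt_cd (u : (Fin 5 → ℝ) → ℝ) (x y : (Fin 5 → ℝ)) :
    |cosAt G D x y (cd u y)| = acos G D u x y := by
  rw [cosAt, acos, normalPart, abs_div, abs_neg,
    abs_of_nonneg (mul_nonneg (conorm_nonneg (G := G) y (cd u y)) (Real.sqrt_nonneg (2 * D x y)))]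

lemma kernAt_nonneg (h : IsCH G D) {s ε : ℝ} (hs : 0 < s) (hε : 0 < ε) (x y ξ : (Fin 5 → ℝ)) :
    0 ≤ Five.kern (s * Real.sqrt (2 * D x y + ε ^ 2)) |cosAt G D x y ξ| := by
  refine Five.kern_nonneg (by have := h.dist_nonneg x y; positivity) ?_
  rw [abs_abs]; exact abs_cosAt_le h x y ξ

lemma exitKer_le (τ τ' d : ℝ) : exitKer τ τ' d ≤ Five.kern τ' |d| := min_le_left _ _

lemma exitKer_nonneg {τ τ' d : ℝ} (hk : 0 ≤ Five.kern τ' |d|) : 0 ≤ exitKer τ τ' d :=
  le_min hk (div_nonneg (mul_nonneg zero_le_two (le_max_right _ _)) (by positivity))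

lemma slackKer_nonneg (h : IsCH G D) {s ε : ℝ} (hs : 0 < s) (hε : 0 < ε) (x y ξ : (Fin 5 → ℝ)) :
    0 ≤ slackKer G D s ε x y ξ := by
  have hk := kernAt_nonneg h hs hε x y ξ
  refine sub_nonneg.2 ?_
  exact (mul_le_of_le_one_left (exitKer_nonneg hk) (jfac_le_one h x y)).trans (exitKer_le _ _ _)

/-- The used part of the kernel, seen from `x`. -/
def exitAt (G : (Fin 5 → ℝ) → Matrix (Fin 5) (Fin 5) ℝ) (D : (Fin 5 → ℝ) → (Fin 5 → ℝ) → ℝ) (u : (Fin 5 → ℝ) → ℝ) (s ε : ℝ)
    (x y : (Fin 5 → ℝ)) : ℝ≥0∞ :=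
  ENNReal.ofReal (exitKer (s * Real.sqrt (2 * D x y)) (s * Real.sqrt (2 * D x y + ε ^ 2))
    (cosAt G D x y (cd u y))) * ENNReal.ofReal (conorm G y (cd u y))

lemma measurable_cosAt_cd (h : IsCH G D) (hu : ContDiff ℝ 1 u) :
    Measurable fun w : Phase 5 => cosAt G D w.1 w.2 (cd u w.2) := by
  have h1 : Continuous fun w : Phase 5 => pairing G w.2 (cd u w.2) (cd (D w.1) w.2) :=
    h.continuous_pairing.comp (continuous_snd.prodMk (((continuous_cd hu).comp continuous_snd).prodMk
      ((Sharp.contDiff_logCovector h).continuous.comp (continuous_snd.prodMk continuous_fst))))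
  exact h1.neg.measurable.div (((h.continuous_conorm_cd hu).comp continuous_snd).mul
    (continuous_const.mul h.continuous_D).sqrt).measurable

lemma measurable_exitAt (h : IsCH G D) (hu : ContDiff ℝ 1 u) (s ε : ℝ) :
    Measurable fun w : Phase 5 => exitAt G D u s ε w.1 w.2 := by
  have hd := measurable_cosAt_cd h hu
  have hr : Measurable fun w : Phase 5 => s * Real.sqrt (2 * D w.1 w.2 + ε ^ 2) :=
    ((continuous_const.mul h.continuous_D).add continuous_const).sqrt.measurable.const_mul s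
  have hr0 : Measurable fun w : Phase 5 => s * Real.sqrt (2 * D w.1 w.2) :=
    (continuous_const.mul h.continuous_D).sqrt.measurable.const_mul s
  unfold exitAt exitKer
  exact (((Five.measurable_kern.comp (hr.prodMk hd.abs)).min
    (((hd.max measurable_const).const_mul 2).div (hr0.pow_const 4))).ennreal_ofReal).mul
      ((h.continuous_conorm_cd hu).measurable.comp measurable_snd).ennreal_ofReal

lemma measurable_slackKer_cd (h : IsCH G D) (hu : ContDiff ℝ 1 u) (s ε : ℝ) :
    Measurable fun w : Phase 5 => slackKer G D s ε w.1 w.2 (cd u w.2) := by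
  have hd := measurable_cosAt_cd h hu
  have hr : Measurable fun w : Phase 5 => s * Real.sqrt (2 * D w.1 w.2 + ε ^ 2) :=
    ((continuous_const.mul h.continuous_D).add continuous_const).sqrt.measurable.const_mul s
  have hr0 : Measurable fun w : Phase 5 => s * Real.sqrt (2 * D w.1 w.2) :=
    (continuous_const.mul h.continuous_D).sqrt.measurable.const_mul s
  unfold slackKer exitKer
  exact (Five.measurable_kern.comp (hr.prodMk hd.abs)).sub ((continuous_jfac h).measurable.mul
    ((Five.measurable_kern.comp (hr.prodMk hd.abs)).min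
      (((hd.max measurable_const).const_mul 2).div (hr0.pow_const 4))))

attribute [local irreducible] exitAt Five.lossAt Five.kerAt

/-- The kernel is the used part weighted by the Jacobian plus the slack. -/
lemma split_kerAt (h : IsCH G D) {s ε : ℝ} (hs : 0 < s) (hε : 0 < ε) (x y : (Fin 5 → ℝ)) :
    ENNReal.ofReal (jfac G D x y) * exitAt G D u s ε x y +
      ENNReal.ofReal (slackKer G D s ε x y (cd u y)) * ENNReal.ofReal (conorm G y (cd u y)) =
        Five.kerAt G D u s ε x y := by
  have hk := kernAt_nonneg h hs hε x y (cd u y)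
  rw [exitAt, Five.kerAt, ← mul_assoc, ← add_mul, ← ENNReal.ofReal_mul (jfac_nonneg h x y),
    ← ENNReal.ofReal_add (mul_nonneg (jfac_nonneg h x y) (exitKer_nonneg hk))
      (slackKer_nonneg h hs hε x y _), slackKer, add_sub_cancel, abs_cosAt_cd]

lemma lintegral_slackKer (h : IsCH G D) (hu : ContDiff ℝ 1 u) (s ε : ℝ) (x : (Fin 5 → ℝ)) :
    ∫⁻ y, ENNReal.ofReal (slackKer G D s ε x y (cd u y)) *
        ENNReal.ofReal (conorm G y (cd u y)) ∂volM G =
      ∫⁻ y, ENNReal.ofReal (slackKer G D s ε x y (cd u y)) ∂Sharp.pm G u := by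
  have hk : Measurable fun y => ENNReal.ofReal (slackKer G D s ε x y (cd u y)) :=
    ((measurable_slackKer_cd h hu s ε).comp measurable_prodMk_left).ennreal_ofReal
  rw [volM, lintegral_withDensity_eq_lintegral_mul _ h.continuous_dens.measurable.ennreal_ofReal
      (hk.fun_mul (h.continuous_conorm_cd hu).measurable.ennreal_ofReal), Sharp.pm,
    lintegral_withDensity_eq_lintegral_mul _
      (show Measurable fun y => ENNReal.ofReal (conorm G y (cd u y) * dens G y) from
        ((h.continuous_conorm_cd hu).mul h.continuous_dens).measurable.ennreal_ofReal) hk]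
  refine lintegral_congr fun y => ?_
  simp only [Pi.mul_apply, ENNReal.ofReal_mul (conorm_nonneg _ _)]
  ring

/-- The certificate at one time of a line, with the used part only. -/
lemma slope_le_exit (h : IsCH G D) (he : IsExp G D e) {η δ s ε : ℝ} (hη : 0 < η) (hη1 : η < 1)
    (hgap : ∀ τ τ' d : ℝ, 0 ≤ τ → τ ≤ 3 → τ ≤ τ' → τ' ≤ τ + δ → d ∈ Icc (0 : ℝ) 1 →
      Five.gapN τ' d ≤ Five.gapN τ d + η)
    (hs : 0 < s) (hε : 0 < ε) (hsδ : s * ε ≤ δ) (hsη : s * ε ≤ η ^ 2 / 2) (p : Phase 5) {t : ℝ}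
    (ht : 0 < t) :
    ENNReal.ofReal (2 * (1 - η)) * ENNReal.ofReal (-slp u (flow e t p)) ≤
      ENNReal.ofReal (s ^ 4) * (exitAt G D u s ε p.1 (Six.line e p t) *
          ENNReal.ofReal ((t * vnorm G p.1 p.2) ^ 4 * vnorm G p.1 p.2)) +
        Five.lossAt G u η s t (flow e t p) := by
  rcases le_or_gt 0 (slp u (flow e t p)) with h0 | h0
  · simp [ENNReal.ofReal_of_nonpos (neg_nonpos.2 h0)]
  have hN' : vnorm G (flow e t p).1 (flow e t p).2 = vnorm G p.1 p.2 := Six.vnorm_flow h he p t
  have hle := h.dotProduct_le (flow e t p).1 (cd u (flow e t p).1) (flow e t p).2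
  rw [hN'] at hle
  obtain ⟨N, hN⟩ : ∃ z, z = vnorm G p.1 p.2 := ⟨_, rfl⟩
  obtain ⟨c, hc⟩ : ∃ z, z = conorm G (flow e t p).1 (cd u (flow e t p).1) := ⟨_, rfl⟩
  obtain ⟨a, ha⟩ : ∃ z, z = slp u (flow e t p) := ⟨_, rfl⟩
  change |slp u (flow e t p)| ≤ _ at hle
  rw [← ha, ← hc, ← hN, abs_of_neg (ha ▸ h0)] at hle
  have ha0 : 0 < -a := by rw [ha]; linarith
  have hcN : 0 < c * N := ha0.trans_le hle
  have hc0 : 0 < c := pos_of_mul_pos_left hcN (hN ▸ Real.sqrt_nonneg _)
  have hN0 : 0 < N := pos_of_mul_pos_right hcN (hc ▸ conorm_nonneg _ _)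
  have hcos : cosv G u (flow e t p) = -a / (c * N) := by
    rw [cosv, hN', ← ha, ← hc, ← hN, abs_of_neg (ha ▸ h0)]
  have hD : 2 * D p.1 (Six.line e p t) = (t * N) ^ 2 := by
    rw [Six.dist_start h he, hN]; ring
  have hd := Five.cosv_mem (u := u) h (flow e t p)
  have hca : cosAt G D p.1 (Six.line e p t) (cd u (Six.line e p t)) = cosv G u (flow e t p) := by
    have hnp : normalPart G D p.1 u (Six.line e p t) = t * a := by
      rw [ha, normalPart, pairing]
      change cd u (Six.line e p t) ⬝ᵥ grad G (D p.1) (Six.line e p t) = _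
      rw [Six.grad_line h he, dotProduct_smul, smul_eq_mul]
      rfl
    rw [normalPart] at hnp
    rw [hcos, cosAt, hnp, hD, Real.sqrt_sq (by positivity),
      show conorm G (Six.line e p t) (cd u (Six.line e p t)) = c from hc.symm]
    field_simp
  have key := Five.line_bound hη hη1 hgap (τ := s * t * N) (σ := s * ε)
    (d := cosv G u (flow e t p)) (by positivity) (by positivity) hsδ hsη hd
  have hsq : Real.sqrt ((s * t * N) ^ 2 + (s * ε) ^ 2) =
      s * Real.sqrt ((t * N) ^ 2 + ε ^ 2) := by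
    rw [show (s * t * N) ^ 2 + (s * ε) ^ 2 = s ^ 2 * ((t * N) ^ 2 + ε ^ 2) by ring,
      Real.sqrt_mul (sq_nonneg s), Real.sqrt_sq hs.le]
  rw [hsq] at key
  obtain ⟨d, hdd⟩ : ∃ z, z = cosv G u (flow e t p) := ⟨_, rfl⟩
  rw [← hdd] at hd key hcos hca
  have hk : 0 ≤ Five.kern (s * Real.sqrt ((t * N) ^ 2 + ε ^ 2)) |d| :=
    Five.kern_nonneg (by positivity) (by rw [abs_abs, abs_of_nonneg hd.1]; exact hd.2)
  obtain ⟨ek, hek⟩ : ∃ z,
      z = exitKer (s * (t * N)) (s * Real.sqrt ((t * N) ^ 2 + ε ^ 2)) d := ⟨_, rfl⟩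
  have hek0 : 0 ≤ ek := hek ▸ exitKer_nonneg hk
  have hg : 0 ≤ Five.gapN (s * t * N) d + Five.slack η (s * t * N) :=
    add_nonneg (Five.gapN_nonneg _ _) (Five.slack_nonneg hη.le _)
  have key' : 2 * (1 - η) * d ≤
      (s * t * N) ^ 4 * ek + (Five.gapN (s * t * N) d + Five.slack η (s * t * N)) := by
    rcases min_choice (Five.kern (s * Real.sqrt ((t * N) ^ 2 + ε ^ 2)) |d|)
        (2 * max d 0 / (s * (t * N)) ^ 4) with hm | hm <;> rw [hek, exitKer, hm]
    · rw [abs_of_nonneg hd.1]; exact key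
    · rw [max_eq_left hd.1, show (s * t * N) ^ 4 * (2 * d / (s * (t * N)) ^ 4) = 2 * d by
        field_simp]
      nlinarith [hd.1]
  have key2 := mul_le_mul_of_nonneg_right key' hcN.le
  rw [show 2 * (1 - η) * d * (c * N) = 2 * (1 - η) * -a by rw [hcos]; field_simp] at key2
  rw [← ha, ← ENNReal.ofReal_mul (by linarith), exitAt, hca, hD, Real.sqrt_sq (by positivity),
    ← hek, ← hN, show conorm G (Six.line e p t) (cd u (Six.line e p t)) = c from hc.symm,
    Five.lossAt, indicator_of_mem (show flow e t p ∈ {q | slp u q < 0} from h0), ← hdd, hN', ← hN,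
    ← hc, ← ENNReal.ofReal_mul hek0, ← ENNReal.ofReal_mul (mul_nonneg hek0 hc0.le),
    ← ENNReal.ofReal_mul (by positivity), ← ENNReal.ofReal_add (by positivity)
      (mul_nonneg hg (by positivity))]
  refine ENNReal.ofReal_le_ofReal (key2.trans_eq ?_)
  ring

/-- `LinesSlackPin`. -/
theorem linesSlack (hmom : Five.MomentPin) (hint : Five.IntegralPin) : LinesSlackPin := by
  intro G D e h he η s₁ hη hη1 hs₁
  obtain ⟨δ, hδ, hgap⟩ := Five.exists_gap_step hη
  refine ⟨min δ (η ^ 2 / 2) / s₁, div_pos (lt_min hδ (by positivity)) hs₁,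
    fun ε s o R u B hε0 hεle hs hs1 hu hB hrow => ?_⟩
  have hsε : s * ε ≤ min δ (η ^ 2 / 2) :=
    (mul_le_mul hs1 hεle hε0.le hs₁.le).trans_eq (by field_simp)
  have hK := h.proper o R
  have hm5 : 0 ≤ Five.mass5 := by unfold Five.mass5; positivity
  have hp5 : 0 ≤ Five.polar5 := by unfold Five.polar5; positivity
  have hu0 : ∀ y, 0 ≤ u y := fun y => (hu.2.2 y).1
  have hu1 : ∀ y, u y ≤ 1 := fun y => (hu.2.2 y).2
  have hum : Measurable fun x => ENNReal.ofReal (u x) := hu.1.continuous.measurable.ennreal_ofReal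
  have hem := measurable_exitAt h hu.1 s ε
  have hjm : Measurable fun w : Phase 5 =>
      ENNReal.ofReal (jfac G D w.1 w.2) * exitAt G D u s ε w.1 w.2 :=
    (continuous_jfac h).measurable.ennreal_ofReal.mul hem
  have hP : Integrable fun y => conorm G y (cd u y) * dens G y := by
    simpa using h.integrable_mul_conorm hK hu (continuous_const (y := (1 : ℝ)))
  set PK : Phase 5 × ℝ → ℝ≥0∞ := fun z => exitAt G D u s ε z.1.1 (Six.line e z.1 z.2) *
    ENNReal.ofReal ((z.2 * vnorm G z.1.1 z.1.2) ^ 4 * vnorm G z.1.1 z.1.2) with hPKd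
  have hNm : Measurable fun z : Phase 5 × ℝ => vnorm G z.1.1 z.1.2 :=
    h.continuous_vnorm.measurable.comp measurable_fst
  have hPK : Measurable PK :=
    (hem.comp ((measurable_fst.comp measurable_fst).prodMk he.continuous_line.measurable)).mul
      (((measurable_snd.mul hNm).pow_const 4).mul hNm).ennreal_ofReal
  have hline : ∀ p : Phase 5, p.2 ≠ 0 →
      ENNReal.ofReal (2 * (1 - η) * u p.1 ^ 2) ≤
        ENNReal.ofReal (s ^ 4 * u p.1) * (∫⁻ t in Ioi (0 : ℝ), PK (p, t)) +
          ∫⁻ t in Ioi (0 : ℝ), Five.lossAt G u η s t (flow e t p) := by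
    intro p hp
    have hsl : Measurable fun t => ENNReal.ofReal (-slp u (flow e t p)) :=
      ((Five.continuous_slp hu.1).comp ((Six.continuous_flow he).comp
        (continuous_id.prodMk continuous_const))).neg.measurable.ennreal_ofReal
    have hPKt : Measurable fun t => PK (p, t) := hPK.comp measurable_prodMk_left
    calc ENNReal.ofReal (2 * (1 - η) * u p.1 ^ 2)
        = ENNReal.ofReal (u p.1) * (ENNReal.ofReal (2 * (1 - η)) * ENNReal.ofReal (u p.1)) := by
          rw [← ENNReal.ofReal_mul (by linarith), ← ENNReal.ofReal_mul (hu0 _)]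
          congr 1
          ring
      _ ≤ ENNReal.ofReal (u p.1) * (∫⁻ t in Ioi (0 : ℝ),
            (ENNReal.ofReal (s ^ 4) * PK (p, t) + Five.lossAt G u η s t (flow e t p))) := by
          refine mul_le_mul_right ?_ _
          refine (mul_le_mul_right (Five.le_lintegral_slope h he hu p hp) _).trans ?_
          rw [← lintegral_const_mul _ hsl]
          exact setLIntegral_mono' measurableSet_Ioi fun t ht => slope_le_exit h he hη hη1 hgap hs
            hε0 (hsε.trans (min_le_left _ _)) (hsε.trans (min_le_right _ _)) p ht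
      _ ≤ _ := by
          rw [lintegral_add_left (hPKt.const_mul _), lintegral_const_mul _ hPKt, mul_add,
            ← mul_assoc, ← ENNReal.ofReal_mul (hu0 _), mul_comm (u p.1)]
          refine add_le_add le_rfl (mul_le_of_le_one_left' ?_)
          exact ENNReal.ofReal_le_one.2 (hu1 _)
  have hL : Measurable fun p : Phase 5 => ENNReal.ofReal (2 * (1 - η) * u p.1 ^ 2) :=
    ((((hu.1.continuous.measurable.comp measurable_fst).pow_const 2).const_mul _)).ennreal_ofReal
  have hPi : Measurable fun p : Phase 5 =>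
      ENNReal.ofReal (s ^ 4 * u p.1) * ∫⁻ t in Ioi (0 : ℝ), PK (p, t) :=
    ((hu.1.continuous.measurable.const_mul _).ennreal_ofReal.comp measurable_fst).mul
      hPK.lintegral_prod_right'
  have hvd : Integrable fun x => u x * dens G x := Comp.integrable hK hu h.continuous_dens
  set C := ENNReal.ofReal (s ^ 4 * Five.polar5)
  set J : (Fin 5 → ℝ) → ℝ≥0∞ := fun x =>
    ∫⁻ y, ENNReal.ofReal (jfac G D x y) * exitAt G D u s ε x y ∂volM G
  set S : (Fin 5 → ℝ) → ℝ≥0∞ := fun x =>
    ∫⁻ y, ENNReal.ofReal (slackKer G D s ε x y (cd u y)) ∂Sharp.pm G u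
  have : SFinite (volM G) := by unfold volM; infer_instance
  have hJm : Measurable J := hjm.lintegral_prod_right'
  have hsum : ∀ x, C * (ENNReal.ofReal (u x) * (J x + S x)) ≤
      ENNReal.ofReal (s ^ 4 * Five.polar5 * B) * ENNReal.ofReal (u x) := fun x => by
    by_cases hx : D o x ≤ R
    · have e1 : J x + S x = ∫⁻ y, Five.kerAt G D u s ε x y ∂volM G := by
        simp only [J, S, ← lintegral_slackKer h hu.1, ← split_kerAt h hs hε0 x]
        exact (lintegral_add_left (hjm.comp measurable_prodMk_left) _).symm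
      rw [e1, Five.lintegral_kerAt h hu.1, ENNReal.ofReal_mul (by positivity : 0 ≤ s ^ 4 * Five.polar5),
        mul_assoc, mul_comm (ENNReal.ofReal B)]
      exact mul_le_mul' le_rfl (mul_le_mul' le_rfl (hrow x hx))
    · have : u x = 0 := by
        by_contra hne
        exact hx (hu.2.1 (subset_tsupport _ hne))
      simp [this]
  have hfirst : ∫⁻ p, ENNReal.ofReal (s ^ 4 * u p.1) * (∫⁻ t in Ioi (0 : ℝ), PK (p, t)) ∂liou G +
      C * slackInt G D u s ε ≤ ENNReal.ofReal (s ^ 4 * Five.polar5 * (B * vol G u)) := by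
    rw [Five.lintegral_liou h hPi, slackInt, ← lintegral_const_mul' C _ ENNReal.ofReal_ne_top]
    have hx : ∀ x, ∫⁻ v, ENNReal.ofReal (fibre G x v) *
        (ENNReal.ofReal (s ^ 4 * u x) * ∫⁻ t in Ioi (0 : ℝ), PK ((x, v), t)) ≤
        C * (ENNReal.ofReal (u x) * J x) := fun x => by
      simp only [mul_left_comm (ENNReal.ofReal (fibre G x _))]
      rw [lintegral_const_mul' _ _ ENNReal.ofReal_ne_top]
      refine (mul_le_mul_right (polarJ h he x (hem.comp measurable_prodMk_left)) _).trans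
        (le_of_eq ?_)
      simp only [C, J, Function.comp_apply, ENNReal.ofReal_mul (show 0 ≤ s ^ 4 by positivity)]
      ring
    refine (add_le_add (lintegral_mono hx) le_rfl).trans ?_
    rw [← lintegral_add_left (measurable_const.fun_mul (hum.fun_mul hJm))]
    simp only [← mul_add]
    refine (lintegral_mono hsum).trans (le_of_eq ?_)
    rw [lintegral_const_mul' _ _ ENNReal.ofReal_ne_top, volM,
      lintegral_withDensity_eq_lintegral_mul _ h.continuous_dens.measurable.ennreal_ofReal hum]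
    simp only [Pi.mul_apply, ← ENNReal.ofReal_mul (h.dens_pos _).le, mul_comm (dens G _) (u _)]
    rw [← ofReal_integral_eq_lintegral_ofReal hvd
        (Eventually.of_forall fun y => mul_nonneg (hu0 y) (h.dens_pos y).le),
      ← vol, ← ENNReal.ofReal_mul (by positivity)]
    congr 1
    ring
  have hlhs : ∫⁻ p, ENNReal.ofReal (2 * (1 - η) * u p.1 ^ 2) ∂liou G =
      ENNReal.ofReal (2 * (1 - η) * Five.mass5 * (vol G u - gap G u)) := by
    rw [Five.lintegral_liou h hL]
    have e1 : ∀ x, ∫⁻ v, ENNReal.ofReal (fibre G x v) * ENNReal.ofReal (2 * (1 - η) * u x ^ 2) =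
        ENNReal.ofReal (2 * (1 - η) * Five.mass5) * ENNReal.ofReal (u x ^ 2) := fun x => by
      rw [lintegral_mul_const' _ _ ENNReal.ofReal_ne_top, (hmom G x 0 (h.posDef x)).1,
        ← ENNReal.ofReal_mul hm5, ← ENNReal.ofReal_mul (mul_nonneg (by linarith) hm5)]
      congr 1
      ring
    simp only [e1]
    rw [lintegral_const_mul' _ _ ENNReal.ofReal_ne_top, volM,
      lintegral_withDensity_eq_lintegral_mul _ h.continuous_dens.measurable.ennreal_ofReal
        (show Measurable fun x => ENNReal.ofReal (u x ^ 2) from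
          (hu.1.continuous.measurable.pow_const 2).ennreal_ofReal)]
    simp only [Pi.mul_apply, ← ENNReal.ofReal_mul (h.dens_pos _).le,
      mul_comm (dens G _) (u _ ^ 2)]
    have hsq : Integrable fun x => u x ^ 2 * dens G x := by
      simpa [sq, mul_assoc] using Comp.integrable hK hu (hu.1.continuous.mul h.continuous_dens)
    have e2 : ∫ x, u x ^ 2 * dens G x = vol G u - gap G u := by
      have hg : Integrable fun x => u x * (1 - u x) * dens G x :=
        (hvd.sub hsq).congr (Eventually.of_forall fun x => by simp only [Pi.sub_apply]; ring)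
      rw [vol, gap, ← integral_sub hvd hg]
      exact integral_congr_ae (Eventually.of_forall fun x => by simp only; ring)
    rw [← ofReal_integral_eq_lintegral_ofReal hsq
        (Eventually.of_forall fun y => mul_nonneg (sq_nonneg _) (h.dens_pos y).le), e2,
      ← ENNReal.ofReal_mul (mul_nonneg (by linarith) hm5)]
  have hall := (lintegral_mono_ae ((Six.ae_snd_ne_zero (by norm_num : (5 : ℕ) ≠ 0)).mono hline)).trans_eq
    (lintegral_add_left (μ := liou G) hPi _)
  rw [hlhs] at hall
  refine (add_le_add hall le_rfl).trans ?_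
  rw [add_right_comm]
  refine (add_le_add hfirst (Five.lintegral_loss_le hmom hint h he hu.1 hP hη hs)).trans (le_of_eq ?_)
  have := h.per_nonneg u
  have hvol : 0 ≤ vol G u := integral_nonneg fun y => mul_nonneg (hu0 y) (h.dens_pos y).le
  rw [← ENNReal.ofReal_add (by positivity) (by positivity)]

end Vale.Agent.P219.CH.Rigid
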