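import Vale.Agent.P219.Rigid.Defs
import Vale.Agent.P219.Five.Row

/-!
# P219: the row of a centre from almost minimality at comparable volume

The proofs are those of `Dir.node_out`, `Dir.family_row`, `Dir.dirRowPin` and `Five.rowPin`; a variation changes
the volume by a small factor only, so competitors of comparable volume suffice.
-/

noncomputable section

open MeasureTheory Set Filter Topology Matrix
open scoped ENNReal

namespace Vale.Agent.P219.CH.Rigid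

open Dir Sharp

variable {n : ℕ} {G : (Fin n → ℝ) → Matrix (Fin n) (Fin n) ℝ}
  {D : (Fin n → ℝ) → (Fin n → ℝ) → ℝ}

/-- The row at one centre with one weight. -/
theorem node_outW (hn : 2 ≤ n) (h : IsCH G D) (o : Fin n → ℝ) {R P₀ v₀ l M θ κ α : ℝ}
    (hP₀ : 0 ≤ P₀) (hv₀ : 0 < v₀) (hl : 0 < l) (hM : 0 ≤ M) (hθ : 1 < θ) (hκ : 0 < κ)
    (hθn : θ ^ n ≤ 2) (hα : α = ((n : ℝ) - 1) / n) {c : Fin n → ℝ} (hc : D o c ≤ R) {W : (Fin n → ℝ) → ℝ}
    (hW : ContDiff ℝ 1 W) (hWp : ∀ y, D o y ≤ R + 1 → 0 < W y) :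
    ∀ᶠ δ in 𝓝[>] (0 : ℝ), ∀ u, NearMinW G D o R P₀ v₀ l M δ u →
      rowInteg G D (l * α * θ * vol G u ^ (α - 1)) c W u ≤ κ := by
  set K : Set (Fin n → ℝ) := {y | D o y ≤ R}
  have hK : IsCompact K := h.proper o R
  have hn2 : (2 : ℝ) ≤ n := by exact_mod_cast hn
  have hα0 : 0 < α := by rw [hα]; exact div_pos (by linarith) (by linarith)
  have hα1 : α ≤ 1 := by rw [hα, div_le_one (by linarith)]; linarith
  have hθ0 : 0 < θ := by linarith
  have hWK : ∀ y ∈ K, 0 < W y := fun y hy => hWp y (by have : D o y ≤ R := hy; linarith)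
  obtain ⟨hmax, hhmax⟩ : ∃ z : ℝ, z = l * α * θ * v₀ ^ (α - 1) := ⟨_, rfl⟩
  have hmax0 : 0 < hmax := by rw [hhmax]; positivity
  obtain ⟨e, he⟩ : ∃ z : ℝ, z = κ / (2 * (P₀ * (1 + hmax) + 1)) := ⟨_, rfl⟩
  have he0 : 0 < e := by rw [he]; positivity
  obtain ⟨τ, C, hτ, hC, hvar⟩ := exists_outVar h o hc hW hWp he0
  obtain ⟨Bw, hBw0, hBw⟩ : ∃ B : ℝ, 0 ≤ B ∧ ∀ y ∈ K, W y * √(2 * D c y) ≤ B := by
    obtain ⟨B, hB⟩ := hK.bddAbove_image (f := fun y => W y * √(2 * D c y))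
      (hW.continuous.mul (continuous_const.mul (h.continuous_D_left c)).sqrt).continuousOn
    exact ⟨max B 0, le_max_right _ _, fun y hy => (hB ⟨y, hy, rfl⟩).trans (le_max_left _ _)⟩
  obtain ⟨Fm, hFm⟩ : ∃ z : ℝ, z = Bw * P₀ + e * P₀ + 1 := ⟨_, rfl⟩
  have hFm0 : 0 < Fm := by rw [hFm]; positivity
  obtain ⟨r, hr⟩ : ∃ z : ℝ, z = θ ^ (-(n : ℝ)) := ⟨_, rfl⟩
  have hr0 : 0 < r := by rw [hr]; positivity
  have hr1 : r < 1 := hr ▸ Real.rpow_lt_one_of_one_lt_of_neg hθ (by linarith)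
  obtain ⟨t, ht⟩ : ∃ z : ℝ, z = min τ ((1 - r) * v₀ / Fm) := ⟨_, rfl⟩
  have ht0 : 0 < t := ht ▸ lt_min hτ (div_pos (mul_pos (by linarith) hv₀) hFm0)
  have htF : t * Fm ≤ (1 - r) * v₀ := (le_div_iff₀ hFm0).1 (ht ▸ min_le_right _ _)
  filter_upwards [Ioc_mem_nhdsGT (show (0 : ℝ) < κ / (2 * (M * C + 1 / t + 1)) by positivity)]
    with δ hδ u hmin
  obtain ⟨hu, hPu, hVu, hgu, hopt⟩ := hmin
  rw [← hα] at hopt
  obtain ⟨u', hu', hper, hvol, hgap⟩ := hvar t u ht0 (ht ▸ min_le_left _ _) hu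
  rw [rowInteg_eq h hK hu _ c hW]
  obtain ⟨F, hF⟩ : ∃ z : ℝ,
      z = ∫ y, max (-normalPart G D c u y) 0 * W y * dens G y := ⟨_, rfl⟩
  rw [← hF] at hvol ⊢
  have i0 : Integrable fun y => conorm G y (cd u y) * dens G y := by
    simpa using h.integrable_mul_conorm hK hu (continuous_const (y := (1 : ℝ)))
  have hzero : ∀ y ∉ K, normalPart G D c u y = 0 := fun y hy => by
    simp [normalPart, pairing, cd_eq_zero_of_notMem fun hs => hy (hu.2.1 hs)]
  have hF0 : 0 ≤ F := hF ▸ integral_nonneg fun y => by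
    simp only [Pi.zero_apply]
    by_cases hy : y ∈ K
    · exact mul_nonneg (mul_nonneg (le_max_right _ _) (hWK y hy).le) (h.dens_pos y).le
    · simp [hzero y hy]
  have hFle : F ≤ Bw * P₀ := by
    refine (hF ▸ integral_mono (integrable_outflux h hK hu c hW.continuous) (i0.const_mul Bw)
      fun y => ?_).trans (by
        rw [integral_const_mul]; exact mul_le_mul_of_nonneg_left hPu hBw0)
    simp only
    by_cases hy : y ∈ K
    · rw [← mul_assoc]
      refine mul_le_mul_of_nonneg_right ?_ (h.dens_pos y).le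
      calc max (-normalPart G D c u y) 0 * W y
          ≤ conorm G y (cd u y) * √(2 * D c y) * W y :=
            mul_le_mul_of_nonneg_right (outflux_le h c y _) (hWK y hy).le
        _ = conorm G y (cd u y) * (W y * √(2 * D c y)) := by ring
        _ ≤ _ := by
            rw [mul_comm Bw]
            exact mul_le_mul_of_nonneg_left (hBw y hy) (conorm_nonneg _ _)
    · rw [hzero y hy]
      simpa using mul_nonneg hBw0 (mul_nonneg (conorm_nonneg y (cd u y)) (h.dens_pos y).le)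
  have hP := h.per_nonneg u
  obtain ⟨V, hV⟩ : ∃ z : ℝ, z = vol G u := ⟨_, rfl⟩
  rw [← hV] at hVu hvol hopt ⊢
  have hV0 : 0 < V := hv₀.trans_le hVu
  obtain ⟨d, hd⟩ : ∃ z : ℝ, z = t * F + t * e * per G u := ⟨_, rfl⟩
  have hd0 : 0 ≤ d := by rw [hd]; positivity
  have hdle : d ≤ (1 - r) * V := by
    have h1 : d ≤ t * Fm := by
      rw [hd, hFm]
      have h2 := mul_le_mul_of_nonneg_left hFle ht0.le
      have h3 := mul_le_mul_of_nonneg_left hPu (mul_nonneg ht0.le he0.le)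
      linarith
    exact h1.trans (htF.trans (mul_le_mul_of_nonneg_left hVu (by linarith)))
  have hrV : 0 < r * V := mul_pos hr0 hV0
  obtain ⟨hh, hhh⟩ : ∃ z : ℝ, z = l * α * θ * V ^ (α - 1) := ⟨_, rfl⟩
  have hh0 : 0 < hh := by rw [hhh]; positivity
  have hhmax' : hh ≤ hmax := by
    rw [hhh, hhmax]
    exact mul_le_mul_of_nonneg_left (Real.rpow_le_rpow_of_nonpos hv₀ hVu (by linarith))
      (by positivity)
  rw [← hhh]
  have hb' : l * α * (V - d) ^ (α - 1) ≤ hh := by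
    have h1 : (V - d) ^ (α - 1) ≤ (r * V) ^ (α - 1) :=
      Real.rpow_le_rpow_of_nonpos hrV (by linarith) (by linarith)
    rw [Real.mul_rpow hr0.le hV0.le, hr, ← Real.rpow_mul hθ0.le,
      show -(n : ℝ) * (α - 1) = 1 by rw [hα]; field_simp; ring, Real.rpow_one] at h1
    calc l * α * (V - d) ^ (α - 1) ≤ l * α * (θ * V ^ (α - 1)) :=
          mul_le_mul_of_nonneg_left h1 (by positivity)
      _ = hh := by rw [hhh]; ring
  have hr2 : 1 / 2 ≤ r := by
    rw [hr, Real.rpow_neg hθ0.le, Real.rpow_natCast, one_div]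
    exact inv_anti₀ (by positivity) hθn
  have hbig : v₀ / 2 ≤ vol G u' := by
    have h1 := mul_le_mul_of_nonneg_right hr2 hV0.le
    linarith
  exact (stationary_scalar hd0 (show d < V by linarith) hd hvol hα0.le hα1 hl.le hM hC ht0 he0.le
    hP hPu hb' hh0.le hhmax' hgu hper hgap (hopt u' hu' hbig)).trans
      (error_le hκ hP₀ hmax0 (mul_nonneg hM hC) ht0 hδ.1 he hδ.2)

/-- The row, uniform over a compact family. -/
theorem family_rowW (hn : 2 ≤ n) (h : IsCH G D) (o : Fin n → ℝ) {R P₀ v₀ l M θ κ α : ℝ}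
    (hP₀ : 0 ≤ P₀) (hv₀ : 0 < v₀) (hl : 0 < l) (hM : 0 ≤ M) (hθ : 1 < θ) (hκ : 0 < κ)
    (hθn : θ ^ n ≤ 2) (hα : α = ((n : ℝ) - 1) / n) {X : Type*} [TopologicalSpace X] {S : Set X} (hS : IsCompact S)
    {c : X → Fin n → ℝ} (hc : Continuous c) {W : X → (Fin n → ℝ) → ℝ}
    (hW : ∀ z, ContDiff ℝ 1 (W z)) (hWc : Continuous fun q : X × (Fin n → ℝ) => W q.1 q.2)
    (hdW : Continuous fun q : X × (Fin n → ℝ) => cd (W q.1) q.2)
    (hmem : ∀ z ∈ S, D o (c z) ≤ R ∧ ∀ y, D o y ≤ R + 1 → 0 < W z y) :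
    ∀ᶠ δ in 𝓝[>] (0 : ℝ), ∀ u, NearMinW G D o R P₀ v₀ l M δ u → ∀ z ∈ S,
      rowInteg G D (l * α * θ * vol G u ^ (α - 1)) (c z) (W z) u ≤ κ := by
  set K : Set (Fin n → ℝ) := {y | D o y ≤ R}
  have hK : IsCompact K := h.proper o R
  have hn2 : (2 : ℝ) ≤ n := by exact_mod_cast hn
  have hα0 : 0 < α := by rw [hα]; exact div_pos (by linarith) (by linarith)
  have hα1 : α ≤ 1 := by rw [hα, div_le_one (by linarith)]; linarith
  have hθ0 : 0 < θ := by linarith
  obtain ⟨hmax, hhmax⟩ : ∃ z : ℝ, z = l * α * θ * v₀ ^ (α - 1) := ⟨_, rfl⟩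
  obtain ⟨η, hη⟩ : ∃ z : ℝ, z = κ / (2 * (P₀ + 1)) := ⟨_, rfl⟩
  have hη0 : 0 < η := by rw [hη]; positivity
  rw [eventually_nhdsWithin_iff]
  refine (hS.eventually_forall_of_forall_eventually (x₀ := (0 : ℝ)) (P := fun δ z =>
    0 < δ → z ∈ S → ∀ u, NearMinW G D o R P₀ v₀ l M δ u →
      rowInteg G D (l * α * θ * vol G u ^ (α - 1)) (c z) (W z) u ≤ κ) fun z₀ hz₀ => ?_).mono
    fun δ hδ hpos u hu z hz => hδ z hz hpos hz u hu
  have hnode := eventually_nhdsWithin_iff.1 (node_outW hn h o hP₀ hv₀ hl hM hθ (half_pos hκ) hθn hα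
    (hmem z₀ hz₀).1 (hW z₀) (hmem z₀ hz₀).2)
  obtain ⟨g, hg⟩ : ∃ g : X × (Fin n → ℝ) → ℝ, g = fun q => gapW G hmax q.2 (W q.1 q.2) (W z₀ q.2)
      (cd (W q.1) q.2) (cd (W z₀) q.2) (cd (D (c q.1)) q.2) (cd (D (c z₀)) q.2) := ⟨_, rfl⟩
  have hgc : Continuous g := by
    rw [hg]
    have hy : Continuous fun q : X × (Fin n → ℝ) => q.2 := continuous_snd
    have hb : Continuous fun q : X × (Fin n → ℝ) => cd (D (c q.1)) q.2 :=
      (contDiff_logCovector h).continuous.comp (hy.prodMk (hc.comp continuous_fst))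
    have hb0 : Continuous fun q : X × (Fin n → ℝ) => cd (D (c z₀)) q.2 :=
      (continuous_cd_dist h _).comp hy
    have ha0 : Continuous fun q : X × (Fin n → ℝ) => cd (W z₀) q.2 :=
      (continuous_cd (hW z₀)).comp hy
    have hw0 : Continuous fun q : X × (Fin n → ℝ) => W z₀ q.2 := (hW z₀).continuous.comp hy
    have hN : ∀ {f : X × (Fin n → ℝ) → Fin n → ℝ}, Continuous f →
        Continuous fun q => conorm G q.2 (f q) := fun hf => h.continuous_conorm.comp (hy.prodMk hf)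
    unfold gapW
    exact ((continuous_const.mul (hWc.sub hw0).abs).add (continuous_const.mul
      (((hN (hdW.sub ha0)).mul (hN hb)).add ((hN ha0).mul (hN (hb.sub hb0)))))).add
      (continuous_const.mul (((hN (hb.sub hb0)).mul hWc.abs).add
        ((hN hb0).mul (hWc.sub hw0).abs)))
  have hnear : ∀ᶠ z in 𝓝 z₀, ∀ y ∈ K, g (z, y) < η :=
    hK.eventually_forall_of_forall_eventually (P := fun z y => g (z, y) < η) fun y _ =>
      (hgc.tendsto (z₀, y)).eventually (Iio_mem_nhds (by simp [hg, gapW, conorm_zero, hη0]))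
  rw [nhds_prod_eq]
  filter_upwards [hnode.prod_mk hnear] with q ⟨hq1, hq2⟩ hpos _ u hmin
  obtain ⟨hu, hPu, hVu, -, -⟩ := id hmin
  have hV0 : 0 < vol G u := hv₀.trans_le hVu
  obtain ⟨hh, hhh⟩ : ∃ z : ℝ, z = l * α * θ * vol G u ^ (α - 1) := ⟨_, rfl⟩
  have hh0 : 0 ≤ hh := by rw [hhh]; positivity
  have hhle : hh ≤ hmax := by
    rw [hhh, hhmax]
    exact mul_le_mul_of_nonneg_left (Real.rpow_le_rpow_of_nonpos hv₀ hVu (by linarith))
      (by positivity)
  have h0 := hq1 hpos u hmin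
  rw [← hhh] at h0 ⊢
  have i0 : Integrable fun y => conorm G y (cd u y) * dens G y := by
    simpa using h.integrable_mul_conorm hK hu (continuous_const (y := (1 : ℝ)))
  have h1 : rowInteg G D hh (c q.2) (W q.2) u ≤
      rowInteg G D hh (c z₀) (W z₀) u + η * per G u := by
    rw [rowInteg, rowInteg, per, ← integral_const_mul,
      ← integral_add (integrable_rowDens h hK hu _ _ (hW z₀)) (i0.const_mul η)]
    refine integral_mono (integrable_rowDens h hK hu _ _ (hW q.2))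
      ((integrable_rowDens h hK hu _ _ (hW z₀)).add (i0.const_mul η)) fun y => ?_
    simp only
    rw [← mul_assoc, ← add_mul]
    refine mul_le_mul_of_nonneg_right ?_ (h.dens_pos y).le
    by_cases hy : y ∈ K
    · have h2 := abs_rowDens_sub_le h hh0 hhle (c q.2) (c z₀) (W q.2) (W z₀) y (cd u y)
      have h3 := mul_le_mul_of_nonneg_right (show gapW G hmax y (W q.2 y) (W z₀ y) (cd (W q.2) y)
        (cd (W z₀) y) (cd (D (c q.2)) y) (cd (D (c z₀)) y) ≤ η by
          have := hq2 y hy; rw [hg] at this; exact this.le) (conorm_nonneg (G := G) y (cd u y))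
      linarith [(abs_le.1 h2).2]
    · have e : cd u y = 0 := cd_eq_zero_of_notMem fun hs => hy (hu.2.1 hs)
      simp [rowDens, e, varW_zero, pairing, conorm_zero]
  have h4 : η * per G u ≤ κ / 2 := by
    refine (mul_le_mul_of_nonneg_left hPu hη0.le).trans ?_
    rw [hη, div_mul_eq_mul_div, div_le_iff₀ (by positivity)]
    nlinarith
  linarith

/-- The directional row from almost minimality at comparable volume. -/
theorem dirRowW (hn : 2 ≤ n) (h : IsCH G D) (o : Fin n → ℝ) {R P₀ v₀ l M θ κ : ℝ}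
    (hP₀ : 0 ≤ P₀) (hv₀ : 0 < v₀) (hl : 0 < l) (hM : 0 ≤ M) (hθ : 1 < θ) (hθn : θ ^ n ≤ 2)
    (hκ : 0 < κ) {P : Set ℝ} {w : ℝ → ℝ × ℝ → ℝ} (hP : IsCompact P)
    (hw : ContDiff ℝ 1 fun z : ℝ × ℝ × ℝ => w z.1 z.2)
    (hpos : ∀ p ∈ P, ∀ a s, 0 ≤ a → s ^ 2 ≤ 2 * a → 0 < w p (a, s)) :
    ∀ᶠ δ in 𝓝[>] (0 : ℝ), ∀ u, NearMinW G D o R P₀ v₀ l M δ u →
      ∀ x σ, D o x ≤ R → conorm G x σ ≤ 1 → ∀ p ∈ P,
        Integrable (fun y => Dir.kern n (l * (((n : ℝ) - 1) / n) * θ *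
            vol G u ^ (((n : ℝ) - 1) / n - 1)) (w p) (D x y) (side G D x σ y)
            (scos G D u x y)) (Sharp.pm G u) ∧
          ∫ y, Dir.kern n (l * (((n : ℝ) - 1) / n) * θ * vol G u ^ (((n : ℝ) - 1) / n - 1)) (w p)
            (D x y) (side G D x σ y) (scos G D u x y) ∂Sharp.pm G u ≤ κ := by
  obtain ⟨F, hF⟩ : ∃ F : ℝ × ℝ × ℝ → ℝ, F = fun z => w z.1 z.2 := ⟨_, rfl⟩
  obtain ⟨α, hα⟩ : ∃ α : ℝ, α = ((n : ℝ) - 1) / n := ⟨_, rfl⟩
  rw [← hα]
  have hq : Continuous fun q : ((Fin n → ℝ) × (Fin n → ℝ) × ℝ) × (Fin n → ℝ) =>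
      (q.1.1, q.1.2.1, q.2) := by fun_prop
  have hz : Continuous fun q : ((Fin n → ℝ) × (Fin n → ℝ) × ℝ) × (Fin n → ℝ) =>
      (q.1.2.2, D q.1.1 q.2, side G D q.1.1 q.1.2.1 q.2) :=
    (continuous_snd.comp (continuous_snd.comp continuous_fst)).prodMk
      ((h.continuous_D.comp ((continuous_fst.comp continuous_fst).prodMk continuous_snd)).prodMk
        ((continuous_side h).comp hq))
  have hfam := family_rowW hn h o (R := R) hP₀ hv₀ hl hM hθ hκ hθn hα (isCompact_paramSet h o R hP)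
    (c := fun z => z.1) continuous_fst (W := fun z => weight G D (w z.2.2) z.1 z.2.1)
    (fun z => contDiff_weight h (contDiff_family hw _) _ _) (hw.continuous.comp hz) ?_ ?_
  · refine hfam.mono fun δ hδ u hu x σ hx hσ p hp => ?_
    have hK : IsCompact {y | D o y ≤ R} := h.proper o R
    have hwp := contDiff_family hw p
    have hi := integrable_kern h hK hu.1 (l * α * θ * vol G u ^ (α - 1)) hwp x σ
    refine ⟨hi, le_trans ?_ (hδ u hu (x, σ, p) ⟨hx, hσ, hp⟩)⟩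
    rw [Sharp.integral_pm h hu.1.1, rowInteg]
    have hi' : Integrable fun y => Dir.kern n (l * α * θ * vol G u ^ (α - 1)) (w p) (D x y)
        (side G D x σ y) (scos G D u x y) * (conorm G y (cd u y) * dens G y) := by
      have hm := (Sharp.continuous_weight h hu.1.1).measurable.ennreal_ofReal
      refine ((integrable_withDensity_iff_integrable_smul' hm
        (Eventually.of_forall fun _ => ENNReal.ofReal_lt_top)).1 hi).congr
          (Eventually.of_forall fun y => ?_)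
      simp only
      rw [ENNReal.toReal_ofReal (Sharp.weight_nonneg h u y), smul_eq_mul, mul_comm]
    refine integral_mono hi' (integrable_rowDens h hK hu.1 _ x (contDiff_weight h hwp x σ))
      fun y => ?_
    simp only
    rw [← mul_assoc]
    exact mul_le_mul_of_nonneg_right (kern_le_rowDens h u hwp hσ _ y) (h.dens_pos y).le
  · simp only [cd_weight h (contDiff_family hw _), wa, wb, fderiv_family hw]
    have hd := (hw.continuous_fderiv one_ne_zero).comp hz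
    exact ((hd.clm_apply continuous_const).smul ((Sharp.contDiff_logCovector h).continuous.comp
      (continuous_snd.prodMk (continuous_fst.comp continuous_fst)))).add
      ((hd.clm_apply continuous_const).smul ((continuous_sideD h).comp hq))
  · rintro ⟨x, σ, p⟩ ⟨hx, hσ, hp⟩
    exact ⟨hx, fun y _ => hpos p hp _ _ (h.dist_nonneg x y) (sq_side_le h hσ y)⟩


/-- `RowPinW`. -/
theorem rowPinW : RowPinW := by
  intro G D h o R M P₀ v₀ l θ ε κ hR hM hP₀ hv₀ hl hθ hθ5 hε hκ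
  have hK := h.proper o R
  obtain ⟨Vm, hVm⟩ : ∃ z : ℝ, z = max v₀ (volG G {y | D o y ≤ R}) := ⟨_, rfl⟩
  have hVm0 : 0 < Vm := hVm ▸ lt_max_of_lt_left hv₀
  have hθ0 : 0 < θ := by linarith
  obtain ⟨s₀, hs₀⟩ : ∃ z : ℝ, z = l / 5 * θ * Vm ^ (-(1 : ℝ) / 5) := ⟨_, rfl⟩
  obtain ⟨s₁, hs₁⟩ : ∃ z : ℝ, z = l / 5 * θ * v₀ ^ (-(1 : ℝ) / 5) := ⟨_, rfl⟩
  have hs00 : 0 < s₀ := by rw [hs₀]; positivity
  have hev := dirRowW (by norm_num : 2 ≤ 5) h o (R := R) hP₀ hv₀ hl hM hθ hθ5 hκ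
    (P := Icc s₀ s₁) (w := Five.wfam s₀ ε) isCompact_Icc (Five.contDiff_wfam hs00 hε)
    fun p hp a b _ _ =>
      div_pos (Five.prof_pos (Five.rad_pos hs00 hε _ _)) (Five.rad_pos hs00 hε _ _)
  obtain ⟨δ₀, hrow, hδ₀⟩ := (hev.and self_mem_nhdsWithin).exists
  refine ⟨δ₀, hδ₀, fun δ u hδ _ hu x hx => ?_⟩
  obtain ⟨hc, hPu, hVu, hgu, hopt⟩ := hu
  obtain ⟨p, hp⟩ : ∃ z, z = Five.scale G l θ u := ⟨_, rfl⟩
  have hV0 : 0 < vol G u := hv₀.trans_le hVu
  have hpP : p ∈ Icc s₀ s₁ := by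
    rw [hp, Five.scale, hs₀, hs₁]
    exact ⟨mul_le_mul_of_nonneg_left (Real.rpow_le_rpow_of_nonpos hV0
        (hVm ▸ (h.vol_le hK hc).trans (le_max_right _ _)) (by norm_num)) (by positivity),
      mul_le_mul_of_nonneg_left (Real.rpow_le_rpow_of_nonpos hv₀ hVu (by norm_num)) (by positivity)⟩
  have hh : l * ((((5 : ℕ) : ℝ) - 1) / ((5 : ℕ) : ℝ)) * θ *
      vol G u ^ ((((5 : ℕ) : ℝ) - 1) / ((5 : ℕ) : ℝ) - 1) = 4 * p := by
    rw [hp, Five.scale]; norm_num; ring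
  have h0 : conorm G x (0 : Fin 5 → ℝ) ≤ 1 := by rw [conorm_zero]; exact zero_le_one
  obtain ⟨hi, hle⟩ := hrow u ⟨hc, hPu, hVu, hgu.trans hδ,
    fun u' hu' hv => (hopt u' hu' hv).trans (by linarith)⟩ x 0 hx h0 p hpP
  rw [hh] at hi hle
  rw [← hp]
  have := Sharp.isFiniteMeasure_pm h hK hc
  have hpt : ∀ y, Five.kern (p * Real.sqrt (2 * D x y + ε ^ 2)) (Six.acos G D u x y) ≤
      1 + Dir.kern 5 (4 * p) (Five.wfam s₀ ε p) (D x y) (Dir.side G D x 0 y) (Dir.scos G D u x y) := by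
    intro y
    have e : Six.acos G D u x y = |Dir.scos G D u x y| := by
      rw [Six.acos, Dir.scos, abs_div, abs_neg,
        abs_of_nonneg (mul_nonneg (conorm_nonneg _ _) (Real.sqrt_nonneg _))]
    rw [e]
    exact Five.kern_le hs00 hε hpP.1 (h.dist_nonneg x y) (e ▸ h.acos_le_one u x y) _
  have hk0 : ∀ y, 0 ≤ Five.kern (p * Real.sqrt (2 * D x y + ε ^ 2)) (Six.acos G D u x y) := fun y => by
    have : 0 < p := hs00.trans_le hpP.1
    refine Five.kern_nonneg (by have := h.dist_nonneg x y; positivity) ?_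
    rw [abs_of_nonneg (Six.acos_nonneg u x y)]
    exact h.acos_le_one u x y
  have hI := (integrable_const (1 : ℝ)).fun_add hi
  refine (lintegral_mono fun y => ENNReal.ofReal_le_ofReal (hpt y)).trans ?_
  rw [← ofReal_integral_eq_lintegral_ofReal hI
    (Eventually.of_forall fun y => (hk0 y).trans (hpt y))]
  refine ENNReal.ofReal_le_ofReal ?_
  rw [integral_add (integrable_const _) hi, integral_const, smul_eq_mul, mul_one, Measure.real,
    Sharp.pm_univ h hK hc]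
  linarith

end Vale.Agent.P219.CH.Rigid
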