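import Vale.Agent.P219.Rigid.Level
import Vale.Agent.P219.Rigid.Lines
import Vale.Agent.P219.Rigid.Row
import Vale.Agent.P219.Five.Main

/-!
# P219: one boundary point without slack

At equality the nearly indicator competitors are almost minimal, so their slack tends to zero. A
limit of boundary points of least slack has no slack against almost every point of the set.
-/

noncomputable section

open MeasureTheory Set Filter Topology Matrix
open scoped ENNReal

namespace Vale.Agent.P219.CH.Rigid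

variable {n : ℕ} {G : (Fin n → ℝ) → Matrix (Fin n) (Fin n) ℝ}
  {D : (Fin n → ℝ) → (Fin n → ℝ) → ℝ}

/-- The certificate is positive. -/
theorem kern_pos {r d : ℝ} (hr : 0 < r) (hd : |d| ≤ 1) : 0 < Five.kern r d := by
  obtain ⟨hd1, hd2⟩ := abs_le.1 hd
  refine pos_of_mul_pos_right (b := Five.kern r d) (a := 3 * r ^ 3 * (2 + r) ^ 3) ?_ (by positivity)
  have e : 3 * r ^ 3 * (2 + r) ^ 3 * Five.kern r d =
      (24 + 36 * r + 48 * r ^ 2 + 48 * r ^ 3 + 40 * r ^ 4 + 18 * r ^ 5 + 3 * r ^ 6) -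
      (96 * r + 144 * r ^ 2 + 112 * r ^ 3 + 48 * r ^ 4 + 8 * r ^ 5) * d +
      (72 + 108 * r + 64 * r ^ 2 + 24 * r ^ 3 + 4 * r ^ 4) * d ^ 2 := by
    unfold Five.kern Five.prof Five.profD
    field_simp
    ring
  rw [e]
  rcases le_total (2 * d) r with h | h
  · rcases le_or_gt d 0 with h0 | h0
    · nlinarith [mul_nonneg (by positivity :
          (0 : ℝ) ≤ 96 * r + 144 * r ^ 2 + 112 * r ^ 3 + 48 * r ^ 4 + 8 * r ^ 5) (neg_nonneg.2 h0),
        mul_nonneg (by positivity :
          (0 : ℝ) ≤ 72 + 108 * r + 64 * r ^ 2 + 24 * r ^ 3 + 4 * r ^ 4) (sq_nonneg d),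
        pow_nonneg hr.le 2, pow_nonneg hr.le 3, pow_nonneg hr.le 4, pow_nonneg hr.le 5,
        pow_nonneg hr.le 6]
    · have h1 := Five.two_mul_le hr hd2 h
      have : 0 < Five.kern r d :=
        pos_of_mul_pos_right (a := r ^ 4) (by linarith) (by positivity)
      rw [← e]; positivity
  · have hr2 : r ≤ 2 := by linarith
    have ht : 0 < 24 + 12 * r - 6 * r ^ 2 - 27 * r ^ 3 + 8 * r ^ 5 + 2 * r ^ 6 := by
      nlinarith [sq_nonneg (r - 13 / 10), mul_nonneg hr.le (sq_nonneg (r - 13 / 10)),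
        mul_nonneg (pow_nonneg hr.le 2) (sq_nonneg (r - 13 / 10)),
        mul_nonneg (pow_nonneg hr.le 3) (sq_nonneg (r - 13 / 10)),
        mul_nonneg (pow_nonneg hr.le 4) (sq_nonneg (r - 13 / 10))]
    have h2 : 0 ≤ (72 + 108 * r + 64 * r ^ 2 + 24 * r ^ 3 + 4 * r ^ 4) * (d - r / 2) ^ 2 := by
      positivity
    have h3 := mul_le_mul_of_nonneg_left (show d - r / 2 ≤ 1 - r / 2 by linarith)
      (show 0 ≤ r * (24 + 36 * r + 48 * r ^ 2 + 24 * r ^ 3 + 4 * r ^ 4) by positivity)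
    linarith

/-- Without slack the Jacobian is one and the point lies in the ball. -/
lemma of_slack_zero {r τ d j : ℝ} (hr : 0 < r) (hτ : τ = r) (hd : |d| ≤ 1) (hj1 : j ≤ 1)
    (hz : Five.kern τ |d| - j * exitKer r τ d = 0) : j = 1 ∧ r ≤ 2 * d := by
  subst hτ
  have hk := kern_pos hr (by rwa [abs_abs] : |(|d|)| ≤ 1)
  have hm0 := exitKer_nonneg (τ := τ) (d := d) hk.le
  have h2 : exitKer τ τ d = Five.kern τ |d| := by
    refine le_antisymm (exitKer_le _ _ _) ?_
    nlinarith [mul_le_of_le_one_left hm0 hj1]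
  rw [h2] at hz
  have hj : j = 1 := by
    have : (1 - j) * Five.kern τ |d| = 0 := by linarith
    rcases mul_eq_zero.1 this with h3 | h3 <;> linarith
  refine ⟨hj, ?_⟩
  have h4 : Five.kern τ |d| ≤ 2 * max d 0 / τ ^ 4 := h2 ▸ min_le_right _ _
  have hd0 : 0 < d := by
    by_contra hd0
    rw [max_eq_right (not_lt.1 hd0)] at h4
    simp at h4
    linarith
  rw [max_eq_left hd0.le, le_div_iff₀ (by positivity), abs_of_pos hd0] at h4
  have h5 := Five.kern_sub hr d
  have h6 := Five.quot_pos hr.le ((le_abs_self d).trans hd)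
  by_contra h7
  have : 0 < (τ - 2 * d) * Five.quot τ d / (3 * (2 + τ) ^ 3) :=
    div_pos (mul_pos (by linarith) h6) (by positivity)
  linarith

/-- The volume of `u` is close to the volume of `Ω` when `u` is close to its indicator. -/
lemma vol_gap_close (h : IsCH G D) {K Ω : Set (Fin n → ℝ)} (hK : IsCompact K)
    (hΩ : MeasurableSet Ω) (hΩK : Ω ⊆ K) {B : ℝ} (hB : ∀ y ∈ K, dens G y ≤ B)
    {u : (Fin n → ℝ) → ℝ} (hu : Comp K u) :
    |vol G u - volG G Ω| ≤ B * ∫ y, |u y - Ω.indicator 1 y| ∧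
      gap G u ≤ B * ∫ y, |u y - Ω.indicator 1 y| := by
  have hui : Integrable u := by
    simpa using hu.integrable hK (continuous_const (y := (1 : ℝ)))
  have hΩi : Integrable (Ω.indicator (1 : (Fin n → ℝ) → ℝ)) :=
    (integrableOn_const (μ := volume) (s := Ω) (C := (1 : ℝ))
      (((measure_mono hΩK).trans_lt hK.measure_lt_top).ne)).integrable_indicator hΩ
  have hf : Integrable fun y => |u y - Ω.indicator 1 y| := (hui.sub hΩi).abs
  have hΩd : Integrable (Ω.indicator (dens G)) :=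
    ((h.continuous_dens.continuousOn.integrableOn_compact hK).mono_set hΩK).integrable_indicator hΩ
  have hpt : ∀ y, |u y * dens G y - Ω.indicator (dens G) y| ≤ B * |u y - Ω.indicator 1 y| ∧
      u y * (1 - u y) * dens G y ≤ B * |u y - Ω.indicator 1 y| := by
    intro y
    by_cases hy : y ∈ K
    · have hd := hB y hy
      have hd0 := (h.dens_pos y).le
      have hy1 := hu.2.2 y
      have hm : ∀ a, 0 ≤ a → a * dens G y ≤ B * a := fun a ha => by nlinarith
      by_cases hyΩ : y ∈ Ω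
      · simp only [indicator_of_mem hyΩ, Pi.one_apply]
        refine ⟨?_, ?_⟩
        · rw [← sub_one_mul, abs_mul, abs_of_nonneg hd0]
          exact hm _ (abs_nonneg _)
        · rw [abs_sub_comm, abs_of_nonneg (by linarith [hy1.2])]
          refine le_trans (mul_le_mul_of_nonneg_right ?_ hd0) (hm _ (by linarith [hy1.2]))
          exact mul_le_of_le_one_left (by linarith [hy1.2]) hy1.2
      · simp only [indicator_of_notMem hyΩ, sub_zero]
        refine ⟨?_, ?_⟩
        · rw [abs_mul, abs_of_nonneg hd0]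
          exact hm _ (abs_nonneg _)
        · rw [abs_of_nonneg hy1.1]
          refine le_trans (mul_le_mul_of_nonneg_right ?_ hd0) (hm _ hy1.1)
          exact mul_le_of_le_one_right hy1.1 (by linarith [hy1.1])
    · have h0 : u y = 0 := image_eq_zero_of_notMem_tsupport fun hs => hy (hu.2.1 hs)
      have hnm : y ∉ Ω := fun hm => hy (hΩK hm)
      simp [h0, hnm]
  rw [← integral_const_mul]
  refine ⟨?_, integral_mono (h.integrable_gap hK hu) (hf.const_mul B) fun y => (hpt y).2⟩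
  rw [vol, volG, ← integral_indicator hΩ,
    ← integral_sub (hu.integrable hK h.continuous_dens) hΩd]
  exact abs_integral_le_integral_abs.trans
    (integral_mono ((hu.integrable hK h.continuous_dens).sub hΩd).abs (hf.const_mul B)
      fun y => (hpt y).1)

/-- Competitors close to the indicator with nearly the perimeter. -/
lemma exists_close (h : IsCH G D) {K Ω S : Set (Fin n → ℝ)} (hK : IsCompact K)
    (hΩ : MeasurableSet Ω) (hΩK : Ω ⊆ K) (hSK : S ⊆ K) {v : ℕ → (Fin n → ℝ) → ℝ} {A : ℝ}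
    (hv : ∀ j, ContDiff ℝ 1 (v j) ∧ tsupport (v j) ⊆ S)
    (hlim : Tendsto (fun j => ∫ y, |v j y - Ω.indicator 1 y|) atTop (𝓝 0))
    (hA : ∀ j, ∫ y, conorm G y (cd (v j) y) * dens G y ≤ A) {η : ℝ} (hη : 0 < η) :
    ∃ w, Comp K w ∧ per G w ≤ A + η ∧ ∫ y, |w y - Ω.indicator 1 y| ≤ η := by
  have hA0 : 0 ≤ A := le_trans (integral_nonneg fun y =>
    mul_nonneg (conorm_nonneg _ _) (h.dens_pos y).le) (hA 0)
  obtain ⟨ρ, hρ, hρ', hρA⟩ : ∃ ρ : ℝ, 0 < ρ ∧ ρ ≤ 1 / 4 ∧ 4 * ρ * A ≤ η := by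
    refine ⟨min (1 / 4) (η / (4 * (A + 1))), lt_min (by norm_num) (by positivity),
      min_le_left _ _, ?_⟩
    have h1 := (le_div_iff₀ (by positivity)).1 (min_le_right (1 / 4 : ℝ) (η / (4 * (A + 1))))
    nlinarith [lt_min (by norm_num : (0 : ℝ) < 1 / 4) (by positivity : (0 : ℝ) < η / (4 * (A + 1)))]
  have hs := slope_pos hρ hρ'
  obtain ⟨j, hj⟩ := ((tendsto_order.1 hlim).2 (η / slope ρ) (by positivity)).exists
  have hsup : tsupport (v j) ⊆ K := (hv j).2.trans hSK
  have hw : Comp K fun z => ramp ρ (1 * v j z - 0) := comp_ramp hρ hρ' (hv j).1 hsup 1 le_rfl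
  have hvi : Integrable (v j) :=
    (hv j).1.continuous.integrable_of_hasCompactSupport (HasCompactSupport.intro hK fun y hy =>
      image_eq_zero_of_notMem_tsupport fun hs => hy (hsup hs))
  have hΩi : Integrable (Ω.indicator (1 : (Fin n → ℝ) → ℝ)) :=
    (integrableOn_const (μ := volume) (s := Ω) (C := (1 : ℝ))
      (((measure_mono hΩK).trans_lt hK.measure_lt_top).ne)).integrable_indicator hΩ
  refine ⟨_, hw, ?_, ?_⟩
  · have hi : Integrable fun y => conorm G y (cd (v j) y) * dens G y := by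
      refine Continuous.integrable_of_hasCompactSupport
        ((h.continuous_conorm_cd (hv j).1).mul h.continuous_dens)
        (HasCompactSupport.intro hK fun y hy => ?_)
      simp [cd_eq_zero_of_notMem fun hs => hy (hsup hs), conorm_zero]
    have h1 : per G (fun z => ramp ρ (1 * v j z - 0)) ≤
        slope ρ * ∫ y, conorm G y (cd (v j) y) * dens G y := by
      rw [per, ← integral_const_mul]
      refine integral_mono
        (by simpa using h.integrable_mul_conorm hK hw (continuous_const (y := (1 : ℝ))))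
        (hi.const_mul _) fun y => ?_
      simp only [fderiv_ramp_comp (hv j).1, h.conorm_smul, mul_one]
      have h1 := mul_le_mul_of_nonneg_right (abs_deriv_ramp_le hρ hρ' (1 * v j y - 0))
        (mul_nonneg (conorm_nonneg (G := G) y (cd (v j) y)) (h.dens_pos y).le)
      linarith
    have h2 := (mul_le_mul_of_nonneg_left (hA j) hs.le)
    have h3 := mul_le_mul_of_nonneg_right (slope_le hρ hρ') hA0
    linarith
  · have hpt : ∀ y, |ramp ρ (1 * v j y - 0) - Ω.indicator 1 y| ≤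
        slope ρ * |v j y - Ω.indicator 1 y| := fun y => by
      rw [one_mul, sub_zero]
      refine abs_ramp_sub_le hρ hρ' (v j y) ?_
      by_cases hm : y ∈ Ω <;> simp [hm]
    have hwi : Integrable fun z => ramp ρ (1 * v j z - 0) := by
      simpa using hw.integrable hK (continuous_const (y := (1 : ℝ)))
    refine (integral_mono (hwi.sub hΩi).abs ((hvi.sub hΩi).abs.const_mul _) hpt).trans ?_
    rw [integral_const_mul]
    calc slope ρ * ∫ y, |v j y - Ω.indicator 1 y| ≤ slope ρ * (η / slope ρ) :=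
          mul_le_mul_of_nonneg_left hj.le hs.le
      _ = η := by field_simp

/-! ## Dimension five -/

variable {H : (Fin 5 → ℝ) → Matrix (Fin 5) (Fin 5) ℝ} {E : (Fin 5 → ℝ) → (Fin 5 → ℝ) → ℝ}

lemma sharp5_pos : 0 < sharp5 := by unfold sharp5; positivity

lemma sharp5_pow : sharp5 ^ 5 = 625 * (8 * Real.pi ^ 2) / 3 := by
  rw [sharp5, mul_pow, ← Real.rpow_natCast ((8 * Real.pi ^ 2 / 15) ^ ((1 : ℝ) / 5)) 5,
    ← Real.rpow_mul (by positivity)]
  norm_num
  ring

/-- The inequality for sets. -/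
lemma sharp_sets (h : IsCH H E) (Ω : Set (Fin 5 → ℝ)) (A : ℝ) (hΩ : MeasurableSet Ω)
    (hb : Bornology.IsBounded Ω) (hA : PerimeterLE H Ω A) :
    sharp5 * volG H Ω ^ ((((5 : ℕ) : ℝ) - 1) / ((5 : ℕ) : ℝ)) ≤ A := by
  obtain ⟨e, he⟩ := Six.exists_isExp h
  rw [show (((5 : ℕ) : ℝ) - 1) / ((5 : ℕ) : ℝ) = 4 / 5 by norm_num]
  exact Five.sharpFive H E e h he Ω A hΩ hb hA

/-- The value of the right-hand side at equality. -/
lemma value_at_equality {V A s : ℝ} (hV : 0 < V)
    (hA : A ≤ sharp5 * V ^ ((4 : ℝ) / 5)) (hs : s = sharp5 / 5 * V ^ (-(1 : ℝ) / 5)) :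
    s ^ 4 * Five.polar5 * (A * V) + A * (Five.mass5 * (1 / 5)) / s ≤ 2 * Five.mass5 * V := by
  have hp5 : 0 < Five.polar5 := by unfold Five.polar5; positivity
  have hm5 : 0 < Five.mass5 := by unfold Five.mass5; positivity
  have hL := sharp5_pos
  have hs0 : 0 < s := by rw [hs]; positivity
  have eV : s * V = sharp5 / 5 * V ^ ((4 : ℝ) / 5) := by
    rw [hs, mul_assoc, ← Real.rpow_add_one hV.ne']
    norm_num
  have e4 : s ^ 4 * V ^ ((4 : ℝ) / 5) = (sharp5 / 5) ^ 4 := by
    rw [hs, mul_pow, ← Real.rpow_natCast (V ^ (-(1 : ℝ) / 5)) 4, ← Real.rpow_mul hV.le, mul_assoc,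
      ← Real.rpow_add hV]
    norm_num
  have h1 : s ^ 4 * Five.polar5 * (A * V) ≤ Five.mass5 * V := by
    calc s ^ 4 * Five.polar5 * (A * V) ≤ s ^ 4 * Five.polar5 * (sharp5 * V ^ ((4 : ℝ) / 5) * V) :=
          mul_le_mul_of_nonneg_left (mul_le_mul_of_nonneg_right hA hV.le) (by positivity)
      _ = Five.polar5 * (sharp5 ^ 5 / 625) * V := by
          calc _ = Five.polar5 * sharp5 * (s ^ 4 * V ^ ((4 : ℝ) / 5)) * V := by ring
            _ = _ := by rw [e4]; ring
      _ = Five.mass5 * V := by rw [sharp5_pow, Five.mass5_eq]; ring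
  have h2 : A * (Five.mass5 * (1 / 5)) / s ≤ Five.mass5 * V := by
    rw [div_le_iff₀ hs0]
    nlinarith [mul_le_mul_of_nonneg_left (show A ≤ 5 * (s * V) by rw [eV]; linarith) hm5.le]
  linarith

/-- The slack seen from one boundary covector, weighted by `u`. -/
def slackAt (G : (Fin 5 → ℝ) → Matrix (Fin 5) (Fin 5) ℝ) (D : (Fin 5 → ℝ) → (Fin 5 → ℝ) → ℝ) (u : (Fin 5 → ℝ) → ℝ) (s ε : ℝ)
    (y ξ : (Fin 5 → ℝ)) : ℝ≥0∞ :=
  ∫⁻ x, ENNReal.ofReal (u x) * ENNReal.ofReal (slackKer G D s ε x y ξ) ∂Six.volM G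

lemma cosAt_smul (h : IsCH H E) {c : ℝ} (hc : 0 < c) (x y ξ : (Fin 5 → ℝ)) :
    cosAt H E x y (c • ξ) = cosAt H E x y ξ := by
  rw [cosAt, cosAt, pairing_smul_left, h.conorm_smul, abs_of_pos hc]
  field_simp

/-- Some boundary covector has slack at most the mean slack. -/
lemma exists_low_slack (h : IsCH H E) {K : Set (Fin 5 → ℝ)} (hK : IsCompact K) {u : (Fin 5 → ℝ) → ℝ}
    (hu : Comp K u) (hP : 0 < per H u) (s ε : ℝ) :
    ∃ y ξ, y ∈ K ∧ conorm H y ξ = 1 ∧
      slackAt H E u s ε y ξ * ENNReal.ofReal (per H u) ≤ slackInt H E u s ε := by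
  have := Sharp.isFiniteMeasure_pm h hK hu
  have hum := hu.1.continuous.measurable.ennreal_ofReal
  have hm : Measurable fun w : Six.Phase 5 =>
      ENNReal.ofReal (u w.1) * ENNReal.ofReal (slackKer H E s ε w.1 w.2 (cd u w.2)) :=
    (hum.comp measurable_fst).mul (measurable_slackKer_cd h hu.1 s ε).ennreal_ofReal
  have : SFinite (Six.volM H) := by unfold Six.volM; infer_instance
  have hmean : ∫⁻ y, slackAt H E u s ε y (cd u y) ∂Sharp.pm H u = slackInt H E u s ε := by
    simp only [slackAt, slackInt]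
    rw [lintegral_lintegral_swap (f := fun y x =>
      ENNReal.ofReal (u x) * ENNReal.ofReal (slackKer H E s ε x y (cd u y)))
      (hm.comp measurable_swap).aemeasurable]
    exact lintegral_congr fun x => lintegral_const_mul' _ _ ENNReal.ofReal_ne_top
  have huniv : Sharp.pm H u univ = ENNReal.ofReal (per H u) := by
    rw [← Sharp.pm_univ h hK hu, ENNReal.ofReal_toReal (measure_ne_top _ _)]
  have hne : Sharp.pm H u ≠ 0 := fun h0 => by
    simp [h0] at huniv
    linarith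
  have hgood : ∀ᵐ y ∂Sharp.pm H u, y ∈ K ∧ 0 < conorm H y (cd u y) := by
    refine (Sharp.ae_mem_pm h hK hu).and ?_
    rw [Sharp.pm, ae_withDensity_iff
      (Sharp.continuous_weight h hu.1).measurable.ennreal_ofReal]
    refine Eventually.of_forall fun y hy => lt_of_le_of_ne (conorm_nonneg _ _) fun h0 => ?_
    exact hy (by simp [← h0])
  have hgm : Measurable fun y => slackAt H E u s ε y (cd u y) := hm.lintegral_prod_left'
  obtain ⟨y, hy, hle⟩ := exists_notMem_null_le_laverage hne hgm.aemeasurable (ae_iff.1 hgood)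
  simp only [mem_ofPred_eq, not_not] at hy
  obtain ⟨c, hc⟩ : ∃ z, z = conorm H y (cd u y) := ⟨_, rfl⟩
  have hc0 : 0 < c⁻¹ := inv_pos.2 (hc ▸ hy.2)
  refine ⟨y, c⁻¹ • cd u y, hy.1, ?_, ?_⟩
  · rw [h.conorm_smul, abs_of_pos hc0, ← hc, inv_mul_cancel₀ (hc ▸ hy.2).ne']
  · have e : slackAt H E u s ε y (c⁻¹ • cd u y) = slackAt H E u s ε y (cd u y) := by
      simp only [slackAt, slackKer, cosAt_smul h hc0]
    rw [e]
    rw [laverage_eq, hmean, huniv] at hle
    exact (mul_le_mul' hle le_rfl).trans_eq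
      (ENNReal.div_mul_cancel (ENNReal.ofReal_pos.2 hP).ne' ENNReal.ofReal_ne_top)

/-- The slack is continuous away from the diagonal, also at zero smoothing. -/
lemma continuousAt_slackKer (h : IsCH H E) {s : ℝ} (hs : 0 < s) {x y ξ : (Fin 5 → ℝ)} (hxy : x ≠ y)
    (hξ : conorm H y ξ = 1) :
    ContinuousAt (fun z : ℝ × ℝ × (Fin 5 → ℝ) × (Fin 5 → ℝ) => slackKer H E z.1 z.2.1 x z.2.2.1 z.2.2.2)
      (s, 0, y, ξ) := by
  have hD := Six.dist_pos h hxy
  have hy : Continuous fun z : ℝ × ℝ × (Fin 5 → ℝ) × (Fin 5 → ℝ) => z.2.2.1 :=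
    continuous_fst.comp (continuous_snd.comp continuous_snd)
  have hx : Continuous fun z : ℝ × ℝ × (Fin 5 → ℝ) × (Fin 5 → ℝ) => z.2.2.2 :=
    continuous_snd.comp (continuous_snd.comp continuous_snd)
  have hDc : Continuous fun z : ℝ × ℝ × (Fin 5 → ℝ) × (Fin 5 → ℝ) => E x z.2.2.1 :=
    (h.continuous_D_left x).comp hy
  have hr : Continuous fun z : ℝ × ℝ × (Fin 5 → ℝ) × (Fin 5 → ℝ) => z.1 * √(2 * E x z.2.2.1 + z.2.1 ^ 2) :=
    continuous_fst.mul ((continuous_const.mul hDc).add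
      ((continuous_fst.comp continuous_snd).pow 2)).sqrt
  have hr0 : Continuous fun z : ℝ × ℝ × (Fin 5 → ℝ) × (Fin 5 → ℝ) => z.1 * √(2 * E x z.2.2.1) :=
    continuous_fst.mul (continuous_const.mul hDc).sqrt
  have hd : ContinuousAt (fun z : ℝ × ℝ × (Fin 5 → ℝ) × (Fin 5 → ℝ) => cosAt H E x z.2.2.1 z.2.2.2) (s, 0, y, ξ) := by
    unfold cosAt
    refine ContinuousAt.div ?_ ((h.continuous_conorm.comp (hy.prodMk hx)).mul
      (continuous_const.mul hDc).sqrt).continuousAt ?_
    · exact (h.continuous_pairing.comp (hy.prodMk (hx.prodMk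
        ((Sharp.contDiff_logCovector h).continuous.comp
          (hy.prodMk continuous_const))))).neg.continuousAt
    · simp only
      rw [hξ, one_mul]
      positivity
  have hk : ContinuousAt (fun z : ℝ × ℝ × (Fin 5 → ℝ) × (Fin 5 → ℝ) =>
      Five.kern (z.1 * √(2 * E x z.2.2.1 + z.2.1 ^ 2)) |cosAt H E x z.2.2.1 z.2.2.2|)
      (s, 0, y, ξ) := by
    have hne : (fun z : ℝ × ℝ × (Fin 5 → ℝ) × (Fin 5 → ℝ) => z.1 * √(2 * E x z.2.2.1 + z.2.1 ^ 2)) (s, 0, y, ξ) ≠ 0 :=
      by simp only; positivity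
    have hkc : ∀ r d : ℝ, 0 < r →
        ContinuousAt (fun w : ℝ × ℝ => Five.kern w.1 w.2) (r, d) := fun r d hr => by
      unfold Five.kern Five.prof Five.profD
      fun_prop (disch := simp only; positivity)
    exact (hkc _ _ (by simp only; positivity)).comp
      (hr.continuousAt.prodMk hd.abs) (f := fun z : ℝ × ℝ × (Fin 5 → ℝ) × (Fin 5 → ℝ) =>
        (z.1 * √(2 * E x z.2.2.1 + z.2.1 ^ 2), |cosAt H E x z.2.2.1 z.2.2.2|))
  unfold slackKer exitKer
  refine hk.sub (((continuous_jfac h).comp (continuous_const.prodMk hy)).continuousAt.mul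
    (hk.min (((hd.max continuousAt_const).const_mul 2).div (hr0.continuousAt.pow 4) ?_)))
  simp only
  positivity

/-- `CentrePin`. -/
theorem centre : CentrePin := by
  intro G D h Ω A hΩ hΩb hP hV hAV
  obtain ⟨S, v, hS, hv, hlim, hA⟩ := hP
  obtain ⟨e, he⟩ := Six.exists_isExp h
  obtain ⟨V, hVd⟩ : ∃ V, V = volG G Ω := ⟨_, rfl⟩
  rw [← hVd] at hV hAV ⊢
  obtain ⟨L, hLd⟩ : ∃ L, L = sharp5 := ⟨_, rfl⟩
  have hL : 0 < L := hLd ▸ sharp5_pos
  rw [← hLd] at hAV ⊢
  set o : (Fin 5 → ℝ) := 0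
  obtain ⟨R, hR, hSK, hΩK⟩ : ∃ R : ℝ, 0 < R ∧ S ⊆ {y | D o y ≤ R} ∧ Ω ⊆ {y | D o y ≤ R} := by
    obtain ⟨B, hB⟩ := (hS.union hΩb.isCompact_closure).bddAbove_image
      ((h.contDiff_D o).continuous.continuousOn)
    exact ⟨max B 1, by positivity,
      fun y hy => (hB ⟨y, Or.inl hy, rfl⟩).trans (le_max_left _ _),
      fun y hy => (hB ⟨y, Or.inr (subset_closure hy), rfl⟩).trans (le_max_left _ _)⟩
  set K : Set (Fin 5 → ℝ) := {y | D o y ≤ R}
  have hK : IsCompact K := h.proper o R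
  obtain ⟨B, hB⟩ := hK.bddAbove_image h.continuous_dens.continuousOn
  have hB' : ∀ y ∈ K, dens G y ≤ B := fun y hy => hB ⟨y, hy, rfl⟩
  have hA0 : 0 ≤ A := le_trans (integral_nonneg fun y =>
    mul_nonneg (conorm_nonneg _ _) (h.dens_pos y).le) (hA 0)
  -- competitors
  have hex : ∀ j : ℕ, ∃ w, Comp K w ∧ per G w ≤ A + (1 / 2) ^ j ∧
      ∫ y, |w y - Ω.indicator 1 y| ≤ (1 / 2) ^ j := fun j =>
    exists_close h hK hΩ hΩK hSK hv hlim hA (by positivity)
  choose w hw hwp hwi using hex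
  have hgeo : Tendsto (fun j : ℕ => ((1 : ℝ) / 2) ^ j) atTop (𝓝 0) :=
    tendsto_pow_atTop_nhds_zero_of_lt_one (by norm_num) (by norm_num)
  have hBgeo : Tendsto (fun j : ℕ => B * ((1 : ℝ) / 2) ^ j) atTop (𝓝 0) := by
    simpa using hgeo.const_mul B
  have hB0 : 0 ≤ B := (h.dens_pos o).le.trans (hB' o (by
    show D o o ≤ R
    rw [h.dist_self]; exact hR.le))
  have hwV : Tendsto (fun j => vol G (w j)) atTop (𝓝 V) := by
    rw [tendsto_iff_norm_sub_tendsto_zero]
    refine squeeze_zero (fun j => norm_nonneg _) (fun j => ?_) hBgeo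
    rw [Real.norm_eq_abs, hVd]
    exact (vol_gap_close h hK hΩ hΩK hB' (hw j)).1.trans (mul_le_mul_of_nonneg_left (hwi j) hB0)
  have hwg : Tendsto (fun j => gap G (w j)) atTop (𝓝 0) :=
    squeeze_zero (fun j => h.gap_nonneg (hw j).2.2) (fun j =>
      (vol_gap_close h hK hΩ hΩK hB' (hw j)).2.trans (mul_le_mul_of_nonneg_left (hwi j) hB0)) hBgeo
  obtain ⟨α, hα⟩ : ∃ α : ℝ, α = (((5 : ℕ) : ℝ) - 1) / ((5 : ℕ) : ℝ) := ⟨_, rfl⟩
  have hα' : α = 4 / 5 := by rw [hα]; norm_num
  obtain ⟨M, hM⟩ : ∃ M, M = 2 * L * (V / 4) ^ (α - 1) := ⟨_, rfl⟩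
  have hM0 : 0 ≤ M := by rw [hM]; positivity
  have hlevel : ∀ u, Comp K u → 0 < vol G u →
      L * vol G u ^ α ≤ per G u + 2 * L * vol G u ^ (α - 1) * gap G u := fun u hu hu0 => by
    have := levelPin 5 (by norm_num) G D h L hL.le
      (fun Ω' A' h1 h2 h3 => hLd ▸ sharp_sets h Ω' A' h1 h2 h3) K u hK hu hu0
    rwa [← hα] at this
  have hJ : ∀ u, Comp K u → V / 4 ≤ vol G u →
      0 ≤ per G u - L * vol G u ^ α + M * gap G u := fun u hu hv' => by
    have hu0 : 0 < vol G u := lt_of_lt_of_le (by linarith) hv'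
    have h2 := mul_le_mul_of_nonneg_left
      (Real.rpow_le_rpow_of_nonpos (by linarith : 0 < V / 4) hv' (by linarith : α - 1 ≤ 0))
      (by positivity : (0 : ℝ) ≤ 2 * L)
    rw [← hM] at h2
    linarith [hlevel u hu hu0, mul_le_mul_of_nonneg_right h2 (h.gap_nonneg (G := G) hu.2.2)]
  obtain ⟨s, hs⟩ : ∃ s, s = L / 5 * V ^ (-(1 : ℝ) / 5) := ⟨_, rfl⟩
  have hs0 : 0 < s := by rw [hs]; positivity
  obtain ⟨s₁, hs₁⟩ : ∃ s₁, s₁ = L / 5 * 2 * (V / 2) ^ (-(1 : ℝ) / 5) := ⟨_, rfl⟩
  have hs₁0 : 0 < s₁ := by rw [hs₁]; positivity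
  have hp5 : 0 < Five.polar5 := by unfold Five.polar5; positivity
  have hm5 : 0 < Five.mass5 := by unfold Five.mass5; positivity
  -- parameters of the k-th step
  have hstep : ∀ k : ℕ, ∃ (ε : ℝ) (j : ℕ), k ≤ j ∧ 0 < ε ∧ ε ≤ 1 / ((k : ℝ) + 8) ∧
      V / 2 ≤ vol G (w j) ∧
      ENNReal.ofReal (2 * (1 - 1 / ((k : ℝ) + 8)) * Five.mass5 * (vol G (w j) - gap G (w j))) +
        ENNReal.ofReal (Five.scale G L (1 + 1 / ((k : ℝ) + 8)) (w j) ^ 4 * Five.polar5) *
          slackInt G D (w j) (Five.scale G L (1 + 1 / ((k : ℝ) + 8)) (w j)) ε ≤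
      ENNReal.ofReal (Five.scale G L (1 + 1 / ((k : ℝ) + 8)) (w j) ^ 4 * Five.polar5 *
          ((per G (w j) + 1 / ((k : ℝ) + 8)) * vol G (w j)) +
        per G (w j) * (Five.mass5 * (1 / 5 + 5 * (1 / ((k : ℝ) + 8)))) /
          Five.scale G L (1 + 1 / ((k : ℝ) + 8)) (w j)) := by
    intro k
    obtain ⟨η, hη⟩ : ∃ η, η = 1 / ((k : ℝ) + 8) := ⟨_, rfl⟩
    rw [← hη]
    have hη0 : 0 < η := by rw [hη]; positivity
    have hη8 : η ≤ 1 / 8 := by
      rw [hη]; exact one_div_le_one_div_of_le (by norm_num) (by linarith [(k.cast_nonneg : (0:ℝ) ≤ k)])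
    obtain ⟨ε₀, hε₀, hlines⟩ := linesSlack Five.momentPin Five.integralPin G D e h he η s₁ hη0
      (by linarith) hs₁0
    obtain ⟨ε, hε⟩ : ∃ ε, ε = min ε₀ η := ⟨_, rfl⟩
    have hε0 : 0 < ε := hε ▸ lt_min hε₀ hη0
    have hθ5 : (1 + η) ^ 5 ≤ 2 := by
      calc (1 + η) ^ 5 ≤ (1 + 1 / 8) ^ 5 := by gcongr
        _ ≤ 2 := by norm_num
    obtain ⟨δ₀, hδ₀, hrow⟩ := rowPinW G D h o R M (A + 1) (V / 2) L (1 + η) ε η hR hM0
      (by linarith) (by linarith) hL (by linarith) hθ5 hε0 hη0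
    obtain ⟨δ, hδ⟩ : ∃ δ, δ = min δ₀ η := ⟨_, rfl⟩
    have hδ0 : 0 < δ := hδ ▸ lt_min hδ₀ hη0
    have hJw : Tendsto (fun j => A + (1 / 2) ^ j - L * vol G (w j) ^ α + M * gap G (w j)) atTop
        (𝓝 (A + 0 - L * V ^ α + M * 0)) :=
      ((tendsto_const_nhds.add hgeo).sub
        ((hwV.rpow_const (Or.inl hV.ne')).const_mul L)).add (hwg.const_mul M)
    have hlt : A + 0 - L * V ^ α + M * 0 < δ := by rw [hα']; linarith
    obtain ⟨j, hj1, hj2, hj3, hj4⟩ := ((hwV.eventually (eventually_ge_nhds (by linarith : V / 2 < V))).and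
      (((tendsto_order.1 hJw).2 δ hlt).and ((hwg.eventually (eventually_le_nhds hδ0)).and
        (eventually_ge_atTop k)))).exists
    refine ⟨ε, j, hj4, hε0, hε ▸ min_le_right _ _, hj1, ?_⟩
    have hpj := h.per_nonneg (w j)
    have hnm : NearMinW G D o R (A + 1) (V / 2) L M δ (w j) := by
      refine ⟨hw j, (hwp j).trans (add_le_add le_rfl
        (pow_le_one₀ (by norm_num) (by norm_num))), hj1, hj3, fun u' hu' hv' => ?_⟩
      rw [← hα]
      have := hJ u' hu' (by linarith)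
      have := hwp j
      linarith
    have hsc : 0 < Five.scale G L (1 + η) (w j) := by
      have : 0 < vol G (w j) := lt_of_lt_of_le (by linarith) hj1
      rw [Five.scale]; positivity
    have hsc1 : Five.scale G L (1 + η) (w j) ≤ s₁ := by
      rw [Five.scale, hs₁]
      exact mul_le_mul (mul_le_mul_of_nonneg_left (by linarith) (by positivity))
        (Real.rpow_le_rpow_of_nonpos (by linarith) hj1 (by norm_num))
        (Real.rpow_nonneg (h.vol_nonneg (hw j).2.2) _) (by positivity)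
    exact hlines ε _ o R (w j) (per G (w j) + η) hε0 (hε ▸ min_le_left _ _) hsc hsc1 (hw j)
      (by linarith) fun x hx => hrow δ (w j) (hδ ▸ min_le_left _ _) hδ0 hnm x hx
  choose εs js hjs hεs0 hεs hVs hineq using hstep
  set u : ℕ → (Fin 5 → ℝ) → ℝ := fun k => w (js k)
  obtain ⟨ηs, hηs⟩ : ∃ ηs : ℕ → ℝ, ηs = fun k : ℕ => 1 / ((k : ℝ) + 8) := ⟨_, rfl⟩
  have hηlim : Tendsto ηs atTop (𝓝 0) := by
    rw [hηs]
    exact (tendsto_atTop_add_const_right _ 8 tendsto_natCast_atTop_atTop).inv_tendsto_atTop.congr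
      fun k => by simp
  set σ : ℕ → ℝ := fun k => Five.scale G L (1 + ηs k) (u k) with hσ
  have hjlim : Tendsto js atTop atTop := tendsto_atTop_mono hjs tendsto_id
  have huV : Tendsto (fun k => vol G (u k)) atTop (𝓝 V) := hwV.comp hjlim
  have hσlim : Tendsto σ atTop (𝓝 s) := by
    simp only [hσ, Five.scale, hs]
    have h1 : Tendsto (fun k => L / 5 * (1 + ηs k)) atTop (𝓝 (L / 5 * (1 + 0))) :=
      (tendsto_const_nhds.add hηlim).const_mul _
    simpa using h1.mul (huV.rpow_const (p := -(1 : ℝ) / 5) (Or.inl hV.ne'))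
  have hεlim : Tendsto εs atTop (𝓝 0) :=
    squeeze_zero (fun k => (hεs0 k).le) (fun k => by rw [hηs]; exact hεs k) hηlim
  -- the slack tends to zero
  obtain ⟨RH, hRH⟩ : ∃ RH : ℕ → ℝ, RH = fun k => σ k ^ 4 * Five.polar5 *
      ((A + (1 / 2) ^ js k + ηs k) * vol G (u k)) +
      (A + (1 / 2) ^ js k) * (Five.mass5 * (1 / 5 + 5 * ηs k)) / σ k := ⟨_, rfl⟩
  obtain ⟨LH, hLH⟩ : ∃ LH : ℕ → ℝ,
      LH = fun k => 2 * (1 - ηs k) * Five.mass5 * (vol G (u k) - gap G (u k)) := ⟨_, rfl⟩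
  have hσ0 : ∀ k, 0 < σ k := fun k => by
    have : 0 < vol G (u k) := lt_of_lt_of_le (by linarith) (hVs k)
    simp only [hσ, Five.scale, hηs]; positivity
  have hsl : ∀ k, slackInt G D (u k) (σ k) (εs k) ≤
      ENNReal.ofReal ((RH k - max (LH k) 0) / (σ k ^ 4 * Five.polar5)) := by
    intro k
    have hc : 0 < σ k ^ 4 * Five.polar5 := by have := hσ0 k; positivity
    have h1 := hineq k
    rw [show (1 : ℝ) / ((k : ℝ) + 8) = ηs k by rw [hηs]] at h1
    have h2 : ENNReal.ofReal (σ k ^ 4 * Five.polar5) * slackInt G D (u k) (σ k) (εs k) ≤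
        ENNReal.ofReal (RH k - max (LH k) 0) := by
      rw [ENNReal.ofReal_sub _ (le_max_right _ _)]
      refine ENNReal.le_sub_of_add_le_left ENNReal.ofReal_ne_top (le_trans ?_ (h1.trans ?_))
      · refine add_le_add (le_of_eq ?_) le_rfl
        simp only [hLH, u]
        rcases le_total 0 (2 * (1 - ηs k) * Five.mass5 * (vol G (w (js k)) - gap G (w (js k))))
          with h0 | h0
        · rw [max_eq_left h0]
        · rw [max_eq_right h0, ENNReal.ofReal_zero, ENNReal.ofReal_of_nonpos h0]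
      · refine ENNReal.ofReal_le_ofReal ?_
        simp only [hRH, hσ, u]
        have hv0 := h.vol_nonneg (G := G) (hw (js k)).2.2
        have hη0 : 0 ≤ ηs k := by simp only [hηs]; positivity
        have := hσ0 k
        simp only [hσ, u] at this
        gcongr <;> exact hwp (js k)
    rw [ENNReal.ofReal_div_of_pos hc,
      ENNReal.le_div_iff_mul_le (Or.inl (ENNReal.ofReal_pos.2 hc).ne') (Or.inl ENNReal.ofReal_ne_top),
      mul_comm]
    exact h2
  have hRlim : Tendsto RH atTop (𝓝 (s ^ 4 * Five.polar5 * ((A + 0 + 0) * V) +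
      (A + 0) * (Five.mass5 * (1 / 5 + 5 * 0)) / s)) := by
    rw [hRH]
    exact (((hσlim.pow 4).mul_const _).mul (((tendsto_const_nhds.add (hgeo.comp hjlim)).add
      hηlim).mul huV)).add ((((tendsto_const_nhds.add (hgeo.comp hjlim)).mul
        ((tendsto_const_nhds.add (hηlim.const_mul 5)).const_mul _))).div hσlim hs0.ne')
  have hLlim : Tendsto LH atTop (𝓝 (2 * (1 - 0) * Five.mass5 * (V - 0))) := by
    rw [hLH]
    exact (((tendsto_const_nhds.sub hηlim).const_mul 2).mul_const _).mul (huV.sub (hwg.comp hjlim))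
  have hslack : Tendsto (fun k => slackInt G D (u k) (σ k) (εs k)) atTop (𝓝 0) := by
    have h1 := ENNReal.tendsto_ofReal (((hRlim.sub (hLlim.max (tendsto_const_nhds (x := (0 : ℝ))))).div
      ((hσlim.pow 4).mul_const Five.polar5) (by positivity)))
    rw [ENNReal.ofReal_of_nonpos] at h1
    · exact tendsto_of_tendsto_of_tendsto_of_le_of_le tendsto_const_nhds h1 (fun _ => zero_le) hsl
    · refine div_nonpos_of_nonpos_of_nonneg ?_ (by positivity)
      have := value_at_equality hV (hLd ▸ hAV) (hs.trans (by rw [hLd]))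
      rw [max_eq_left (by simp only [sub_zero, mul_one]; positivity)]
      simp only [sub_zero, mul_one, add_zero, mul_zero]
      linarith
  -- boundary covectors of least slack
  have hperlow : ∀ᶠ k in atTop, L * V ^ α / 2 < per G (u k) := by
    have h1 : Tendsto (fun k => L * vol G (u k) ^ α - M * gap G (u k)) atTop
        (𝓝 (L * V ^ α - M * 0)) :=
      ((huV.rpow_const (Or.inl hV.ne')).const_mul L).sub ((hwg.comp hjlim).const_mul M)
    have hpos : 0 < L * V ^ α := by positivity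
    filter_upwards [(tendsto_order.1 h1).1 (L * V ^ α / 2) (by linarith)] with k hk
    linarith [hJ (u k) (hw _) (by have := hVs k; simp only [u]; linarith)]
  obtain ⟨k₀, hk₀⟩ := eventually_atTop.1 hperlow
  have hpts : ∀ k, ∃ y ξ, y ∈ K ∧ conorm G y ξ = 1 ∧
      slackAt G D (u (k + k₀)) (σ (k + k₀)) (εs (k + k₀)) y ξ *
        ENNReal.ofReal (per G (u (k + k₀))) ≤
      slackInt G D (u (k + k₀)) (σ (k + k₀)) (εs (k + k₀)) := fun k =>
    exists_low_slack h hK (hw _) (lt_trans (by positivity) (hk₀ _ (Nat.le_add_left _ _))) _ _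
  choose ys ξs hys hξs hlow using hpts
  have hT : IsCompact ((fun z : (Fin 5 → ℝ) × (Fin 5 → ℝ) × ℝ => (z.1, z.2.1)) '' Dir.paramSet G D o R {0}) :=
    (Dir.isCompact_paramSet h o R isCompact_singleton).image (by fun_prop)
  obtain ⟨⟨y, ξ⟩, -, φ, hφ, hφlim⟩ := hT.tendsto_subseq (x := fun k => (ys k, ξs k)) fun k =>
    ⟨(ys k, ξs k, 0), ⟨hys k, (hξs k).le, rfl⟩, rfl⟩
  have hξ : conorm G y ξ = 1 := by
    refine tendsto_nhds_unique ((h.continuous_conorm.tendsto (y, ξ)).comp hφlim) ?_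
    simp [Function.comp_def, hξs]
  set m : ℕ → ℕ := fun k => φ k + k₀
  have hm : Tendsto m atTop atTop := (tendsto_add_atTop_nat k₀).comp hφ.tendsto_atTop
  obtain ⟨c, hc⟩ : ∃ c, c = ENNReal.ofReal (L * V ^ α / 2) := ⟨_, rfl⟩
  have hc0 : c ≠ 0 := by rw [hc]; exact (ENNReal.ofReal_pos.2 (by positivity)).ne'
  have hat : Tendsto (fun k => slackAt G D (u (m k)) (σ (m k)) (εs (m k)) (ys (φ k)) (ξs (φ k)))
      atTop (𝓝 0) := by
    have h1 := ENNReal.Tendsto.div_const (hslack.comp hm) (Or.inr hc0) (b := c)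
    rw [ENNReal.zero_div] at h1
    refine tendsto_of_tendsto_of_tendsto_of_le_of_le tendsto_const_nhds h1 (fun _ => zero_le)
      fun k => ?_
    rw [Function.comp_apply, ENNReal.le_div_iff_mul_le (Or.inl hc0) (Or.inl (hc ▸ ENNReal.ofReal_ne_top))]
    exact le_trans (mul_le_mul' le_rfl (hc ▸ ENNReal.ofReal_le_ofReal (hk₀ _ (Nat.le_add_left _ _)).le))
      (hlow (φ k))
  -- convergence of the competitors almost everywhere
  have hae : ∀ᵐ x : (Fin 5 → ℝ), Tendsto (fun k => u (m k) x) atTop (𝓝 (Ω.indicator 1 x)) := by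
    have hmeas : ∀ j, Measurable fun x => ENNReal.ofReal |w j x - Ω.indicator 1 x| := fun j =>
      (((hw j).1.continuous.measurable.sub (measurable_one.indicator hΩ)).abs).ennreal_ofReal
    have hsum : ∫⁻ x, ∑' j, ENNReal.ofReal |w j x - Ω.indicator 1 x| ≠ ∞ := by
      rw [lintegral_tsum fun j => (hmeas j).aemeasurable]
      refine ne_top_of_le_ne_top ?_ (ENNReal.tsum_le_tsum fun j => (?_ : _ ≤ ENNReal.ofReal ((1 / 2 : ℝ) ^ j)))
      · rw [← ENNReal.ofReal_tsum_of_nonneg (fun j => by positivity) summable_geometric_two]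
        exact ENNReal.ofReal_ne_top
      · have hi : Integrable fun x => |w j x - Ω.indicator 1 x| :=
          ((by simpa using (hw j).integrable hK (continuous_const (y := (1 : ℝ))) :
            Integrable (w j)).sub ((integrableOn_const (μ := volume) (s := Ω) (C := (1 : ℝ))
              (((measure_mono hΩK).trans_lt hK.measure_lt_top).ne)).integrable_indicator hΩ)).abs
        rw [← ofReal_integral_eq_lintegral_ofReal hi (Eventually.of_forall fun x => abs_nonneg _)]
        exact ENNReal.ofReal_le_ofReal (hwi j)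
    filter_upwards [ae_lt_top (Measurable.tsum hmeas) hsum] with x hx
    have h1 := ENNReal.tendsto_atTop_zero_of_tsum_ne_top hx.ne
    have h2 : Tendsto (fun j => |w j x - Ω.indicator 1 x|) atTop (𝓝 0) := by
      have := (ENNReal.tendsto_toReal (a := (0 : ℝ≥0∞)) ENNReal.zero_ne_top).comp h1
      simpa [Function.comp_def, abs_nonneg] using this
    have h3 : Tendsto (fun j => w j x) atTop (𝓝 (Ω.indicator 1 x)) :=
      tendsto_iff_norm_sub_tendsto_zero.2 (by simpa [Real.norm_eq_abs] using h2)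
    exact h3.comp (hjlim.comp hm)
  -- no slack in the limit
  set F : ℕ → (Fin 5 → ℝ) → ℝ≥0∞ := fun k x => ENNReal.ofReal (dens G x) * (ENNReal.ofReal (u (m k) x) *
    ENNReal.ofReal (slackKer G D (σ (m k)) (εs (m k)) x (ys (φ k)) (ξs (φ k))))
  have hFk : ∀ k, Measurable fun x => ENNReal.ofReal (u (m k) x) *
      ENNReal.ofReal (slackKer G D (σ (m k)) (εs (m k)) x (ys (φ k)) (ξs (φ k))) := fun k => by
    have hD : Continuous fun x => D x (ys (φ k)) :=
      h.continuous_D.comp (continuous_id.prodMk continuous_const)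
    have hcd : Continuous fun x => cd (D x) (ys (φ k)) :=
      (Sharp.contDiff_logCovector h).continuous.comp (continuous_const.prodMk continuous_id)
    have hd : Measurable fun x => cosAt G D x (ys (φ k)) (ξs (φ k)) :=
      (h.continuous_pairing.comp (continuous_const.prodMk (continuous_const.prodMk hcd))).neg.measurable.div
        ((continuous_const.mul (continuous_const.mul hD).sqrt).measurable)
    have hr : Measurable fun x => σ (m k) * √(2 * D x (ys (φ k)) + εs (m k) ^ 2) :=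
      (continuous_const.mul ((continuous_const.mul hD).add continuous_const).sqrt).measurable
    have hr0 : Measurable fun x => σ (m k) * √(2 * D x (ys (φ k))) :=
      (continuous_const.mul (continuous_const.mul hD).sqrt).measurable
    refine (hw _).1.continuous.measurable.ennreal_ofReal.mul ?_
    unfold slackKer exitKer
    exact ((Five.measurable_kern.comp (hr.prodMk hd.abs)).sub
      (((continuous_jfac h).comp (continuous_id.prodMk continuous_const)).measurable.mul
        ((Five.measurable_kern.comp (hr.prodMk hd.abs)).min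
          (((hd.max measurable_const).const_mul 2).div (hr0.pow_const 4))))).ennreal_ofReal
  have hF : ∀ k, Measurable (F k) := fun k =>
    h.continuous_dens.measurable.ennreal_ofReal.mul (hFk k)
  have hzero : ∀ᵐ x : (Fin 5 → ℝ), liminf (fun k => F k x) atTop = 0 := by
    refine (lintegral_eq_zero_iff (Measurable.liminf hF)).1 (le_antisymm ?_ zero_le)
    refine (lintegral_liminf_le hF).trans (le_of_eq ?_)
    refine Tendsto.liminf_eq (hat.congr fun k => ?_)
    rw [slackAt, Six.volM,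
      lintegral_withDensity_eq_lintegral_mul _ h.continuous_dens.measurable.ennreal_ofReal (hFk k)]
    rfl
  refine ⟨y, ξ, hξ, ?_⟩
  rw [ae_restrict_iff' hΩ]
  have hne : ∀ᵐ x : (Fin 5 → ℝ), x ≠ y := by simp [ae_iff]
  filter_upwards [hzero, hae, hne] with x hx0 hx1 hxy hxΩ
  rw [indicator_of_mem hxΩ, Pi.one_apply] at hx1
  have hpt : Tendsto (fun k => (σ (m k), εs (m k), ys (φ k), ξs (φ k))) atTop (𝓝 (s, 0, y, ξ)) :=
    (hσlim.comp hm).prodMk_nhds ((hεlim.comp hm).prodMk_nhds hφlim)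
  have hsk := (continuousAt_slackKer h hs0 hxy hξ).tendsto.comp hpt
  have hFlim : Tendsto (fun k => F k x) atTop
      (𝓝 (ENNReal.ofReal (dens G x) * (ENNReal.ofReal 1 * ENNReal.ofReal (slackKer G D s 0 x y ξ)))) := by
    refine ENNReal.Tendsto.const_mul ?_ (Or.inr ENNReal.ofReal_ne_top)
    exact ENNReal.Tendsto.mul (ENNReal.tendsto_ofReal hx1) (Or.inr ENNReal.ofReal_ne_top)
      (ENNReal.tendsto_ofReal hsk) (Or.inr ENNReal.ofReal_ne_top)
  rw [hFlim.liminf_eq, ENNReal.ofReal_one, one_mul, mul_eq_zero] at hx0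
  have hle : slackKer G D s 0 x y ξ ≤ 0 :=
    ENNReal.ofReal_eq_zero.1 (hx0.resolve_left (ENNReal.ofReal_pos.2 (h.dens_pos x)).ne')
  have hge : 0 ≤ slackKer G D s 0 x y ξ :=
    ge_of_tendsto hsk (Eventually.of_forall fun k => slackKer_nonneg h (hσ0 _) (hεs0 _) _ _ _)
  have hD := Six.dist_pos h hxy
  obtain ⟨hj, hr⟩ := of_slack_zero (r := s * √(2 * D x y))
    (τ := s * √(2 * D x y + (0 : ℝ) ^ 2)) (d := cosAt G D x y ξ) (by positivity)
    (by norm_num) (abs_cosAt_le h x y ξ) (jfac_le_one h x y) (le_antisymm hle hge)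
  refine ⟨hj, ?_⟩
  rw [← hs]
  have hsq : √(2 * D x y) * √(2 * D x y) = 2 * D x y := Real.mul_self_sqrt (by positivity)
  have hsp : 0 < √(2 * D x y) := by positivity
  rw [cosAt, hξ, one_mul, ← mul_div_assoc, le_div_iff₀ hsp, mul_assoc, hsq] at hr
  linarith

end Vale.Agent.P219.CH.Rigid
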