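import Vale.Agent.P219.Gen.Defs
import Vale.Agent.P219.Six.Mixed

/-!
# P219: rigidity from a strict certificate, any dimension

A strict certificate has a limit kernel `K` that exceeds the part used on paired crossings, except
for `r = 2 c`. At equality the slack of the competitors tends to zero, so their perimeter
concentrates on a sphere in the logarithmic chart of one boundary point, and the set is the ball it
bounds. The parts are stated here as pins.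
-/

noncomputable section

open MeasureTheory Set Filter Topology Matrix
open scoped ENNReal

namespace Vale.Agent.P219.CH.Rigid

variable {n : ℕ}

/-- The part of the kernel used on a paired crossing; zero unless both cosines are positive. -/
def usedKer (n : ℕ) (a : ℝ → ℝ) (b ε r c d : ℝ) : ℝ :=
  max (a (max c 0) * max d 0 + a (max d 0) * max c 0 +
    (2 * b * r - ε) * (max c 0 * max d 0)) 0 / r ^ (n - 1)

/-- A certificate whose limit kernel `K` is strict away from `r = 2 c`. -/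
structure StrictCert (n : ℕ) [NeZero n] (a : ℝ → ℝ) (b : ℝ) (K : ℝ × ℝ × ℝ → ℝ) : Prop where
  cert : Gen.Cert n a b
  continuous_a : Continuous a
  continuous_K : ContinuousOn K {q | 0 < q.1}
  used_le : ∀ r c d, 0 < r → c ∈ Icc (-1 : ℝ) 1 → d ∈ Icc (-1 : ℝ) 1 →
    usedKer n a b 0 r c d ≤ K (r, c, d)
  strict : ∀ r c d, 0 < r → c ∈ Icc (-1 : ℝ) 1 → d ∈ Icc (-1 : ℝ) 1 →
    usedKer n a b 0 r c d = K (r, c, d) → r = 2 * c
  weight : ∀ ε T : ℝ, 0 < ε → 0 < T → ∃ w : ℝ × ℝ → ℝ, ContDiff ℝ 1 w ∧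
    (∀ p q, 0 ≤ p → q ^ 2 ≤ 2 * p → 0 < w (p, q)) ∧
    (∀ r c d, r ∈ Icc 0 T → c ∈ Icc (-1 : ℝ) 1 → d ∈ Icc (-1 : ℝ) 1 → -ε ≤ Gen.sym n w r c d) ∧
    (∀ r c d, r ∈ Ioc 0 T → c ∈ Ioc (0 : ℝ) 1 → d ∈ Ioc (0 : ℝ) 1 →
      a c * d + a d * c + 2 * b * c * d * r - ε * (c * d) ≤ r ^ (n - 1) * Gen.sym n w r c d) ∧
    ∀ r c d, r ∈ Icc ε T → c ∈ Icc (-1 : ℝ) 1 → d ∈ Icc (-1 : ℝ) 1 →
      K (r, c, d) - ε ≤ Gen.sym n w r c d

/-- The used part between two boundary points of a competitor. -/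
def usedPair (G : (Fin n → ℝ) → Matrix (Fin n) (Fin n) ℝ) (D : (Fin n → ℝ) → (Fin n → ℝ) → ℝ)
    (a : ℝ → ℝ) (b ε : ℝ) (u : (Fin n → ℝ) → ℝ) (s : ℝ) (x y : Fin n → ℝ) : ℝ :=
  usedKer n a b ε (s * Real.sqrt (2 * D x y)) (Dir.scos G D u y x) (Dir.scos G D u x y)

/-- The slack between two boundary points of a competitor, at distance at least `r₀`. -/
def slackPair (G : (Fin n → ℝ) → Matrix (Fin n) (Fin n) ℝ) (D : (Fin n → ℝ) → (Fin n → ℝ) → ℝ)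
    (a : ℝ → ℝ) (b : ℝ) (K : ℝ × ℝ × ℝ → ℝ) (u : (Fin n → ℝ) → ℝ) (s r₀ : ℝ)
    (x y : Fin n → ℝ) : ℝ≥0∞ :=
  if r₀ ≤ s * Real.sqrt (2 * D x y) then
    ENNReal.ofReal (K (s * Real.sqrt (2 * D x y), Dir.scos G D u y x, Dir.scos G D u x y) -
      usedPair G D a b 0 u s x y)
  else 0

/-- Competitors converging to the indicator of `Ω` in one sublevel set. -/
def Approx (G : (Fin n → ℝ) → Matrix (Fin n) (Fin n) ℝ) (D : (Fin n → ℝ) → (Fin n → ℝ) → ℝ)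
    (Ω : Set (Fin n → ℝ)) (o : Fin n → ℝ) (R : ℝ) (u : ℕ → (Fin n → ℝ) → ℝ) : Prop :=
  Ω ⊆ {y | D o y ≤ R} ∧ (∀ k, Comp {y | D o y ≤ R} (u k)) ∧
    Tendsto (fun k => ∫ z, |u k z - Ω.indicator 1 z|) atTop (𝓝 0)

/-- The radius of the Euclidean ball of volume `V`. -/
def radius (n : ℕ) (V : ℝ) : ℝ := (V / Bend.unitBall n) ^ (1 / n : ℝ)

/-- Perimeter disappears away from the sphere of the logarithm at `y` with normal `ξ`. -/
def OnSphere (G : (Fin n → ℝ) → Matrix (Fin n) (Fin n) ℝ) (D : (Fin n → ℝ) → (Fin n → ℝ) → ℝ)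
    (V : ℝ) (y ξ : Fin n → ℝ) (u : ℕ → (Fin n → ℝ) → ℝ) : Prop :=
  ∀ T : Set (Fin n → ℝ), IsCompact T →
    (∀ x ∈ T, D x y + radius n V * pairing G y ξ (cd (D x) y) ≠ 0) →
    Tendsto (fun k => ∫⁻ x in T, ENNReal.ofReal (conorm G x (cd (u k) x) * dens G x)) atTop (𝓝 0)

/-! ## Pins -/

/-- The pair integral along geodesics, with the used part only. -/
def UsedPin (n : ℕ) [NeZero n] : Prop :=
  2 ≤ n → ∀ (a : ℝ → ℝ) (b : ℝ), Gen.Cert n a b → Continuous a →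
    ∀ (G : (Fin n → ℝ) → Matrix (Fin n) (Fin n) ℝ) (D : (Fin n → ℝ) → (Fin n → ℝ) → ℝ)
      (e : Six.Phase n → Fin n → ℝ), IsCH G D → Six.IsExp G D e →
    ∀ (o : Fin n → ℝ) (R η s ε : ℝ) (u : (Fin n → ℝ) → ℝ),
      0 < η → η < 1 / 2 → 0 < s → 0 ≤ ε → Comp {y | D o y ≤ R} u →
      ENNReal.ofReal (Gen.mass n * (2 * b * s * ((1 - 2 * η) ^ 2 * (vol G u - gap G u / η))
          - (2 * (b / n - 1) + ε) * per G u)) ≤
        ENNReal.ofReal (Gen.radial n * s ^ (n - 1)) *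
          ∫⁻ x, (∫⁻ y, ENNReal.ofReal (usedPair G D a b ε u s x y) ∂Sharp.pm G u) ∂Sharp.pm G u

/-- At equality the slack of the competitors tends to zero. -/
def DeficitPin (n : ℕ) [NeZero n] : Prop :=
  3 ≤ n → ∀ (a : ℝ → ℝ) (b : ℝ) (K : ℝ × ℝ × ℝ → ℝ), StrictCert n a b K →
    ∀ (G : (Fin n → ℝ) → Matrix (Fin n) (Fin n) ℝ) (D : (Fin n → ℝ) → (Fin n → ℝ) → ℝ), IsCH G D →
    ∀ (Ω : Set (Fin n → ℝ)) (A : ℝ), MeasurableSet Ω → Bornology.IsBounded Ω →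
      PerimeterLE G Ω A → 0 < volG G Ω →
      A ≤ (n : ℝ) * Bend.unitBall n ^ (1 / n : ℝ) * volG G Ω ^ (((n : ℝ) - 1) / n) →
    ∃ (o : Fin n → ℝ) (R : ℝ) (u : ℕ → (Fin n → ℝ) → ℝ) (σ : ℕ → ℝ) (c : ℝ),
      Approx G D Ω o R u ∧ (∀ k, 0 < σ k) ∧
      Tendsto σ atTop (𝓝 (radius n (volG G Ω))⁻¹) ∧ 0 < c ∧ (∀ k, c ≤ per G (u k)) ∧
      ∀ r₀ : ℝ, 0 < r₀ → Tendsto (fun k => ∫⁻ x, (∫⁻ y,
        slackPair G D a b K (u k) (σ k) r₀ x y ∂Sharp.pm G (u k)) ∂Sharp.pm G (u k)) atTop (𝓝 0)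

/-- Vanishing slack puts the perimeter on one sphere. -/
def SpherePin (n : ℕ) [NeZero n] : Prop :=
  3 ≤ n → ∀ (a : ℝ → ℝ) (b : ℝ) (K : ℝ × ℝ × ℝ → ℝ), StrictCert n a b K →
    ∀ (G : (Fin n → ℝ) → Matrix (Fin n) (Fin n) ℝ) (D : (Fin n → ℝ) → (Fin n → ℝ) → ℝ), IsCH G D →
    ∀ (o : Fin n → ℝ) (R V c : ℝ) (u : ℕ → (Fin n → ℝ) → ℝ) (σ : ℕ → ℝ),
      (∀ k, Comp {y | D o y ≤ R} (u k)) → (∀ k, 0 < σ k) → 0 < radius n V →
      Tendsto σ atTop (𝓝 (radius n V)⁻¹) → 0 < c → (∀ k, c ≤ per G (u k)) →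
      (∀ r₀ : ℝ, 0 < r₀ → Tendsto (fun k => ∫⁻ x, (∫⁻ y,
        slackPair G D a b K (u k) (σ k) r₀ x y ∂Sharp.pm G (u k)) ∂Sharp.pm G (u k)) atTop (𝓝 0)) →
    ∃ (y ξ : Fin n → ℝ) (φ : ℕ → ℕ), StrictMono φ ∧ conorm G y ξ = 1 ∧
      OnSphere G D V y ξ (u ∘ φ)

/-- The conclusion at equality: a ball in an isometric chart. -/
def Isometric (G : (Fin n → ℝ) → Matrix (Fin n) (Fin n) ℝ) (Ω : Set (Fin n → ℝ)) : Prop :=
  ∃ (W : Set (Fin n → ℝ)) (Φ : (Fin n → ℝ) → (Fin n → ℝ)), IsOpen W ∧ ContDiff ℝ 1 Φ ∧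
    Function.Bijective Φ ∧
    Φ '' W = {z | z ⬝ᵥ z < (volG G Ω / Bend.unitBall n) ^ (2 / n : ℝ)} ∧
    (∀ x ∈ W, ∀ v, fderiv ℝ Φ x v ⬝ᵥ fderiv ℝ Φ x v = v ⬝ᵥ (G x *ᵥ v)) ∧
    Ω =ᵐ[volume] W ∧ (IsOpen Ω → interior (closure Ω) = Ω → Ω = W)

/-- Perimeter on a sphere makes the set the ball it bounds. -/
def ShapePin (n : ℕ) : Prop :=
  2 ≤ n → ∀ (G : (Fin n → ℝ) → Matrix (Fin n) (Fin n) ℝ)
    (D : (Fin n → ℝ) → (Fin n → ℝ) → ℝ), IsCH G D →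
    ∀ (Ω : Set (Fin n → ℝ)) (o : Fin n → ℝ) (R : ℝ) (y ξ : Fin n → ℝ)
      (u : ℕ → (Fin n → ℝ) → ℝ), MeasurableSet Ω → 0 < volG G Ω → Approx G D Ω o R u →
      conorm G y ξ = 1 → OnSphere G D (volG G Ω) y ξ u → Isometric G Ω

/-- Equality only for balls. -/
def RigidDim (n : ℕ) : Prop :=
  ∀ (G : (Fin n → ℝ) → Matrix (Fin n) (Fin n) ℝ) (D : (Fin n → ℝ) → (Fin n → ℝ) → ℝ), IsCH G D →
    ∀ (Ω : Set (Fin n → ℝ)) (A : ℝ), MeasurableSet Ω → Bornology.IsBounded Ω →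
      PerimeterLE G Ω A → 0 < volG G Ω →
      A ≤ (n : ℝ) * Bend.unitBall n ^ (1 / n : ℝ) * volG G Ω ^ (((n : ℝ) - 1) / n) →
      Isometric G Ω

/-- The three parts give rigidity. -/
theorem rigid_of_parts (n : ℕ) [NeZero n] (hn : 3 ≤ n) (hdef : DeficitPin n)
    (hsph : SpherePin n) (hshape : ShapePin n) {a : ℝ → ℝ} {b : ℝ} {K : ℝ × ℝ × ℝ → ℝ}
    (hK : StrictCert n a b K) : RigidDim n := by
  intro G D h Ω A hΩ hb hA hV hAV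
  obtain ⟨o, R, u, σ, c, ⟨hsub, hu, hlim⟩, hσ, hσlim, hc, hper, hslack⟩ :=
    hdef hn a b K hK G D h Ω A hΩ hb hA hV hAV
  have hr : 0 < radius n (volG G Ω) := by
    refine Real.rpow_pos_of_pos (div_pos hV ?_) _
    exact ENNReal.toReal_pos (Metric.measure_ball_pos volume _ one_pos).ne'
      measure_ball_lt_top.ne
  obtain ⟨y, ξ, φ, hφ, hξ, hon⟩ := hsph hn a b K hK G D h o R (volG G Ω) c u σ hu hσ hr hσlim hc
    hper hslack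
  exact hshape (by omega) G D h Ω o R y ξ (u ∘ φ) hΩ hV
    ⟨hsub, fun k => hu (φ k), hlim.comp hφ.tendsto_atTop⟩ hξ hon

end Vale.Agent.P219.CH.Rigid
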