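import Vale.Agent.P219.Rigid.Used
import Vale.Agent.P219.Rigid.Centre
import Vale.Agent.P219.Gen.Main

/-!
# P219: at equality the slack of a strict certificate tends to zero
-/

noncomputable section

open MeasureTheory Set Filter Topology Matrix
open scoped ENNReal

namespace Vale.Agent.P219.CH.Rigid

variable {n : ℕ} {G : (Fin n → ℝ) → Matrix (Fin n) (Fin n) ℝ}
  {D : (Fin n → ℝ) → (Fin n → ℝ) → ℝ} {u : (Fin n → ℝ) → ℝ} {a : ℝ → ℝ} {b : ℝ}
  {K : ℝ × ℝ × ℝ → ℝ} {w : ℝ × ℝ → ℝ} {o : Fin n → ℝ} {R s ε T : ℝ}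

/-- The double integral against the perimeter as one against the volume. -/
lemma lintegral_pair_pm (h : IsCH G D) (hu : ContDiff ℝ 1 u)
    {f : (Fin n → ℝ) × (Fin n → ℝ) → ℝ} (hf : Measurable f) :
    ∫⁻ x, (∫⁻ y, ENNReal.ofReal
        (f (x, y) * (conorm G x (cd u x) * conorm G y (cd u y))) ∂Six.volM G) ∂Six.volM G =
      ∫⁻ x, (∫⁻ y, ENNReal.ofReal (f (x, y)) ∂Sharp.pm G u) ∂Sharp.pm G u := by
  have : SFinite (Sharp.pm G u) := by unfold Sharp.pm; infer_instance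
  have hl : ∀ x, Measurable fun y => ENNReal.ofReal (f (x, y)) :=
    fun x => (hf.comp measurable_prodMk_left).ennreal_ofReal
  rw [lintegral_pm_eq h hu (f := fun x => ∫⁻ y, ENNReal.ofReal (f (x, y)) ∂Sharp.pm G u)
    (hf.ennreal_ofReal.lintegral_prod_right' (ν := Sharp.pm G u))]
  refine lintegral_congr fun x => ?_
  rw [lintegral_pm_eq h hu (hl x), ← lintegral_mul_const' _ _ ENNReal.ofReal_ne_top]
  refine lintegral_congr fun y => ?_
  rw [ENNReal.ofReal_mul' (mul_nonneg (conorm_nonneg _ _) (conorm_nonneg _ _)),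
    ENNReal.ofReal_mul (conorm_nonneg _ _)]
  ring

lemma usedKer_mono {r c d : ℝ} (hε : 0 ≤ ε) (hr : 0 ≤ r) :
    usedKer n a b ε r c d ≤ usedKer n a b 0 r c d := by
  refine div_le_div_of_nonneg_right (max_le_max ?_ le_rfl) (pow_nonneg hr _)
  have h0 : 0 ≤ max c 0 * max d 0 := mul_nonneg (le_max_right _ _) (le_max_right _ _)
  linarith [mul_nonneg hε h0]

/-- The used part is at most the regularised kernel. -/
lemma usedKer_le_sym [NeZero n] (hn : 2 ≤ n) (hK : StrictCert n a b K) {r c d : ℝ}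
    (hr : r ∈ Icc 0 T) (hc : c ∈ Icc (-1 : ℝ) 1) (hd : d ∈ Icc (-1 : ℝ) 1) (hε : 0 ≤ ε)
    (hP : -ε ≤ Gen.sym n w r c d)
    (hF : r ∈ Ioc 0 T → c ∈ Ioc (0 : ℝ) 1 → d ∈ Ioc (0 : ℝ) 1 →
      a c * d + a d * c + 2 * b * c * d * r - ε * (c * d) ≤ r ^ (n - 1) * Gen.sym n w r c d) :
    usedKer n a b ε r c d ≤ Gen.sym n w r c d + ε := by
  rcases eq_or_lt_of_le hr.1 with h0 | h0
  · rw [← h0] at hP ⊢
    rw [usedKer, zero_pow (by omega : n - 1 ≠ 0), div_zero]
    linarith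
  have hp : 0 < r ^ (n - 1) := pow_pos h0 _
  rw [usedKer, div_le_iff₀ hp]
  refine max_le ?_ (mul_nonneg (by linarith) hp.le)
  have ha : ∀ z : ℝ, z ∈ Icc (-1 : ℝ) 1 → a (max z 0) ≤ 0 := fun z hz =>
    hK.cert.a_nonpos _ ⟨le_max_right _ _, max_le hz.2 zero_le_one⟩
  rcases le_or_gt c 0 with hc0 | hc0
  · rw [max_eq_right hc0]
    have := mul_nonpos_of_nonpos_of_nonneg (hK.cert.a_nonpos 0 ⟨le_rfl, zero_le_one⟩)
      (le_max_right d 0)
    have := mul_nonneg (by linarith : 0 ≤ Gen.sym n w r c d + ε) hp.le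
    linarith
  rcases le_or_gt d 0 with hd0 | hd0
  · rw [max_eq_right hd0]
    have := mul_nonpos_of_nonpos_of_nonneg (hK.cert.a_nonpos 0 ⟨le_rfl, zero_le_one⟩)
      (le_max_right c 0)
    have := mul_nonneg (by linarith : 0 ≤ Gen.sym n w r c d + ε) hp.le
    linarith
  rw [max_eq_left hc0.le, max_eq_left hd0.le]
  have := hF ⟨h0, hr.2⟩ ⟨hc0, hc.2⟩ ⟨hd0, hd.2⟩
  have := mul_nonneg hε hp.le
  linarith

lemma measurable_slackPair [NeZero n] (h : IsCH G D) (hu : ContDiff ℝ 1 u)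
    (hK : StrictCert n a b K) {r₀ : ℝ} (hr₀ : 0 < r₀) :
    Measurable fun z : (Fin n → ℝ) × (Fin n → ℝ) => slackPair G D a b K u s r₀ z.1 z.2 := by
  have hd := Gen.measurable_scos h hu
  have hc : Measurable fun z : (Fin n → ℝ) × (Fin n → ℝ) => Dir.scos G D u z.2 z.1 := by
    have := hd.comp (measurable_swap (α := Fin n → ℝ) (β := Fin n → ℝ))
    simpa only [Function.comp_def, Prod.fst_swap, Prod.snd_swap] using this
  have hr : Measurable fun z : (Fin n → ℝ) × (Fin n → ℝ) => s * Real.sqrt (2 * D z.1 z.2) :=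
    ((h.continuous_D.measurable.const_mul 2).sqrt).const_mul s
  have hKc : Continuous fun q : ℝ × ℝ × ℝ => K (max q.1 r₀, q.2) :=
    hK.continuous_K.comp_continuous ((continuous_fst.max continuous_const).prodMk continuous_snd)
      fun q => hr₀.trans_le (le_max_right _ _)
  have hm : Measurable fun z : (Fin n → ℝ) × (Fin n → ℝ) =>
      if r₀ ≤ s * Real.sqrt (2 * D z.1 z.2) then
        ENNReal.ofReal (K (max (s * Real.sqrt (2 * D z.1 z.2)) r₀, Dir.scos G D u z.2 z.1,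
          Dir.scos G D u z.1 z.2) - usedPair G D a b 0 u s z.1 z.2)
      else 0 := by
    refine Measurable.ite (measurableSet_le measurable_const hr) ?_ measurable_const
    have h1 := hKc.measurable.comp (hr.prodMk (hc.prodMk hd))
    exact (h1.sub (measurable_usedPair h hu hK.continuous_a.measurable)).ennreal_ofReal
  convert hm using 1
  funext z
  simp only [slackPair]
  split_ifs with h1
  · rw [max_eq_left h1]
  · rfl

/-- The kernel carries the used part and the slack. -/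
lemma used_add_slack_le [NeZero n] (hn : 2 ≤ n) (h : IsCH G D) (hu : Comp {y | D o y ≤ R} u)
    (hK : StrictCert n a b K) (hs : 0 < s) (hε : 0 < ε)
    (hT : ∀ x y, D o x ≤ R → D o y ≤ R → s * Real.sqrt (2 * D x y) ≤ T)
    (hP : ∀ r c d, r ∈ Icc 0 T → c ∈ Icc (-1 : ℝ) 1 → d ∈ Icc (-1 : ℝ) 1 → -ε ≤ Gen.sym n w r c d)
    (hF : ∀ r c d, r ∈ Ioc 0 T → c ∈ Ioc (0 : ℝ) 1 → d ∈ Ioc (0 : ℝ) 1 →
      a c * d + a d * c + 2 * b * c * d * r - ε * (c * d) ≤ r ^ (n - 1) * Gen.sym n w r c d)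
    (hlow : ∀ r c d, r ∈ Icc ε T → c ∈ Icc (-1 : ℝ) 1 → d ∈ Icc (-1 : ℝ) 1 →
      K (r, c, d) - ε ≤ Gen.sym n w r c d) {r₀ : ℝ} (hr₀ : ε ≤ r₀) :
    (∫⁻ x, (∫⁻ y, ENNReal.ofReal (usedPair G D a b ε u s x y) ∂Sharp.pm G u) ∂Sharp.pm G u) +
        ∫⁻ x, (∫⁻ y, slackPair G D a b K u s r₀ x y ∂Sharp.pm G u) ∂Sharp.pm G u ≤
      ∫⁻ x, (∫⁻ y, ENNReal.ofReal (Gen.pairSym G D u w s x y + ε) ∂Sharp.pm G u) ∂Sharp.pm G u := by
  have : SFinite (Sharp.pm G u) := by unfold Sharp.pm; infer_instance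
  have hν := Sharp.ae_mem_pm h (h.proper o R) hu
  have hm := (measurable_usedPair (b := b) (ε := ε) (s := s) h hu.1
    hK.continuous_a.measurable).ennreal_ofReal
  rw [← lintegral_add_left (hm.lintegral_prod_right' (ν := Sharp.pm G u))]
  refine lintegral_mono_ae (hν.mono fun x hx => ?_)
  simp only
  rw [← lintegral_add_left (measurable_usedPair_left h hu.1 hK.continuous_a.measurable x)]
  refine lintegral_mono_ae (hν.mono fun y hy => ?_)
  simp only [slackPair, usedPair, Gen.pairSym]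
  obtain ⟨r, hr⟩ : ∃ r, r = s * Real.sqrt (2 * D x y) := ⟨_, rfl⟩
  rw [← hr]
  have hrT : r ∈ Icc 0 T := ⟨hr ▸ mul_nonneg hs.le (Real.sqrt_nonneg _), hr ▸ hT x y hx hy⟩
  have hc := Gen.scos_mem_Icc h u y x
  have hd := Gen.scos_mem_Icc h u x y
  have hle := usedKer_le_sym hn hK hrT hc hd hε.le (hP _ _ _ hrT hc hd)
    (fun h1 h2 h3 => hF _ _ _ h1 h2 h3)
  split_ifs with hcase
  · have hrpos : 0 < r := hε.trans_le (hr₀.trans hcase)
    rw [← ENNReal.ofReal_add (usedKer_nonneg hrT.1)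
      (sub_nonneg.2 (hK.used_le _ _ _ hrpos hc hd))]
    refine ENNReal.ofReal_le_ofReal ?_
    have h2 := usedKer_mono (n := n) (a := a) (b := b) (r := r) (c := Dir.scos G D u y x) (d := Dir.scos G D u x y) hε.le
      hrT.1
    have h3 := hlow _ _ _ ⟨hr₀.trans hcase, hrT.2⟩ hc hd
    linarith
  · rw [add_zero]
    exact ENNReal.ofReal_le_ofReal hle

/-- The right side is at most the left side at equality. -/
lemma equality_value {k : ℕ} {N ω Rd M b L V W A s : ℝ} (hN : 0 < N) (hω : 0 < ω) (hRd : 0 < Rd)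
    (hM : M = N * ω * Rd) (hE : 0 ≤ b / N - 1) (hA0 : 0 ≤ A) (hs : 0 ≤ s)
    (hL : 0 < L) (hLpow : L ^ (k + 1) = N ^ (k + 1) * ω) (hsV : s * V = L / N * W)
    (hsk : s ^ k * W = (L / N) ^ k) (hA : A ≤ L * W) :
    Rd * s ^ k * (2 * A ^ 2) ≤ M * (2 * b * s * V - 2 * (b / N - 1) * A) := by
  have hW : 0 ≤ L * W := hA0.trans hA
  have hM0 : 0 < M := by rw [hM]; positivity
  have h1 : Rd * s ^ k * (2 * A ^ 2) ≤ 2 * M * (L * W) := by
    calc Rd * s ^ k * (2 * A ^ 2) ≤ Rd * s ^ k * (2 * (L * W) ^ 2) := by gcongr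
      _ = 2 * Rd * (s ^ k * W) * L * (L * W) := by ring
      _ = _ := by
        rw [hsk, hM, div_pow, show 2 * Rd * (L ^ k / N ^ k) * L * (L * W) =
          2 * Rd * (L ^ (k + 1) / N ^ k) * (L * W) by rw [pow_succ]; ring, hLpow, pow_succ]
        field_simp
  have h2 := mul_le_mul_of_nonneg_left hA (by positivity : 0 ≤ 2 * M * (b / N - 1))
  have h3 : M * (2 * b * s * V) = 2 * M * (b / N) * (L * W) := by
    rw [mul_assoc (2 * b) s V, hsV]
    ring
  linarith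

/-- `DeficitPin`. -/
theorem deficit (n : ℕ) [NeZero n] : DeficitPin n := by
  intro hn a b Kf hKf G D h Ω A hΩ hΩb hP hV hAV
  obtain ⟨S, v, hS, hv, hlim, hA⟩ := hP
  have hn2 : 2 ≤ n := by omega
  obtain ⟨e, he⟩ := Six.exists_isExp h
  obtain ⟨hMass, hMrad, -⟩ := Gen.momentPin n hn2
  obtain ⟨k₁, hk₁⟩ : ∃ k₁, n = k₁ + 1 := ⟨n - 1, by omega⟩
  obtain ⟨N, hN⟩ : ∃ N : ℝ, N = (n : ℝ) := ⟨_, rfl⟩
  have hN0 : 0 < N := by rw [hN]; positivity
  have hN1 : 1 ≤ N := by rw [hN]; exact_mod_cast (by omega : 1 ≤ n)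
  obtain ⟨ω, hω⟩ : ∃ ω : ℝ, ω = Bend.unitBall n := ⟨_, rfl⟩
  have hω0 : 0 < ω := hω ▸ ENNReal.toReal_pos (Metric.measure_ball_pos volume _ one_pos).ne'
    measure_ball_lt_top.ne
  obtain ⟨Rd, hRd⟩ : ∃ Rd : ℝ, Rd = Gen.radial n := ⟨_, rfl⟩
  rw [← hω, ← hN, ← hRd] at hMrad
  have hRd0 : 0 < Rd := pos_of_mul_pos_right (hMrad ▸ hMass) (by positivity)
  obtain ⟨V, hVd⟩ : ∃ V, V = volG G Ω := ⟨_, rfl⟩
  rw [← hVd, ← hω, ← hN] at hAV
  rw [← hVd] at hV ⊢
  obtain ⟨L, hLd⟩ : ∃ L, L = N * ω ^ (1 / N : ℝ) := ⟨_, rfl⟩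
  rw [← hLd] at hAV
  have hL : 0 < L := by rw [hLd]; positivity
  have hLpow : L ^ (k₁ + 1) = N ^ (k₁ + 1) * ω := by
    rw [hLd, mul_pow, ← hk₁, one_div, hN, Real.rpow_inv_natCast_pow hω0.le (by omega)]
  have hE : 0 ≤ b / N - 1 := by
    rw [hN, ← hKf.cert.value]
    exact Gen.cmean_nonneg hMass fun c hc => by linarith [hKf.cert.a_nonpos c hc]
  obtain ⟨α, hα⟩ : ∃ α : ℝ, α = (N - 1) / N := ⟨_, rfl⟩
  rw [← hα] at hAV
  have hα1 : α - 1 = -(1 / N) := by rw [hα]; field_simp; ring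
  have hαn : α - 1 ≤ 0 := by rw [hα1, neg_nonpos]; positivity
  set o : Fin n → ℝ := 0
  obtain ⟨R, hR, hSK, hΩK⟩ : ∃ R : ℝ, 0 < R ∧ S ⊆ {y | D o y ≤ R} ∧ Ω ⊆ {y | D o y ≤ R} := by
    obtain ⟨B, hB⟩ := (hS.union hΩb.isCompact_closure).bddAbove_image
      ((h.contDiff_D o).continuous.continuousOn)
    exact ⟨max B 1, by positivity,
      fun y hy => (hB ⟨y, Or.inl hy, rfl⟩).trans (le_max_left _ _),
      fun y hy => (hB ⟨y, Or.inr (subset_closure hy), rfl⟩).trans (le_max_left _ _)⟩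
  set K : Set (Fin n → ℝ) := {y | D o y ≤ R}
  have hK : IsCompact K := h.proper o R
  obtain ⟨B, hB⟩ := hK.bddAbove_image h.continuous_dens.continuousOn
  have hB' : ∀ y ∈ K, dens G y ≤ B := fun y hy => hB ⟨y, hy, rfl⟩
  have hA0 : 0 ≤ A := le_trans (integral_nonneg fun y =>
    mul_nonneg (conorm_nonneg _ _) (h.dens_pos y).le) (hA 0)
  have hex : ∀ j : ℕ, ∃ w, Comp K w ∧ per G w ≤ A + (1 / 2) ^ j ∧
      ∫ y, |w y - Ω.indicator 1 y| ≤ (1 / 2) ^ j := fun j =>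
    exists_close h hK hΩ hΩK hSK hv hlim hA (by positivity)
  choose w hw hwp hwi using hex
  have hgeo : Tendsto (fun j : ℕ => ((1 : ℝ) / 2) ^ j) atTop (𝓝 0) :=
    tendsto_pow_atTop_nhds_zero_of_lt_one (by norm_num) (by norm_num)
  have hBgeo : Tendsto (fun j : ℕ => B * ((1 : ℝ) / 2) ^ j) atTop (𝓝 0) := by
    simpa using hgeo.const_mul B
  have hoK : o ∈ K := by show D o o ≤ R; rw [h.dist_self]; exact hR.le
  have hB0 : 0 ≤ B := (h.dens_pos o).le.trans (hB' o hoK)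
  have hwV : Tendsto (fun j => vol G (w j)) atTop (𝓝 V) := by
    rw [tendsto_iff_norm_sub_tendsto_zero]
    refine squeeze_zero (fun j => norm_nonneg _) (fun j => ?_) hBgeo
    rw [Real.norm_eq_abs, hVd]
    exact (vol_gap_close h hK hΩ hΩK hB' (hw j)).1.trans (mul_le_mul_of_nonneg_left (hwi j) hB0)
  have hwg : Tendsto (fun j => gap G (w j)) atTop (𝓝 0) :=
    squeeze_zero (fun j => h.gap_nonneg (hw j).2.2) (fun j =>
      (vol_gap_close h hK hΩ hΩK hB' (hw j)).2.trans (mul_le_mul_of_nonneg_left (hwi j) hB0)) hBgeo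
  obtain ⟨M, hM⟩ : ∃ M, M = 2 * L * (V / 4) ^ (α - 1) := ⟨_, rfl⟩
  have hM0 : 0 ≤ M := by rw [hM]; positivity
  have hlevel : ∀ u, Comp K u → 0 < vol G u →
      L * vol G u ^ α ≤ per G u + 2 * L * vol G u ^ (α - 1) * gap G u := fun u hu hu0 => by
    have := levelPin n hn2 G D h L hL.le
      (fun Ω' A' h1 h2 h3 => by
        have := Gen.sharpDim_of_cert n hn hKf.cert G D h Ω' A' h1 h2 h3
        rw [← hω, ← hN, ← hLd] at this
        rwa [← hN]) K u hK hu hu0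
    rwa [← hN, ← hα] at this
  have hJ : ∀ u, Comp K u → V / 4 ≤ vol G u →
      0 ≤ per G u - L * vol G u ^ α + M * gap G u := fun u hu hv' => by
    have hu0 : 0 < vol G u := lt_of_lt_of_le (by linarith) hv'
    have h2 := mul_le_mul_of_nonneg_left
      (Real.rpow_le_rpow_of_nonpos (by linarith : 0 < V / 4) hv' hαn)
      (by positivity : (0 : ℝ) ≤ 2 * L)
    rw [← hM] at h2
    linarith [hlevel u hu hu0, mul_le_mul_of_nonneg_right h2 (h.gap_nonneg (G := G) hu.2.2)]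
  obtain ⟨sOf, hsOf⟩ : ∃ f : ℝ → ℝ → ℝ, f = fun θ W => L * θ / N * W ^ (-(1 / N)) := ⟨_, rfl⟩
  obtain ⟨VK, hVK⟩ : ∃ VK, VK = max (volG G K) (V / 2) := ⟨_, rfl⟩
  have hVK0 : 0 < VK := hVK ▸ lt_max_of_lt_right (by linarith)
  obtain ⟨S₁, hS₁⟩ : ∃ S₁, S₁ = sOf 2 (V / 2) := ⟨_, rfl⟩
  have hS₁0 : 0 < S₁ := by rw [hS₁, hsOf]; positivity
  obtain ⟨Bd, hBd⟩ := (hK.prod hK).bddAbove_image h.continuous_D.continuousOn
  obtain ⟨T, hT⟩ : ∃ T : ℝ, T = S₁ * Real.sqrt (2 * max Bd 0) + 1 := ⟨_, rfl⟩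
  have hT0 : 0 < T := by rw [hT]; positivity
  obtain ⟨ηs, hηs⟩ : ∃ ηs : ℕ → ℝ, ηs = fun k : ℕ => 1 / (4 * N * ((k : ℝ) + 1)) := ⟨_, rfl⟩
  -- parameters of the k-th step
  have hstep : ∀ k : ℕ, ∃ j : ℕ, k ≤ j ∧ V / 2 ≤ vol G (w j) ∧ gap G (w j) ≤ ηs k ^ 2 ∧
      ∀ r₀, ηs k ≤ r₀ →
      ENNReal.ofReal (Gen.mass n * (2 * b * sOf (1 + ηs k) (vol G (w j)) *
          ((1 - 2 * ηs k) ^ 2 * (vol G (w j) - gap G (w j) / ηs k)) -
            (2 * (b / N - 1) + ηs k) * per G (w j))) +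
        ENNReal.ofReal (Rd * sOf (1 + ηs k) (vol G (w j)) ^ k₁) *
          (∫⁻ x, (∫⁻ y, slackPair G D a b Kf (w j) (sOf (1 + ηs k) (vol G (w j))) r₀ x y
            ∂Sharp.pm G (w j)) ∂Sharp.pm G (w j)) ≤
      ENNReal.ofReal (Rd * sOf (1 + ηs k) (vol G (w j)) ^ k₁ *
        ((2 + ηs k) * per G (w j) ^ 2 + 2 * (ηs k * per G (w j)))) := by
    intro k
    obtain ⟨η, hη⟩ : ∃ η, η = ηs k := ⟨_, rfl⟩
    rw [← hη]
    have hη0 : 0 < η := by rw [hη, hηs]; positivity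
    have hη4 : η ≤ 1 / (4 * N) := by
      rw [hη, hηs]
      exact one_div_le_one_div_of_le (by positivity) (le_mul_of_one_le_right (by positivity)
        (by linarith [(k.cast_nonneg : (0 : ℝ) ≤ k)]))
    have hη2 : η < 1 / 2 := lt_of_le_of_lt hη4 (by
      rw [div_lt_div_iff₀ (by positivity) (by norm_num)]; linarith)
    have hθn : (1 + η) ^ n ≤ 2 := by
      calc (1 + η) ^ n ≤ Real.exp η ^ n :=
            pow_le_pow_left₀ (by linarith) (by linarith [Real.add_one_le_exp η]) n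
        _ = Real.exp (n * η) := by rw [← Real.exp_nat_mul]
        _ ≤ Real.exp (1 / 4) := Real.exp_le_exp.2 (by
            rw [← hN]
            calc N * η ≤ N * (1 / (4 * N)) := mul_le_mul_of_nonneg_left hη4 hN0.le
              _ = _ := by field_simp)
        _ ≤ 1 / (1 - 1 / 4) := Real.exp_bound_div_one_sub_of_interval (by norm_num) (by norm_num)
        _ ≤ 2 := by norm_num
    obtain ⟨wt, hwt, hwpos, hwP, hwF, hwlow⟩ := hKf.weight η T hη0 hT0
    have hw' : ContDiff ℝ 1 fun z : ℝ × ℝ × ℝ => Gen.scaled wt z.1 z.2 :=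
      hwt.comp (by fun_prop : ContDiff ℝ 1 fun z : ℝ × ℝ × ℝ => (z.1 ^ 2 * z.2.1, z.1 * z.2.2))
    obtain ⟨δ, ⟨hrow, hδη⟩, hδ0⟩ :=
      (((dirRowW hn2 h o (R := R) (P₀ := A + 1) (v₀ := V / 2) (l := L) (M := M) (θ := 1 + η)
        (κ := η) (by linarith) (by linarith) hL hM0 (by linarith) hθn hη0
        (P := Icc (sOf 1 VK) S₁) (w := fun s => Gen.scaled wt s) isCompact_Icc hw'
        fun p _ a s ha hs => hwpos _ _ (by positivity) (by
          calc (p * s) ^ 2 = p ^ 2 * s ^ 2 := mul_pow p s 2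
            _ ≤ p ^ 2 * (2 * a) := by gcongr
            _ = _ := by ring)).and
        ((eventually_le_nhds (pow_pos hη0 2)).filter_mono nhdsWithin_le_nhds)).and
      (self_mem_nhdsWithin : ∀ᶠ d in 𝓝[>] (0 : ℝ), d ∈ Ioi (0 : ℝ))).exists
    have hJw : Tendsto (fun j => A + (1 / 2) ^ j - L * vol G (w j) ^ α + M * gap G (w j)) atTop
        (𝓝 (A + 0 - L * V ^ α + M * 0)) :=
      ((tendsto_const_nhds.add hgeo).sub
        ((hwV.rpow_const (Or.inl hV.ne')).const_mul L)).add (hwg.const_mul M)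
    have hlt : A + 0 - L * V ^ α + M * 0 < δ := by
      have : 0 < δ := hδ0
      linarith
    obtain ⟨j, hj1, hj2, hj3, hj4⟩ := ((hwV.eventually (eventually_ge_nhds (by linarith : V / 2 < V))).and
      (((tendsto_order.1 hJw).2 δ hlt).and ((hwg.eventually (eventually_le_nhds hδ0)).and
        (eventually_ge_atTop k)))).exists
    have hv0 : 0 < vol G (w j) := by linarith
    obtain ⟨σ, hσ⟩ : ∃ σ, σ = sOf (1 + η) (vol G (w j)) := ⟨_, rfl⟩
    have hσ0 : 0 < σ := by rw [hσ, hsOf]; positivity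
    have hneg : -(1 / N) ≤ 0 := by rw [neg_nonpos]; positivity
    have hσm : σ ∈ Icc (sOf 1 VK) S₁ := by
      rw [hσ, hS₁, hsOf]
      constructor
      · exact mul_le_mul (by gcongr; linarith) (Real.rpow_le_rpow_of_nonpos hv0
          (hVK ▸ (h.vol_le hK (hw j)).trans (le_max_left _ _)) hneg) (Real.rpow_nonneg hVK0.le _)
          (by positivity)
      · exact mul_le_mul (by gcongr; linarith) (Real.rpow_le_rpow_of_nonpos (by linarith) hj1 hneg)
          (Real.rpow_nonneg hv0.le _) (by positivity)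
    have hh : L * (((n : ℝ) - 1) / (n : ℝ)) * (1 + η) *
        vol G (w j) ^ (((n : ℝ) - 1) / (n : ℝ) - 1) = ((n : ℝ) - 1) * σ := by
      rw [← hN, ← hα, hα1, hσ, hsOf, hα]
      ring
    have hnm : NearMinW G D o R (A + 1) (V / 2) L M δ (w j) := by
      refine ⟨hw j, (hwp j).trans (add_le_add le_rfl
        (pow_le_one₀ (by norm_num) (by norm_num))), hj1, hj3, fun u' hu' hv' => ?_⟩
      rw [← hN, ← hα]
      have := hJ u' hu' (by linarith)
      have := hwp j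
      linarith
    have hr : ∀ x, D o x ≤ R → ∫ y, Gen.rowK G D (w j) wt σ x y ∂Sharp.pm G (w j) ≤ η :=
      fun x hx => by
        have := (hrow (w j) hnm x (Gen.dirCov G (w j) x) hx (Gen.conorm_dirCov_le h (w j) x) σ
          hσm).2
        rw [hh] at this
        refine le_trans (le_of_eq (integral_congr_ae (Eventually.of_forall fun y => ?_))) this
        exact (Gen.rowK_eq h hwt hσ0.le (w j) x y).symm
    have hI := Gen.pair_le_rows h (ε := η) hwt (hw j) hσ0.le hr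
    have hTb : ∀ x y, D o x ≤ R → D o y ≤ R → σ * Real.sqrt (2 * D x y) ≤ T := fun x y hx hy => by
      rw [hT]
      have := (hBd ⟨(x, y), ⟨hx, hy⟩, rfl⟩).trans (le_max_left Bd 0)
      calc σ * Real.sqrt (2 * D x y) ≤ S₁ * Real.sqrt (2 * max Bd 0) :=
            mul_le_mul hσm.2 (Real.sqrt_le_sqrt (by linarith)) (Real.sqrt_nonneg _) hS₁0.le
        _ ≤ _ := le_add_of_nonneg_right zero_le_one
    obtain ⟨-, hIE⟩ := Gen.ofReal_pair_integral (ε := η) h (hw j) hwt hσ0.le hTb hwP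
    rw [show (∫⁻ x, (∫⁻ y, ENNReal.ofReal (Gen.pairB G D (w j) wt σ η x y) ∂Six.volM G) ∂Six.volM G) =
        ∫⁻ x, (∫⁻ y, ENNReal.ofReal (Gen.pairSym G D (w j) wt σ x y + η) ∂Sharp.pm G (w j))
          ∂Sharp.pm G (w j) from
      lintegral_pair_pm h (hw j).1 (f := fun z => Gen.pairSym G D (w j) wt σ z.1 z.2 + η)
        ((Gen.measurable_pairSym h (hw j).1 hwt).add_const η)] at hIE
    refine ⟨j, hj4, hj1, hj3.trans hδη, fun r₀ hr₀ => ?_⟩
    rw [← hσ]
    have hp := usedPin n hn2 a b hKf.cert hKf.continuous_a G D e h he o R η σ η (w j) hη0 hη2 hσ0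
      hη0.le (hw j)
    rw [← hN, ← hRd, show n - 1 = k₁ by omega] at hp
    refine (add_le_add hp le_rfl).trans ?_
    rw [← mul_add]
    refine (mul_le_mul_right (used_add_slack_le hn2 h (hw j) hKf hσ0 hη0 hTb hwP hwF hwlow hr₀)
      _).trans ?_
    rw [← hIE, ← ENNReal.ofReal_mul (by positivity)]
    exact ENNReal.ofReal_le_ofReal (mul_le_mul_of_nonneg_left hI (by positivity))
  choose js hjs hVs hgs hineq using hstep
  have hη0 : ∀ k, 0 < ηs k := fun k => by rw [hηs]; positivity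
  have hηlim : Tendsto ηs atTop (𝓝 0) := by
    rw [hηs]
    exact ((tendsto_atTop_add_const_right _ 1 tendsto_natCast_atTop_atTop).const_mul_atTop
      (by positivity : (0 : ℝ) < 4 * N)).inv_tendsto_atTop.congr fun k => by simp
  have hjlim : Tendsto js atTop atTop := tendsto_atTop_mono hjs tendsto_id
  have huV : Tendsto (fun k => vol G (w (js k))) atTop (𝓝 V) := hwV.comp hjlim
  have hug : Tendsto (fun k => gap G (w (js k)) / ηs k) atTop (𝓝 0) :=
    squeeze_zero (fun k => div_nonneg (h.gap_nonneg (hw _).2.2) (hη0 k).le)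
      (fun k => (div_le_iff₀ (hη0 k)).2 (by rw [← sq]; exact hgs k)) hηlim
  obtain ⟨σ, hσ⟩ : ∃ σ : ℕ → ℝ, σ = fun k => sOf (1 + ηs k) (vol G (w (js k))) := ⟨_, rfl⟩
  obtain ⟨s, hs⟩ : ∃ s, s = sOf 1 V := ⟨_, rfl⟩
  have hs0 : 0 < s := by rw [hs, hsOf]; positivity
  have hσ0 : ∀ k, 0 < σ k := fun k => by
    have : 0 < vol G (w (js k)) := lt_of_lt_of_le (by linarith) (hVs k)
    have := hη0 k
    rw [hσ, hsOf]; positivity
  have hσlim : Tendsto σ atTop (𝓝 s) := by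
    rw [hσ, hs, hsOf]
    have h1 : Tendsto (fun k => L * (1 + ηs k) / N) atTop (𝓝 (L * (1 + 0) / N)) :=
      ((tendsto_const_nhds.add hηlim).const_mul L).div_const N
    simpa using h1.mul (huV.rpow_const (p := -(1 / N)) (Or.inl hV.ne'))
  obtain ⟨RH, hRH⟩ : ∃ RH : ℕ → ℝ, RH = fun k => Rd * σ k ^ k₁ *
      ((2 + ηs k) * (A + (1 / 2) ^ js k) ^ 2 + 2 * (ηs k * (A + (1 / 2) ^ js k))) := ⟨_, rfl⟩
  obtain ⟨LH, hLH⟩ : ∃ LH : ℕ → ℝ, LH = fun k => Gen.mass n * (2 * b * σ k *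
      ((1 - 2 * ηs k) ^ 2 * (vol G (w (js k)) - gap G (w (js k)) / ηs k)) -
        (2 * (b / N - 1) + ηs k) * (A + (1 / 2) ^ js k)) := ⟨_, rfl⟩
  have hsl : ∀ r₀ k, ηs k ≤ r₀ →
      (∫⁻ x, (∫⁻ y, slackPair G D a b Kf (w (js k)) (σ k) r₀ x y ∂Sharp.pm G (w (js k)))
        ∂Sharp.pm G (w (js k))) ≤ ENNReal.ofReal ((RH k - max (LH k) 0) / (Rd * σ k ^ k₁)) := by
    intro r₀ k hr₀
    have hc : 0 < Rd * σ k ^ k₁ := by have := hσ0 k; positivity
    have h1 := hineq k r₀ hr₀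
    rw [show sOf (1 + ηs k) (vol G (w (js k))) = σ k by rw [hσ]] at h1
    rw [ENNReal.ofReal_div_of_pos hc, ENNReal.le_div_iff_mul_le
      (Or.inl (ENNReal.ofReal_pos.2 hc).ne') (Or.inl ENNReal.ofReal_ne_top), mul_comm,
      ENNReal.ofReal_sub _ (le_max_right _ _)]
    refine ENNReal.le_sub_of_add_le_left ENNReal.ofReal_ne_top (le_trans ?_ (h1.trans ?_))
    · refine add_le_add ?_ le_rfl
      rw [show ENNReal.ofReal (max (LH k) 0) = ENNReal.ofReal (LH k) by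
        rcases le_total 0 (LH k) with h0 | h0
        · rw [max_eq_left h0]
        · rw [max_eq_right h0, ENNReal.ofReal_zero, ENNReal.ofReal_of_nonpos h0]]
      refine ENNReal.ofReal_le_ofReal ?_
      rw [hLH]
      simp only
      refine mul_le_mul_of_nonneg_left ?_ hMass.le
      have := mul_le_mul_of_nonneg_left (hwp (js k))
        (by have := (hη0 k).le; linarith : 0 ≤ 2 * (b / N - 1) + ηs k)
      linarith
    · refine ENNReal.ofReal_le_ofReal ?_
      rw [hRH]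
      simp only
      have := h.per_nonneg (w (js k))
      have := hη0 k
      have := hσ0 k
      gcongr <;> exact hwp (js k)
  have hRlim : Tendsto RH atTop (𝓝 (Rd * s ^ k₁ * ((2 + 0) * (A + 0) ^ 2 + 2 * (0 * (A + 0))))) := by
    rw [hRH]
    exact ((hσlim.pow k₁).const_mul Rd).mul (((tendsto_const_nhds.add hηlim).mul
      ((tendsto_const_nhds.add (hgeo.comp hjlim)).pow 2)).add
      ((hηlim.mul (tendsto_const_nhds.add (hgeo.comp hjlim))).const_mul 2))
  have hLlim : Tendsto LH atTop (𝓝 (Gen.mass n * (2 * b * s * ((1 - 2 * 0) ^ 2 * (V - 0)) -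
      (2 * (b / N - 1) + 0) * (A + 0)))) := by
    rw [hLH]
    exact ((((hσlim.const_mul (2 * b))).mul (((tendsto_const_nhds.sub (hηlim.const_mul 2)).pow 2).mul
      (huV.sub hug))).sub ((tendsto_const_nhds.add hηlim).mul
      (tendsto_const_nhds.add (hgeo.comp hjlim)))).const_mul _
  have hsV : s * V = L / N * V ^ α := by
    rw [hs, hsOf]
    simp only
    rw [mul_one, mul_assoc, ← Real.rpow_add_one hV.ne', show -(1 / N) + 1 = α by linarith]
  have hsk : s ^ k₁ * V ^ α = (L / N) ^ k₁ := by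
    rw [hs, hsOf]
    simp only
    rw [mul_one, mul_pow, ← Real.rpow_natCast (V ^ (-(1 / N))) k₁, ← Real.rpow_mul hV.le,
      mul_assoc, ← Real.rpow_add hV]
    have : (k₁ : ℝ) = N - 1 := by rw [hN, hk₁]; push_cast; ring
    rw [this, hα, show -(1 / N) * (N - 1) + (N - 1) / N = 0 by ring, Real.rpow_zero, mul_one]
  have hval := equality_value hN0 hω0 hRd0 hMrad hE hA0 hs0.le hL hLpow hsV hsk hAV
  have hslack : ∀ r₀, 0 < r₀ → Tendsto (fun k => ∫⁻ x, (∫⁻ y,
      slackPair G D a b Kf (w (js k)) (σ k) r₀ x y ∂Sharp.pm G (w (js k)))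
        ∂Sharp.pm G (w (js k))) atTop (𝓝 0) := by
    intro r₀ hr₀
    have h1 := ENNReal.tendsto_ofReal (((hRlim.sub (hLlim.max (tendsto_const_nhds (x := (0 : ℝ))))).div
      ((hσlim.pow k₁).const_mul Rd) (by positivity)))
    rw [ENNReal.ofReal_of_nonpos] at h1
    · refine tendsto_of_tendsto_of_tendsto_of_le_of_le' tendsto_const_nhds h1
        (Eventually.of_forall fun _ => zero_le) ?_
      filter_upwards [hηlim.eventually (eventually_le_nhds hr₀)] with k hk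
      exact hsl r₀ k hk
    · refine div_nonpos_of_nonpos_of_nonneg ?_ (by positivity)
      simp only [add_zero, sub_zero, zero_mul, mul_zero, one_pow, one_mul]
      linarith [le_max_left (Gen.mass n * (2 * b * s * V - 2 * (b / N - 1) * A)) 0]
  have hpos : 0 < L * V ^ α := by positivity
  have hperlow : ∀ᶠ k in atTop, L * V ^ α / 2 < per G (w (js k)) := by
    have h1 : Tendsto (fun k => L * vol G (w (js k)) ^ α - M * gap G (w (js k))) atTop
        (𝓝 (L * V ^ α - M * 0)) :=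
      ((huV.rpow_const (Or.inl hV.ne')).const_mul L).sub ((hwg.comp hjlim).const_mul M)
    filter_upwards [(tendsto_order.1 h1).1 (L * V ^ α / 2) (by linarith)] with k hk
    linarith [hJ (w (js k)) (hw _) (by linarith [hVs k])]
  obtain ⟨k₀, hk₀⟩ := eventually_atTop.1 hperlow
  have hshift : Tendsto (fun k => k + k₀) atTop atTop := tendsto_add_atTop_nat k₀
  refine ⟨o, R, fun k => w (js (k + k₀)), fun k => σ (k + k₀), L * V ^ α / 2,
    ⟨hΩK, fun k => hw _, ?_⟩, fun k => hσ0 _, ?_, by positivity,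
    fun k => (hk₀ _ (Nat.le_add_left _ _)).le, fun r₀ hr₀ => (hslack r₀ hr₀).comp hshift⟩
  · exact squeeze_zero (fun k => integral_nonneg fun z => abs_nonneg _) (fun k => hwi _)
      ((hgeo.comp hjlim).comp hshift)
  · have e : (radius n V)⁻¹ = s := by
      rw [hs, hsOf]
      simp only
      rw [radius, ← hω, ← hN, Real.div_rpow hV.le hω0.le, inv_div, Real.rpow_neg hV.le, hLd]
      field_simp
    rw [e]
    exact hσlim.comp hshift

end Vale.Agent.P219.CH.Rigid
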