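import Vale.Agent.P219.Five.Defs
import Vale.Agent.P219.Six.Mixed

/-!
# P219: rigidity in dimension five

The certificate of `Five` keeps a slack `slackKer`, which vanishes only where the logarithm at the
boundary point preserves volume and the centre lies in the ball touching there. At equality one
boundary point has vanishing slack at almost every point of the set, so the logarithm there maps
the set onto a Euclidean ball, isometrically.
-/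

noncomputable section

open MeasureTheory Set Filter Topology Matrix
open scoped ENNReal

namespace Vale.Agent.P219.CH.Rigid

variable {n : ℕ}

/-- The Jacobian of the logarithm, normalised by the densities. -/
def jfac (G : (Fin n → ℝ) → Matrix (Fin n) (Fin n) ℝ) (D : (Fin n → ℝ) → (Fin n → ℝ) → ℝ)
    (x y : Fin n → ℝ) : ℝ :=
  |(Six.mixedD D x y).det| / (dens G x * dens G y)

/-- The cosine at `y` between the covector `ξ` and the direction back to `x`. -/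
def cosAt (G : (Fin n → ℝ) → Matrix (Fin n) (Fin n) ℝ) (D : (Fin n → ℝ) → (Fin n → ℝ) → ℝ)
    (x y ξ : Fin n → ℝ) : ℝ :=
  -pairing G y ξ (cd (D x) y) / (conorm G y ξ * Real.sqrt (2 * D x y))

/-- The part of the certificate used by an exit at distance `τ`, smoothed to `τ'`. -/
def exitKer (τ τ' d : ℝ) : ℝ := min (Five.kern τ' |d|) (2 * max d 0 / τ ^ 4)

/-- The part of the certificate not used by the inequality. -/
def slackKer (G : (Fin n → ℝ) → Matrix (Fin n) (Fin n) ℝ) (D : (Fin n → ℝ) → (Fin n → ℝ) → ℝ)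
    (s ε : ℝ) (x y ξ : Fin n → ℝ) : ℝ :=
  Five.kern (s * Real.sqrt (2 * D x y + ε ^ 2)) |cosAt G D x y ξ| -
    jfac G D x y * exitKer (s * Real.sqrt (2 * D x y)) (s * Real.sqrt (2 * D x y + ε ^ 2))
      (cosAt G D x y ξ)

/-- The total slack of a competitor. -/
def slackInt (G : (Fin n → ℝ) → Matrix (Fin n) (Fin n) ℝ) (D : (Fin n → ℝ) → (Fin n → ℝ) → ℝ)
    (u : (Fin n → ℝ) → ℝ) (s ε : ℝ) : ℝ≥0∞ :=
  ∫⁻ x, ENNReal.ofReal (u x) *
    (∫⁻ y, ENNReal.ofReal (slackKer G D s ε x y (cd u y)) ∂Sharp.pm G u) ∂Six.volM G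

/-- Almost minimal among competitors of comparable volume. -/
def NearMinW (G : (Fin n → ℝ) → Matrix (Fin n) (Fin n) ℝ)
    (D : (Fin n → ℝ) → (Fin n → ℝ) → ℝ) (o : Fin n → ℝ) (R P₀ v₀ l M δ : ℝ)
    (u : (Fin n → ℝ) → ℝ) : Prop :=
  Comp {y | D o y ≤ R} u ∧ per G u ≤ P₀ ∧ v₀ ≤ vol G u ∧ gap G u ≤ δ ∧
    ∀ u', Comp {y | D o y ≤ R} u' → v₀ / 2 ≤ vol G u' →
      per G u - l * vol G u ^ (((n : ℝ) - 1) / n) + M * gap G u ≤
        per G u' - l * vol G u' ^ (((n : ℝ) - 1) / n) + M * gap G u' + δ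

/-- The sharp constant in dimension five. -/
def sharp5 : ℝ := 5 * (8 * Real.pi ^ 2 / 15) ^ ((1 : ℝ) / 5)

/-! ## Pins -/

/-- An inequality for sets passes to competitors, with the gap as error. -/
def LevelPin (n : ℕ) : Prop :=
  2 ≤ n → ∀ (G : (Fin n → ℝ) → Matrix (Fin n) (Fin n) ℝ)
    (D : (Fin n → ℝ) → (Fin n → ℝ) → ℝ), IsCH G D → ∀ L : ℝ, 0 ≤ L →
    (∀ (Ω : Set (Fin n → ℝ)) (A : ℝ), MeasurableSet Ω → Bornology.IsBounded Ω →
      PerimeterLE G Ω A → L * volG G Ω ^ (((n : ℝ) - 1) / n) ≤ A) →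
    ∀ (K : Set (Fin n → ℝ)) (u : (Fin n → ℝ) → ℝ), IsCompact K → Comp K u → 0 < vol G u →
      L * vol G u ^ (((n : ℝ) - 1) / n) ≤
        per G u + 2 * L * vol G u ^ (((n : ℝ) - 1) / n - 1) * gap G u

/-- The row of a centre, from almost minimality at comparable volume. -/
def RowPinW : Prop :=
  ∀ (G : (Fin 5 → ℝ) → Matrix (Fin 5) (Fin 5) ℝ) (D : (Fin 5 → ℝ) → (Fin 5 → ℝ) → ℝ), IsCH G D →
    ∀ (o : Fin 5 → ℝ) (R M P₀ v₀ l θ ε κ : ℝ),
      0 < R → 0 ≤ M → 0 ≤ P₀ → 0 < v₀ → 0 < l → 1 < θ → θ ^ 5 ≤ 2 → 0 < ε → 0 < κ →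
    ∃ δ₀ : ℝ, 0 < δ₀ ∧ ∀ δ u, δ ≤ δ₀ → 0 < δ → NearMinW G D o R P₀ v₀ l M δ u →
      ∀ x, D o x ≤ R →
        ∫⁻ y, ENNReal.ofReal (Five.kern (Five.scale G l θ u * Real.sqrt (2 * D x y + ε ^ 2))
            (Six.acos G D u x y)) ∂Sharp.pm G u ≤ ENNReal.ofReal (per G u + κ)

/-- The integral along geodesics, keeping the slack. -/
def LinesSlackPin : Prop :=
  ∀ (G : (Fin 5 → ℝ) → Matrix (Fin 5) (Fin 5) ℝ) (D : (Fin 5 → ℝ) → (Fin 5 → ℝ) → ℝ)
    (e : Six.Phase 5 → Fin 5 → ℝ), IsCH G D → Six.IsExp G D e →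
    ∀ η s₁ : ℝ, 0 < η → η < 1 → 0 < s₁ →
    ∃ ε₀ : ℝ, 0 < ε₀ ∧ ∀ (ε s : ℝ) (o : Fin 5 → ℝ) (R : ℝ) (u : (Fin 5 → ℝ) → ℝ) (B : ℝ),
      0 < ε → ε ≤ ε₀ → 0 < s → s ≤ s₁ → Comp {y | D o y ≤ R} u → 0 ≤ B →
      (∀ x, D o x ≤ R → ∫⁻ y, ENNReal.ofReal (Five.kern (s * Real.sqrt (2 * D x y + ε ^ 2))
          (Six.acos G D u x y)) ∂Sharp.pm G u ≤ ENNReal.ofReal B) →
      ENNReal.ofReal (2 * (1 - η) * Five.mass5 * (vol G u - gap G u)) +
          ENNReal.ofReal (s ^ 4 * Five.polar5) * slackInt G D u s ε ≤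
        ENNReal.ofReal
          (s ^ 4 * Five.polar5 * (B * vol G u) + per G u * (Five.mass5 * (1 / 5 + 5 * η)) / s)

/-- At equality one boundary point has no slack against almost every point of the set. -/
def CentrePin : Prop :=
  ∀ (G : (Fin 5 → ℝ) → Matrix (Fin 5) (Fin 5) ℝ) (D : (Fin 5 → ℝ) → (Fin 5 → ℝ) → ℝ), IsCH G D →
    ∀ (Ω : Set (Fin 5 → ℝ)) (A : ℝ), MeasurableSet Ω → Bornology.IsBounded Ω →
      PerimeterLE G Ω A → 0 < volG G Ω → A ≤ sharp5 * volG G Ω ^ ((4 : ℝ) / 5) →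
    ∃ y ξ : Fin 5 → ℝ, conorm G y ξ = 1 ∧ ∀ᵐ x ∂(volume.restrict Ω),
      jfac G D x y = 1 ∧
        sharp5 / 5 * volG G Ω ^ (-(1 : ℝ) / 5) * D x y ≤ -pairing G y ξ (cd (D x) y)

end Vale.Agent.P219.CH.Rigid
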