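import Vale.Agent.P219.Rigid.Sphere
import Vale.Agent.P219.Rigid.Shape

/-!
# P219: a strict certificate gives rigidity, any dimension
-/

noncomputable section

namespace Vale.Agent.P219.CH.Rigid

/-- A strict certificate in dimension `n` gives the equality case. -/
theorem rigid_of_cert (n : ℕ) [NeZero n] (hn : 3 ≤ n) {a : ℝ → ℝ} {b : ℝ} {K : ℝ × ℝ × ℝ → ℝ}
    (hK : StrictCert n a b K) : RigidDim n :=
  rigid_of_parts n hn (deficit n) (sphere n) (shape n) hK

end Vale.Agent.P219.CH.Rigid
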