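import Vale.Agent.P219.Rigid.StrictTools
import Vale.Agent.P219.Eight.Value

/-!
# P219: the certificate of dimension eight is strict
-/

noncomputable section

open Set Filter Topology

namespace Vale.Agent.P219.CH.Rigid.InEight

open Eight

/-- The limit kernel. -/
def limKer (q : ℝ × ℝ × ℝ) : ℝ :=
  (psi q.1 |q.2.1| |q.2.2| + psi q.1 |q.2.2| |q.2.1|) / 550

theorem edge_zero_pos {r c : ℝ} (hc : 0 ≤ c) (hc1 : c ≤ 1) : 0 < symQ r c 0 := by
  have hc2 : c ^ 2 ≤ 1 := pow_le_one₀ hc hc1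
  have h1 : 0 ≤ 1100 * r ^ 4 - 1925 * c * r ^ 3 + 843 * c ^ 2 * r ^ 2 := by
    nlinarith [mul_nonneg (sq_nonneg r) (sq_nonneg (r - 7 / 8 * c)),
      mul_nonneg (sq_nonneg r) (sq_nonneg c)]
  have h2 : 1 ≤ (2750 - 293 * c ^ 2) * r ^ 2 + -3430 * c * r + (2940 + 772 * c ^ 2) := by
    have := quad_nonneg (a := 2750 - 293 * c ^ 2) (b := -3430 * c) (e := 2939 + 772 * c ^ 2)
      (x := r) (by linarith) (by nlinarith [sq_nonneg c])
    linarith
  unfold symQ
  linarith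

theorem edge_one_pos {r c : ℝ} (hc : 0 ≤ c) (hc1 : c ≤ 1) : 0 < symQ r (c + 1) c := by
  have h1 : 0 ≤ 1100 * r ^ 4 - 1925 * (1 + c) * r ^ 3 + 13475 / 16 * (1 + c) ^ 2 * r ^ 2 := by
    nlinarith [mul_nonneg (sq_nonneg r) (sq_nonneg (r - 7 / 8 * (1 + c)))]
  have h2 : 1 ≤ (3300 + 550 * c ^ 2 - 13475 / 16 * (1 + c) ^ 2) * r ^ 2 +
      (2772 * c ^ 2 - 658 * c - 3430) * r + (3712 - 792 * c - 2396 * c ^ 2 + 792 * c ^ 3) := by
    have := quad_nonneg (a := 3300 + 550 * c ^ 2 - 13475 / 16 * (1 + c) ^ 2)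
      (b := 2772 * c ^ 2 - 658 * c - 3430)
      (e := 3711 - 792 * c - 2396 * c ^ 2 + 792 * c ^ 3) (x := r) (by nlinarith) (by
        nlinarith [mul_nonneg hc (sub_nonneg.2 hc1), mul_nonneg (sq_nonneg c) (sub_nonneg.2 hc1),
          mul_nonneg (mul_nonneg hc (sub_nonneg.2 hc1)) (sub_nonneg.2 hc1),
          mul_nonneg (pow_nonneg hc 3) (sub_nonneg.2 hc1),
          mul_nonneg (sq_nonneg c) (sq_nonneg (1 - c))])
    linarith
  unfold symQ
  linear_combination h1 + h2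

theorem edge_diag_pos {r t : ℝ} (ht : 0 ≤ t) (ht1 : t ≤ 1) : 0 < symQ r (2 * t) (t ^ 2) := by
  have hx : t ^ 2 ≤ 1 := pow_le_one₀ ht ht1
  have h1 : 0 ≤ 1100 * r ^ 4 - 3850 * t * r ^ 3 + 13475 / 4 * t ^ 2 * r ^ 2 := by
    nlinarith [mul_nonneg (sq_nonneg r) (sq_nonneg (r - 7 / 4 * t))]
  have h2 : 1 ≤ (2750 - 9075 / 4 * t ^ 2) * r ^ 2 + (5544 * t ^ 2 - 6860) * t * r +
      (2940 - 40 * t ^ 2 - 1584 * t ^ 4) := by
    have := quad_nonneg (a := 2750 - 9075 / 4 * t ^ 2) (b := (5544 * t ^ 2 - 6860) * t)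
      (e := 2939 - 40 * t ^ 2 - 1584 * t ^ 4) (x := r) (by linarith) (by
        obtain ⟨x, hx0⟩ : ∃ x, x = t ^ 2 := ⟨_, rfl⟩
        rw [mul_pow, show t ^ 4 = (t ^ 2) ^ 2 by ring, ← hx0]
        rw [← hx0] at hx
        have h0 : 0 ≤ x := hx0 ▸ sq_nonneg t
        nlinarith [mul_nonneg h0 (sub_nonneg.2 hx), mul_nonneg (mul_nonneg h0 h0) (sub_nonneg.2 hx),
          mul_nonneg (mul_nonneg h0 (sub_nonneg.2 hx)) (sub_nonneg.2 hx)])
    linarith
  unfold symQ
  linear_combination h1 + h2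

/-- The symmetrised integrand is positive. -/
theorem sym4_pos (r : ℝ) {c d : ℝ} (hc : 0 ≤ c) (hc1 : c ≤ 1) (hd : 0 ≤ d) (hd1 : d ≤ 1) :
    0 < sym4 r c d := by
  obtain ⟨h0, h1⟩ := cosines_mem hc hc1 hd hd1
  obtain ⟨s, hs⟩ : ∃ s, s = c + d := ⟨_, rfl⟩
  rw [← hs] at h0 h1
  have hlow : 0 < symQ r s (max 0 (s - 1)) := by
    rcases le_total s 1 with h | h
    · rw [max_eq_left (by linarith)]; exact edge_zero_pos (by linarith) h
    · rw [max_eq_right (by linarith)]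
      simpa using edge_one_pos (r := r) (c := s - 1) (by linarith) (by linarith)
  have hhigh : 0 < symQ r s ((s / 2) ^ 2) := by
    simpa [mul_div_cancel₀] using edge_diag_pos (r := r) (t := s / 2) (by linarith) (by linarith)
  rw [sym4, ← hs]
  rcases eq_or_lt_of_le h0 with he | he
  · rw [← he]; exact hlow
  rcases eq_or_lt_of_le h1 with he' | he'
  · rw [he']; exact hhigh
  refine secant_pos (f := symQ r s) (S := 4752 * ((c * d - max 0 (s - 1)) * ((s / 2) ^ 2 - c * d) *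
    ((s / 2) ^ 2 - max 0 (s - 1)))) he he' hlow.le hhigh.le
    (mul_pos (by norm_num) (mul_pos (mul_pos (by linarith) (by linarith)) (by linarith))) (le_of_eq ?_)
  unfold symQ
  ring

theorem limKer_eq {r c d : ℝ} (hr : 0 < r) :
    r ^ (8 - 1) * limKer (r, c, d) = r ^ 3 * sym4 r |c| |d| / 550 := by
  rw [← psi_sym hr.ne']
  simp only [limKer]
  ring

theorem limKer_pos {r c d : ℝ} (hr : 0 < r) (hc : |c| ≤ 1) (hd : |d| ≤ 1) :
    0 < limKer (r, c, d) := by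
  refine div_pos (pos_of_mul_pos_right (a := r ^ 4) ?_ (by positivity)) (by norm_num)
  rw [psi_sym hr.ne']
  exact sym4_pos r (abs_nonneg c) hc (abs_nonneg d) hd

theorem edge_eq {r c : ℝ} (hr : 0 < r) (hc : 0 < c) (hc1 : c ≤ 1)
    (h : lineQ r (c + 1) c = 0) : r = 2 ∧ c = 1 := by
  rcases le_total r (899 / 1000 + 2 / 3 * c) with h' | h'
  · exfalso
    have e : lineQ r (c + 1) c = r ^ 3 * symQ r (c + 1) c +
        (c * (31744 + 23520 * c - 35280 * r) + c ^ 4 * (11040 - 2816 * c ^ 2)) := by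
      unfold lineQ
      ring
    have h2 : c ^ 2 ≤ 1 := pow_le_one₀ hc.le hc1
    have a1 := mul_pos (pow_pos hr 3) (edge_one_pos (r := r) hc.le hc1)
    have a2 := mul_nonneg hc.le (show 0 ≤ 31744 + 23520 * c - 35280 * r by linarith)
    have a3 := mul_nonneg (show 0 ≤ c ^ 4 by positivity) (show 0 ≤ 11040 - 2816 * c ^ 2 by linarith)
    linarith
  · obtain ⟨v, hv⟩ : ∃ v, v = r - (1 + c) := ⟨_, rfl⟩
    have e : lineQ r (c + 1) c =
        edgeA c * (c - 1) ^ 2 + edgeB c * (c - 1) * v + edgeC v c * v ^ 2 := by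
      rw [hv]
      unfold lineQ symQ edgeA edgeB edgeC
      ring
    rw [e] at h
    have hA := edgeA_ge hc.le hc1
    have hC := edgeC_ge hc.le hc1 (show -(101 / 1000 + c / 3) ≤ v by rw [hv]; linarith)
    obtain ⟨hB0, hB1⟩ := abs_le.1 (abs_edgeB_le hc.le hc1)
    have hB : edgeB c ^ 2 < 4 * edgeA c * edgeC v c := by
      have h1 : edgeB c ^ 2 ≤ 10066 ^ 2 := sq_le_sq' hB0 hB1
      have h2 := mul_le_mul hA hC (by norm_num) (le_trans (by norm_num) hA)
      linarith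
    have key : (2 * edgeA c * (c - 1) + edgeB c * v) ^ 2 +
        (4 * edgeA c * edgeC v c - edgeB c ^ 2) * v ^ 2 = 0 := by
      linear_combination (4 * edgeA c) * h
    have h1 := (add_eq_zero_iff_of_nonneg (sq_nonneg _)
      (mul_nonneg (sub_nonneg.2 hB.le) (sq_nonneg v))).1 key
    have hv0 : v = 0 := pow_eq_zero_iff two_ne_zero |>.1
      ((mul_eq_zero.1 h1.2).resolve_left (by linarith))
    have h3 := pow_eq_zero_iff two_ne_zero |>.1 h1.1
    rw [hv0, mul_zero, add_zero] at h3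
    have hc0 := (mul_eq_zero.1 h3).resolve_left (by linarith)
    rw [hv0] at hv
    constructor <;> linarith

theorem line_eq {r c d : ℝ} (hr : 0 < r) (hc : 0 < c) (hc1 : c ≤ 1) (hd : 0 < d) (hd1 : d ≤ 1)
    (h : lineQ r (c + d) (c * d) = 0) : r = 2 * c := by
  rcases cosine_cases hc hc1 hd hd1 with he | he | he | ⟨h0, h1⟩
  · subst he
    have e : lineQ r (2 * c) (c ^ 2) = (r - 2 * c) ^ 2 * (1100 * r ^ 5 + 550 * r ^ 4 * c +
        r ^ 3 * (2750 - 1100 * c ^ 2) + r ^ 2 * c * (4140 - 1056 * c ^ 2) +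
        r * (2940 + c ^ 2 * (5520 - 1408 * c ^ 2)) + c * (11760 + c ^ 2 * (5520 - 1408 * c ^ 2))) := by
      unfold lineQ symQ
      ring
    rw [show c + c = 2 * c by ring, show c * c = c ^ 2 by ring, e] at h
    have hx : c ^ 2 ≤ 1 := pow_le_one₀ hc.le hc1
    have : 0 ≤ 2750 - 1100 * c ^ 2 := by linarith
    have : 0 ≤ 4140 - 1056 * c ^ 2 := by linarith
    have : 0 ≤ 5520 - 1408 * c ^ 2 := by linarith
    have h2 := (mul_eq_zero.1 h).resolve_right (by positivity)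
    linarith [pow_eq_zero_iff two_ne_zero |>.1 h2]
  · subst he
    rw [one_mul, add_comm 1 d] at h
    obtain ⟨h2, h3⟩ := edge_eq hr hd hd1 h
    linarith
  · subst he
    rw [mul_one] at h
    obtain ⟨h2, h3⟩ := edge_eq hr hc hc1 h
    linarith
  · exfalso
    obtain ⟨hlo, hhi⟩ := cosines_mem hc.le hc1 hd.le hd1
    obtain ⟨s, hs⟩ : ∃ s, s = c + d := ⟨_, rfl⟩
    rw [← hs] at h h0 h1
    obtain ⟨q0, hq0⟩ : ∃ z, z = max 0 (s - 1) := ⟨_, rfl⟩
    obtain ⟨q1, hq1⟩ : ∃ z, z = (s / 2) ^ 2 := ⟨_, rfl⟩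
    rw [← hq0] at h0
    rw [← hq1] at h1
    have hn : 0 ≤ q0 := hq0 ▸ le_max_left _ _
    have hb := bend (r := 0) le_rfl (s := s) (by linarith) (by linarith)
      (m := (q0 + q1 + c * d) / 3) (by rw [← hq0]; linarith)
    have hneg : -4752 * r ^ 3 - 33120 * s + 14080 * s ^ 3 - 42240 * ((q0 + q1 + c * d) / 3) * s < 0 := by
      linarith [pow_pos hr 3]
    refine (secant_pos (f := lineQ r s)
      (S := -(-4752 * r ^ 3 - 33120 * s + 14080 * s ^ 3 - 42240 * ((q0 + q1 + c * d) / 3) * s) *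
        ((c * d - q0) * (q1 - c * d) * (q1 - q0))) h0 h1
      (hq0 ▸ lineQ_low hr.le (by linarith) (by linarith))
      (hq1 ▸ lineQ_high hr.le (by linarith) (by linarith))
      (mul_pos (neg_pos.2 hneg) (mul_pos (mul_pos (by linarith) (by linarith)) (by linarith)))
      (le_of_eq ?_)).ne' h
    unfold lineQ symQ
    ring

/-- The certificate is strict. -/
theorem strict_eight : StrictCert 8 (fun c => aCoef c / 550) (1764 / 55) limKer := by
  have hKc : ContinuousOn limKer {q | 0 < q.1} := by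
    unfold limKer psi wnum
    intro q hq
    have : q.1 ≠ 0 := ne_of_gt hq
    exact ContinuousAt.continuousWithinAt (by fun_prop (disch := first | exact this | positivity))
  have hu : ∀ r c d, 0 < r → c ∈ Icc (-1 : ℝ) 1 → d ∈ Icc (-1 : ℝ) 1 →
      usedKer 8 (fun c => aCoef c / 550) (1764 / 55) 0 r c d ≤ limKer (r, c, d) ∧
        (usedKer 8 (fun c => aCoef c / 550) (1764 / 55) 0 r c d = limKer (r, c, d) → r = 2 * c) := by
    intro r c d hr hc hd
    refine used_of_line (by simp [aCoef]) hr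
      (limKer_pos hr (abs_le.2 ⟨hc.1, hc.2⟩) (abs_le.2 ⟨hd.1, hd.2⟩)) (fun h1 h2 => ?_)
      fun h1 h2 h => ?_
    · rw [limKer_eq hr, abs_of_pos h1, abs_of_pos h2]
      have := line_inequality hr.le h1.le hc.2 h2.le hd.2
      linarith
    · rw [limKer_eq hr, abs_of_pos h1, abs_of_pos h2] at h
      refine line_eq hr h1 hc.2 h2 hd.2 ?_
      rw [lineQ_eq]
      linarith
  refine ⟨cert_eight, by unfold aCoef; fun_prop, hKc, fun r c d hr hc hd => (hu r c d hr hc hd).1,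
    fun r c d hr hc hd => (hu r c d hr hc hd).2, fun ε T hε hT => ?_⟩
  obtain ⟨η₀, hη₀, hclose⟩ := exists_reg_close hKc hε T
  obtain ⟨C, hC⟩ : ∃ C, C = 177408 * T ^ 7 + 177408 + 105840 := ⟨_, rfl⟩
  have hT7 : 0 ≤ T ^ 7 := by positivity
  have hC0 : 0 < C := by rw [hC]; positivity
  obtain ⟨η, hη⟩ : ∃ η, η = min η₀ (min 1 (min (550 * ε / C) (ε / 1000))) := ⟨_, rfl⟩
  have hη0 : 0 < η :=
    hη ▸ lt_min hη₀ (lt_min one_pos (lt_min (by positivity) (by positivity)))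
  have hη1 : η ≤ 1 := hη ▸ (min_le_right _ _).trans (min_le_left _ _)
  have hηC : η ≤ 550 * ε / C :=
    hη ▸ (min_le_right _ _).trans ((min_le_right _ _).trans (min_le_left _ _))
  have hηε : η ≤ ε / 1000 :=
    hη ▸ (min_le_right _ _).trans ((min_le_right _ _).trans (min_le_right _ _))
  obtain ⟨hP, hF⟩ := weight_at (ε := ε) hη0 hη1 hT (hC ▸ (le_div_iff₀ hC0).1 hηC)
  refine ⟨weight η, contDiff_weight hη0.ne', fun p q hp hq => weight_pos hη0.ne' hp hq, hP, hF,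
    fun r c d hr hc hd => ?_⟩
  have hc1 : |c| ≤ 1 := abs_le.2 ⟨hc.1, hc.2⟩
  have hd1 : |d| ≤ 1 := abs_le.2 ⟨hd.1, hd.2⟩
  have h := sym_ge hη0 hη1 (hε.le.trans hr.1) hc1 hd1
  have h2 := hclose η hη0 (hη ▸ min_le_left _ _) r c d hr hc hd
  simp only [limKer] at h2 ⊢
  have h3 : |c| * |d| ≤ 1 := mul_le_one₀ hc1 (abs_nonneg d) hd1
  have h4 := mul_le_mul_of_nonneg_left h3 (show 0 ≤ 177408 * η by positivity)
  linarith

end Vale.Agent.P219.CH.Rigid.InEight
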