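import Vale.Agent.P219.Rigid.Ten
import Vale.Agent.P219.Eleven.Value

/-!
# P219: the certificate of dimension eleven is strict
-/

noncomputable section

open Set Filter Topology

namespace Vale.Agent.P219.CH.Rigid.InEleven

open Eleven
open Ten (cross cross_comm cross_spec cosines_mem)

theorem one_pos_sum {r c d : ℝ} (hr : 0 < r) (hc : 0 ≤ c) (hc1 : c ≤ 1) (hd : 0 ≤ d)
    (hd1 : d ≤ 1) : 0 < one r c d (cross c d) + one r d c (cross d c) := by
  rw [cross_comm d c, one_sym]
  by_cases h : c + d < 2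
  · obtain ⟨s, hs⟩ : ∃ s, s = c + d := ⟨_, rfl⟩
    have hk : 0 < 4 - s ^ 2 := by rw [hs]; nlinarith
    refine pos_of_mul_pos_right (a := 4 - (c + d) ^ 2) ?_ (hs ▸ hk.le)
    have key : 0 < symT r (c + d) (c * d) := by
      obtain ⟨h0, h1⟩ := cosines_mem hc hc1 hd hd1
      rw [← hs] at h0 h1 ⊢
      have hlow : 0 < symT r s (max 0 (s - 1)) := by
        rcases le_total s 1 with h' | h'
        · rw [max_eq_left (by linarith), symT_zero]
          exact mul_pos hk (zero_lt_one.trans_le (zeroS_ge hr.le (by linarith) h'))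
        · rw [max_eq_right (by linarith)]
          obtain ⟨e', rfl⟩ : ∃ e', s = 1 + e' := ⟨s - 1, by ring⟩
          rw [show 1 + e' - 1 = e' by ring, symT_one]
          exact mul_pos (by linarith) (hr.trans_le (edgeS_ge hr.le (by linarith) (by linarith)))
      have hhigh : 0 < symT r s ((s / 2) ^ 2) := by
        obtain ⟨t, rfl⟩ : ∃ t, s = 2 * t := ⟨s / 2, by ring⟩
        rw [show (2 * t / 2) ^ 2 = t ^ 2 by ring, symT_diag]
        exact mul_pos (by linarith) (hr.trans_le (diagS_ge hr.le (by linarith) (by linarith)))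
      rcases eq_or_lt_of_le h0 with he | he
      · rw [← he]; exact hlow
      rcases eq_or_lt_of_le h1 with he' | he'
      · rw [he']; exact hhigh
      refine secant_pos (f := symT r s)
        (S := (c * d - max 0 (s - 1)) * ((s / 2) ^ 2 - c * d) * ((s / 2) ^ 2 - max 0 (s - 1)))
        he he' hlow.le hhigh.le
        (mul_pos (mul_pos (by linarith) (by linarith)) (by linarith)) ?_
      have hb := mul_le_mul_of_nonneg_right
        (bend_sym' hr.le (show 0 ≤ s by linarith) (show s ≤ 2 by linarith) rfl rfl h0 h1)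
        (mul_nonneg (mul_nonneg (sub_nonneg.2 h0) (sub_nonneg.2 h1))
          (sub_nonneg.2 (h0.trans h1)))
      rw [symT_secant_eq]
      linarith
    refine lt_of_lt_of_eq key ?_
    rw [hs] at hk
    rw [symT, Ten.cross, if_pos h]
    field_simp
  · obtain ⟨rfl, rfl⟩ : c = 1 ∧ d = 1 := ⟨by linarith, by linarith⟩
    rw [Ten.cross, if_neg h, show (1 : ℝ) + 1 = 2 by norm_num, one_mul, mul_zero, sub_zero, sym_one]
    exact hr.trans_le (diagS_ge hr.le zero_le_one le_rfl)

theorem diag_eq {r t : ℝ} (hr : 0 < r) (ht : 0 ≤ t) (ht1 : t < 1)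
    (h : lineT r (2 * t) (t ^ 2) = 0) : r = 2 * t := by
  have e := line_diag hr.le ht
  rw [h, zero_mul] at e
  have h2 := (mul_eq_zero.1 e.symm).resolve_left (by nlinarith)
  have h3 := (mul_eq_zero.1 h2).resolve_right (hr.trans_le (diagJ_ge hr.le ht ht1.le)).ne'
  linarith [pow_eq_zero_iff two_ne_zero |>.1 h3]

theorem edgeF_pos {r c : ℝ} (hr : 0 < r) (hc : 0 ≤ c) (hc1 : c < 1) : 0 < edgeF r c := by
  rcases le_total r (24 / 25 + 31 / 50 * c + 17 / 50 * c ^ 2) with h | h
  · exact lt_of_lt_of_le (by positivity) (edgeF_low hr.le hc hc1.le h)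
  · obtain ⟨v, rfl⟩ : ∃ v, r = 1 + c + v := ⟨r - 1 - c, by ring⟩
    rw [edgeF_expand]
    have hC := edgeSq_ge hc hc1.le (v := v) (by linarith)
    have hQ := edge_disc hc hc1.le
    have h0 : 0 ≤ edge0 c := zero_le_one.trans (edge0_ge hc hc1.le)
    have hCpos : 0 < edgeSq v c := lt_of_lt_of_le (by positivity) hC
    have := InTen.quad_pos (x := v) (b := (1 - c) * edge1 c) (e := (1 - c) * edge0 c) hCpos (by
      have h1 := mul_le_mul_of_nonneg_left
        (hQ.trans (mul_le_mul_of_nonneg_left hC (show 0 ≤ 4 * edge0 c by positivity)))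
        (sub_pos.2 hc1).le
      linarith)
    linarith

theorem edge_eq {r c : ℝ} (hr : 0 < r) (hc : 0 ≤ c) (hc1 : c < 1)
    (h : lineT r (1 + c) c = 0) : False := by
  have e := line_edge hr.le hc
  rw [h, zero_mul] at e
  exact (mul_pos (sub_pos.2 hc1) (edgeF_pos hr hc hc1)).ne e

theorem line_eq {r c d : ℝ} (hr : 0 < r) (hc : 0 < c) (hc1 : c ≤ 1) (hd : 0 < d) (hd1 : d ≤ 1)
    (h : aCoef c * d + aCoef d * c + 181440 * (c * d) * r =
      (one r c d (cross c d) + one r d c (cross d c)) * (r ^ 3 / (2 + r) ^ 3)) : r = 2 * c := by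
  rw [cross_comm d c, one_sym] at h
  have hm := marginal_eq hc.le hd.le
  by_cases hs : c + d < 2
  · have hk : 0 < 4 - (c + d) ^ 2 := by nlinarith
    have hT : lineT r (c + d) (c * d) = 0 := by
      refine Eq.trans ?_ (show (4 - (c + d) ^ 2) *
        ((symP r (c + d) (c * d) - kap r (c + d) (c * d) * (c * d) * cross c d) *
          (r ^ 3 / (2 + r) ^ 3) - (aCoef c * d + aCoef d * c + 181440 * (c * d) * r)) = 0 by
        rw [h, sub_self, mul_zero])
      rw [lineT, symT, Ten.cross, if_pos hs, hm]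
      field_simp
      ring
    rcases cosine_cases hc hc1 hd hd1 with he | he | he | ⟨h0, h1⟩
    · subst he
      rw [show c + c = 2 * c by ring, show c * c = c ^ 2 by ring] at hT
      exact diag_eq hr hc.le (by linarith) hT
    · subst he
      rw [one_mul] at hT
      exact (edge_eq hr hd.le (by linarith) hT).elim
    · subst he
      rw [mul_one, add_comm c 1] at hT
      exact (edge_eq hr hc.le (by linarith) hT).elim
    · exfalso
      have hs0 : 0 ≤ c + d := by linarith
      have hs2 : c + d ≤ 2 := by linarith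
      refine (secant_pos (f := lineT r (c + d))
        (S := r ^ 3 / (2 + r) ^ 3 * ((c * d - max 0 (c + d - 1)) *
          (((c + d) / 2) ^ 2 - c * d) * (((c + d) / 2) ^ 2 - max 0 (c + d - 1))))
        h0 h1 (lineT_low hr.le hs0 hs2) (lineT_high hr.le hs0 hs2)
        (mul_pos (by positivity)
          (mul_pos (mul_pos (by linarith) (by linarith)) (by linarith)))
        (lineT_secant hr.le hs0 hs2 rfl rfl h0.le h1.le)).ne' hT
  · obtain ⟨rfl, rfl⟩ : c = 1 ∧ d = 1 := ⟨by linarith, by linarith⟩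
    rw [Ten.cross, if_neg hs, show (1 : ℝ) + 1 = 2 by norm_num, one_mul, mul_zero, sub_zero,
      sym_one] at h
    have e := diag_one hr.le
    have h2 : (r - 2) ^ 2 * diagJ r 1 / ((2 + r) ^ 3 * 2) = 0 := by
      rw [← e, ← h]
      unfold aCoef
      norm_num
      ring
    rw [div_eq_zero_iff, or_iff_left (by positivity)] at h2
    have h3 := (mul_eq_zero.1 h2).resolve_right
      (hr.trans_le (diagJ_ge hr.le zero_le_one le_rfl)).ne'
    linarith [pow_eq_zero_iff two_ne_zero |>.1 h3]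

/-! ## The limit kernel -/

/-- The limit kernel. -/
def limKer (q : ℝ × ℝ × ℝ) : ℝ :=
  (psi q.1 (InTen.clip q.2.1) (InTen.clip q.2.2) + psi q.1 (InTen.clip q.2.2) (InTen.clip q.2.1)) / 1782

theorem limKer_eq {r c d : ℝ} (hr : 0 < r) (hc : |c| ≤ 1) (hd : |d| ≤ 1) :
    r ^ (11 - 1) * limKer (r, c, d) =
      (one r |c| |d| (cross |c| |d|) + one r |d| |c| (cross |d| |c|)) *
        (r ^ 3 / (2 + r) ^ 3) / 1782 := by
  rw [← psi_sum hr]
  simp only [limKer, InTen.clip_eq hc, InTen.clip_eq hd]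
  field_simp
  ring

theorem limKer_pos {r c d : ℝ} (hr : 0 < r) (hc : |c| ≤ 1) (hd : |d| ≤ 1) :
    0 < limKer (r, c, d) := by
  refine pos_of_mul_pos_right (a := r ^ (11 - 1)) ?_ (by positivity)
  rw [limKer_eq hr hc hd]
  exact div_pos (mul_pos (one_pos_sum hr (abs_nonneg c) hc (abs_nonneg d) hd) (by positivity))
    (by norm_num)

/-- The certificate is strict. -/
theorem strict_eleven : StrictCert 11 (fun c => aCoef |c| / 1782) (560 / 11) limKer := by
  have hKc : ContinuousOn limKer {q | 0 < q.1} := by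
    have hx : Continuous fun q : ℝ × ℝ × ℝ => cross (InTen.clip q.2.1) (InTen.clip q.2.2) :=
      InTen.continuous_cross.comp continuous_snd
    have hy : Continuous fun q : ℝ × ℝ × ℝ => cross (InTen.clip q.2.2) (InTen.clip q.2.1) :=
      InTen.continuous_cross.comp ((continuous_snd.comp continuous_snd).prodMk
        (continuous_fst.comp continuous_snd))
    have h1 : Continuous fun q : ℝ × ℝ × ℝ => InTen.clip q.2.1 := by unfold InTen.clip; fun_prop
    have h2 : Continuous fun q : ℝ × ℝ × ℝ => InTen.clip q.2.2 := by unfold InTen.clip; fun_prop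
    unfold limKer psi one num gnum pA0 pA2 pA4 gA0 gA2 gA4
    intro q hq
    have hq0 : 0 < q.1 := hq
    exact ContinuousAt.continuousWithinAt (by fun_prop (disch := positivity))
  have hac : Continuous fun c : ℝ => aCoef |c| / 1782 := by
    have hd : Continuous fun c : ℝ => 2642944 / (1 + |c|) :=
      Continuous.div (by fun_prop) (by fun_prop) fun c => by positivity
    unfold aCoef hpol
    fun_prop
  have hcert : Gen.Cert 11 (fun c => aCoef |c| / 1782) (560 / 11) := by
    refine ⟨cert_eleven.b_nonneg, hac.measurable, fun c hc => ?_, ?_, ?_, fun ε T hε hT => ?_⟩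
    · rw [abs_of_nonneg hc.1]; exact cert_eleven.a_nonpos c hc
    · obtain ⟨B, hB⟩ := cert_eleven.a_bounded
      exact ⟨B, fun c hc => by rw [abs_of_nonneg hc.1]; exact hB c hc⟩
    · refine Eq.trans ?_ cert_eleven.value
      simp only [Gen.cmean]
      congr 1
      refine MeasureTheory.integral_congr_ae (Eventually.of_forall fun v => ?_)
      by_cases hv : v ∈ {v : Fin 11 → ℝ | 0 < v 0}
      · simp only [Set.indicator_of_mem hv]
        rw [abs_of_nonneg (div_nonneg (le_of_lt hv) (Real.sqrt_nonneg _))]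
      · simp only [Set.indicator_of_notMem hv]
    · obtain ⟨w, h1, h2, h3, h4⟩ := cert_eleven.weight ε T hε hT
      refine ⟨w, h1, h2, h3, fun r c d hr hc hd => ?_⟩
      rw [abs_of_pos hc.1, abs_of_pos hd.1]
      exact h4 r c d hr hc hd
  have hu : ∀ r c d, 0 < r → c ∈ Icc (-1 : ℝ) 1 → d ∈ Icc (-1 : ℝ) 1 →
      usedKer 11 (fun c => aCoef |c| / 1782) (560 / 11) 0 r c d ≤ limKer (r, c, d) ∧
        (usedKer 11 (fun c => aCoef |c| / 1782) (560 / 11) 0 r c d = limKer (r, c, d) →
          r = 2 * c) := by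
    intro r c d hr hc hd
    have hc1 : |c| ≤ 1 := abs_le.2 ⟨hc.1, hc.2⟩
    have hd1 : |d| ≤ 1 := abs_le.2 ⟨hd.1, hd.2⟩
    refine used_of_line (by simp [aCoef]) hr (limKer_pos hr hc1 hd1) (fun h1 h2 => ?_)
      fun h1 h2 h => ?_
    · rw [limKer_eq hr hc1 hd1, abs_of_pos h1, abs_of_pos h2]
      have := line_inequality hr.le h1.le hc.2 h2.le hd.2
      linarith
    · rw [limKer_eq hr hc1 hd1, abs_of_pos h1, abs_of_pos h2] at h
      exact line_eq hr h1 hc.2 h2 hd.2 (by linarith)
  refine ⟨hcert, hac, hKc, fun r c d hr hc hd => (hu r c d hr hc hd).1,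
    fun r c d hr hc hd => (hu r c d hr hc hd).2, fun ε T hε hT => ?_⟩
  obtain ⟨η₀, hη₀, hclose⟩ := exists_reg_close hKc hε T
  obtain ⟨C, hC⟩ : ∃ C, C = 3101648101044224 * T ^ 10 + 3101648101044224 + 907200 := ⟨_, rfl⟩
  have hT10 : 0 ≤ T ^ 10 := by positivity
  have hC0 : 0 < C := by rw [hC]; positivity
  obtain ⟨η, hη⟩ : ∃ η, η = min η₀ (min 1 (min (1782 * ε / C) (ε / 4000000000000))) := ⟨_, rfl⟩
  have hη0 : 0 < η :=
    hη ▸ lt_min hη₀ (lt_min one_pos (lt_min (by positivity) (by positivity)))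
  have hη1 : η ≤ 1 := hη ▸ (min_le_right _ _).trans (min_le_left _ _)
  have hηC : η ≤ 1782 * ε / C :=
    hη ▸ (min_le_right _ _).trans ((min_le_right _ _).trans (min_le_left _ _))
  have hηε : η ≤ ε / 4000000000000 :=
    hη ▸ (min_le_right _ _).trans ((min_le_right _ _).trans (min_le_right _ _))
  obtain ⟨hP, hF⟩ := weight_at (ε := ε) hη0 hη1 hT (hC ▸ (le_div_iff₀ hC0).1 hηC)
  refine ⟨weight η, contDiff_weight hη0.ne', fun p q hp hq => weight_pos hη0.ne' hp hq, hP,
    fun r c d hr hc hd => ?_, fun r c d hr hc hd => ?_⟩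
  · rw [abs_of_pos hc.1, abs_of_pos hd.1]
    exact hF r c d hr hc hd
  · have hc1 : |c| ≤ 1 := abs_le.2 ⟨hc.1, hc.2⟩
    have hd1 : |d| ≤ 1 := abs_le.2 ⟨hd.1, hd.2⟩
    have h := sym_ge hη0 hη1 (hε.le.trans hr.1) hc1 hd1
    have h2 := hclose η hη0 (hη ▸ min_le_left _ _) r c d hr hc hd
    simp only [limKer, InTen.clip_eq hc1, InTen.clip_eq hd1] at h2 ⊢
    have h3 : |c| * |d| ≤ 1 := mul_le_one₀ hc1 (abs_nonneg d) hd1
    have h4 := mul_le_mul_of_nonneg_left h3 (show 0 ≤ 3101648101044224 * η by positivity)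
    linarith

end Vale.Agent.P219.CH.Rigid.InEleven
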