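import Vale.Agent.P219.Rigid.Defs
import Vale.Agent.P219.Five.Polar

/-!
# P219: the normalised Jacobian of the logarithm and polar coordinates keeping it
-/

noncomputable section

open MeasureTheory Set Filter Topology Matrix
open scoped ENNReal

namespace Vale.Agent.P219.CH.Rigid

open Six (Phase IsExp mixedD)

variable {n : ℕ} {G : (Fin n → ℝ) → Matrix (Fin n) (Fin n) ℝ}
  {D : (Fin n → ℝ) → (Fin n → ℝ) → ℝ}

lemma continuous_mixedD (h : IsCH G D) :
    Continuous fun p : (Fin n → ℝ) × (Fin n → ℝ) => mixedD D p.1 p.2 := by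
  refine (ContDiff.fderiv (n := 0) (m := 1)
    (f := fun (p : (Fin n → ℝ) × (Fin n → ℝ)) z => cd (D z) p.1) ?_ contDiff_snd
      (by simp)).continuous
  exact (Sharp.contDiff_logCovector h).comp ((contDiff_fst.comp contDiff_fst).prodMk contDiff_snd)

lemma continuous_jfac (h : IsCH G D) :
    Continuous fun p : (Fin n → ℝ) × (Fin n → ℝ) => jfac G D p.1 p.2 :=
  ((ContinuousLinearMap.continuous_det.comp (continuous_mixedD h)).abs).div₀
    ((h.continuous_dens.comp continuous_fst).mul (h.continuous_dens.comp continuous_snd))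
    fun _ => (mul_pos (h.dens_pos _) (h.dens_pos _)).ne'

lemma jfac_nonneg (h : IsCH G D) (x y : Fin n → ℝ) : 0 ≤ jfac G D x y :=
  div_nonneg (abs_nonneg _) (mul_nonneg (h.dens_pos _).le (h.dens_pos _).le)

lemma jfac_le_one (h : IsCH G D) (x y : Fin n → ℝ) : jfac G D x y ≤ 1 :=
  div_le_one_of_le₀ (Six.abs_det_mixed_le h x y) (mul_nonneg (h.dens_pos _).le (h.dens_pos _).le)

lemma jfac_symm (h : IsCH G D) (x y : Fin n → ℝ) : jfac G D x y = jfac G D y x := by
  rw [jfac, jfac, Six.det_mixed_symm h x y, mul_comm (dens G y)]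

lemma abs_det_fderiv_logv_eq (h : IsCH G D) (x y : Fin n → ℝ) :
    |(fderiv ℝ (Six.logv G D x) y).det| * dens G x = jfac G D x y * dens G y := by
  have hx := (h.dens_pos x).ne'
  have hy := (h.dens_pos y).ne'
  rw [jfac, ← Six.abs_det_fderiv_logv h x y, ← Six.dens_mul_self h x]
  field_simp

/-- Polar coordinates from one point, with the Jacobian kept. -/
theorem polarJ {G : (Fin 5 → ℝ) → Matrix (Fin 5) (Fin 5) ℝ} {D : (Fin 5 → ℝ) → (Fin 5 → ℝ) → ℝ}
    {e : Phase 5 → Fin 5 → ℝ} (h : IsCH G D) (he : IsExp G D e) (x : Fin 5 → ℝ)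
    {f : (Fin 5 → ℝ) → ℝ≥0∞} (hf : Measurable f) :
    ∫⁻ v, ENNReal.ofReal (Six.fibre G x v) * ∫⁻ t in Ioi (0 : ℝ),
        f (Six.line e (x, v) t) *
          ENNReal.ofReal ((t * Six.vnorm G x v) ^ 4 * Six.vnorm G x v) ≤
      ENNReal.ofReal Five.polar5 * ∫⁻ y, ENNReal.ofReal (jfac G D x y) * f y ∂Six.volM G := by
  have hec := he.contDiff.continuous
  have hcx : Continuous fun w => e (x, w) := hec.comp (continuous_const.prodMk continuous_id)
  rw [Five.swap_and_scale hec hf x]
  calc ∫⁻ w, ∫⁻ t in Ioi (0 : ℝ), ENNReal.ofReal ((t ^ 5)⁻¹) * Five.radialFn G e f x w t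
      ≤ ∫⁻ w, ENNReal.ofReal Five.polar5 * (ENNReal.ofReal (dens G x) * f (e (x, w))) :=
        lintegral_mono fun w => Five.radialFn_le x w (h.dens_pos x).le
    _ = ENNReal.ofReal Five.polar5 * ∫⁻ w, ENNReal.ofReal (dens G x) * f (e (x, w)) :=
        lintegral_const_mul _ (measurable_const.mul (hf.comp hcx.measurable))
    _ ≤ _ := by
        refine mul_le_mul' le_rfl (le_of_eq ?_)
        rw [Six.lintegral_logv h he x, Six.volM,
          lintegral_withDensity_eq_lintegral_mul _ h.continuous_dens.measurable.ennreal_ofReal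
            (show Measurable fun y => ENNReal.ofReal (jfac G D x y) * f y from
              ((continuous_jfac h).comp
                (continuous_const.prodMk continuous_id)).measurable.ennreal_ofReal.mul hf)]
        refine lintegral_congr fun y => ?_
        simp only [Pi.mul_apply, he.exp_logv]
        rw [← mul_assoc, ← mul_assoc, ← ENNReal.ofReal_mul (abs_nonneg _),
          ← ENNReal.ofReal_mul (h.dens_pos y).le, abs_det_fderiv_logv_eq h, mul_comm (dens G y)]

end Vale.Agent.P219.CH.Rigid
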