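import Vale.Agent.P219.Rigid.Defs
import Vale.Agent.P219.CH.Min

/-!
# P219: from sets to competitors

The super-level sets of a competitor have perimeter at most the flux of its differential through
the level, and their volumes average to its volume up to twice the gap.
-/

noncomputable section

open MeasureTheory Set Filter Topology Matrix
open scoped ENNReal

namespace Vale.Agent.P219.CH.Rigid

variable {n : ℕ} {G : (Fin n → ℝ) → Matrix (Fin n) (Fin n) ℝ}
  {D : (Fin n → ℝ) → (Fin n → ℝ) → ℝ}

/-- A steep monotone step just above zero. -/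
def stp (k : ℕ) (a : ℝ) : ℝ := Real.smoothTransition (((k : ℝ) + 1) * a)

lemma contDiff_stp (k : ℕ) : ContDiff ℝ 1 (stp k) :=
  Real.smoothTransition.contDiff.comp (contDiff_const.mul contDiff_id)

lemma monotone_stp (k : ℕ) : Monotone (stp k) := fun a b hab =>
  Real.smoothTransition.monotone (mul_le_mul_of_nonneg_left hab (by positivity))

lemma deriv_stp_nonneg (k : ℕ) (a : ℝ) : 0 ≤ deriv (stp k) a := (monotone_stp k).deriv_nonneg

/-- The derivative of a step integrates to at most one over the levels. -/
lemma lintegral_deriv_stp_le (k : ℕ) (a : ℝ) :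
    ∫⁻ t in Ioo (0 : ℝ) 1, ENNReal.ofReal (deriv (stp k) (a - t)) ≤ 1 := by
  have hc : Continuous fun t => deriv (stp k) (a - t) :=
    ((contDiff_stp k).continuous_deriv_one).comp (continuous_const.sub continuous_id)
  refine (lintegral_mono_set Ioo_subset_Ioc_self).trans ?_
  rw [← ofReal_integral_eq_lintegral_ofReal hc.integrableOn_Ioc
    (Eventually.of_forall fun t => deriv_stp_nonneg k _), ← intervalIntegral.integral_of_le zero_le_one,
    intervalIntegral.integral_comp_sub_left (fun z => deriv (stp k) z) a,
    intervalIntegral.integral_deriv_eq_sub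
      (fun z _ => ((contDiff_stp k).differentiable one_ne_zero) z)
      ((contDiff_stp k).continuous_deriv_one.intervalIntegrable _ _)]
  refine (ENNReal.ofReal_le_ofReal ?_).trans_eq ENNReal.ofReal_one
  have h1 := Real.smoothTransition.le_one (((k : ℝ) + 1) * (a - 0))
  have h2 := Real.smoothTransition.nonneg (((k : ℝ) + 1) * (a - 1))
  show stp k (a - 0) - stp k (a - 1) ≤ 1
  simp only [stp] at *
  linarith

/-- The flux of `du` through the level `t`, at step `k`. -/
def flux (G : (Fin n → ℝ) → Matrix (Fin n) (Fin n) ℝ) (u : (Fin n → ℝ) → ℝ) (k : ℕ) (t : ℝ)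
    (y : Fin n → ℝ) : ℝ≥0∞ :=
  ENNReal.ofReal (deriv (stp k) (u y - t)) * ENNReal.ofReal (conorm G y (cd u y) * dens G y)

lemma cd_stp_comp {u : (Fin n → ℝ) → ℝ} (hu : ContDiff ℝ 1 u) (k : ℕ) (t : ℝ) (y : Fin n → ℝ) :
    cd (fun z => stp k (u z - t)) y = deriv (stp k) (u y - t) • cd u y := by
  have h1 : HasFDerivAt (fun z => stp k (u z - t)) (deriv (stp k) (u y - t) • fderiv ℝ u y) y :=
    (((contDiff_stp k).differentiable one_ne_zero _).hasDerivAt).comp_hasFDerivAt y
      ((hu.differentiable one_ne_zero y).hasFDerivAt.sub_const t)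
  funext i
  simp [cd, h1.fderiv]

/-- A super-level set has relaxed perimeter at most the lower limit of the fluxes. -/
lemma perimeterLE_level (h : IsCH G D) {K : Set (Fin n → ℝ)} (hK : IsCompact K)
    {u : (Fin n → ℝ) → ℝ} (hu : Comp K u) {t : ℝ} (ht : 0 < t) {A : ℝ}
    (hA : liminf (fun k => ∫⁻ y, flux G u k t y) atTop < ENNReal.ofReal A) :
    PerimeterLE G {y | t < u y} A := by
  have hev := frequently_lt_of_liminf_lt (by isBoundedDefault) hA
  obtain ⟨φ, hφ, hφA⟩ := extraction_of_frequently_atTop hev
  have hA0 : 0 ≤ A := by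
    by_contra hneg
    rw [ENNReal.ofReal_of_nonpos (le_of_not_ge hneg)] at hA
    exact not_lt_bot hA
  have hsupp : ∀ k, tsupport (fun z => stp k (u z - t)) ⊆ K := fun k => by
    refine (closure_mono fun y hy => ?_).trans hu.2.1
    simp only [Function.mem_support, stp] at hy ⊢
    exact fun h0 => hy (Real.smoothTransition.zero_of_nonpos
      (mul_nonpos_of_nonneg_of_nonpos (by positivity) (by rw [h0]; linarith)))
  refine ⟨K, fun j z => stp (φ j) (u z - t), hK, fun j =>
    ⟨(contDiff_stp _).comp (hu.1.sub contDiff_const), hsupp _⟩, ?_, fun j => ?_⟩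
  · have hm : MeasurableSet {y | t < u y} := measurableSet_lt measurable_const hu.1.continuous.measurable
    have hlim := tendsto_integral_of_dominated_convergence (K.indicator fun _ => (1 : ℝ))
      (F := fun j y => |stp (φ j) (u y - t) - {y | t < u y}.indicator (1 : (Fin n → ℝ) → ℝ) y|)
      (f := fun _ => (0 : ℝ))
      (fun j => ((((contDiff_stp _).continuous.comp
        (hu.1.continuous.sub continuous_const)).measurable.sub
          (measurable_one.indicator hm)).abs).aestronglyMeasurable)
      ((integrableOn_const (μ := volume) hK.measure_lt_top.ne).integrable_indicator hK.measurableSet)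
      (fun j => Eventually.of_forall fun y => ?_) (Eventually.of_forall fun y => ?_)
    · simpa using hlim
    · rw [Real.norm_eq_abs, abs_abs]
      by_cases hy : y ∈ K
      · rw [indicator_of_mem hy]
        have h1 := Real.smoothTransition.le_one (((φ j : ℝ) + 1) * (u y - t))
        have h2 := Real.smoothTransition.nonneg (((φ j : ℝ) + 1) * (u y - t))
        by_cases hm' : t < u y <;> simp [hm', stp, abs_le] <;> constructor <;> linarith
      · have h0 : u y = 0 := image_eq_zero_of_notMem_tsupport fun hs => hy (hu.2.1 hs)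
        rw [indicator_of_notMem hy]
        simp [h0, stp, not_lt.2 ht.le]
        positivity
    · by_cases hm' : t < u y
      · refine tendsto_const_nhds.congr' ?_
        obtain ⟨N, hN⟩ := exists_nat_ge (1 / (u y - t))
        filter_upwards [eventually_ge_atTop N] with j hj
        have h1 : (1 : ℝ) ≤ ((φ j : ℝ) + 1) * (u y - t) := by
          rw [div_le_iff₀ (by linarith)] at hN
          have : (N : ℝ) ≤ φ j := by exact_mod_cast hj.trans (hφ.id_le j)
          nlinarith
        simp [hm', stp, Real.smoothTransition.one_of_one_le h1]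
      · refine tendsto_const_nhds.congr' (Eventually.of_forall fun j => ?_)
        simp [hm', stp, Real.smoothTransition.zero_of_nonpos
          (mul_nonpos_of_nonneg_of_nonpos (by positivity : (0 : ℝ) ≤ (φ j : ℝ) + 1)
            (by linarith : u y - t ≤ 0))]
  · have e : (fun y => conorm G y (cd (fun z => stp (φ j) (u z - t)) y) * dens G y) =
        fun y => deriv (stp (φ j)) (u y - t) * (conorm G y (cd u y) * dens G y) := funext fun y => by
      rw [cd_stp_comp hu.1, h.conorm_smul, abs_of_nonneg (deriv_stp_nonneg _ _), mul_assoc]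
    have hc : Continuous fun y => deriv (stp (φ j)) (u y - t) :=
      (contDiff_stp _).continuous_deriv_one.comp (hu.1.continuous.sub continuous_const)
    rw [e, ← ENNReal.ofReal_le_ofReal_iff hA0,
      ofReal_integral_eq_lintegral_ofReal (h.integrable_mul_conorm hK hu hc)
        (Eventually.of_forall fun y => mul_nonneg (deriv_stp_nonneg _ _)
          (mul_nonneg (conorm_nonneg _ _) (h.dens_pos y).le))]
    refine le_trans (le_of_eq ?_) (hφA j).le
    exact lintegral_congr fun y => by rw [flux, ENNReal.ofReal_mul (deriv_stp_nonneg _ _)]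

lemma level_dev {a t : ℝ} (ha : a ∈ Icc (0 : ℝ) 1) :
    |(if t < a then (1 : ℝ) else 0) - a| = if t < a then 1 - a else a := by
  split_ifs
  · exact abs_of_nonneg (by linarith [ha.2])
  · rw [zero_sub, abs_neg, abs_of_nonneg ha.1]

lemma lintegral_dev_le {a : ℝ} (ha : a ∈ Icc (0 : ℝ) 1) :
    ∫⁻ t in Ioo (0 : ℝ) 1, ENNReal.ofReal |(if t < a then (1 : ℝ) else 0) - a| ≤
      ENNReal.ofReal (2 * (a * (1 - a))) := by
  have h1 : 0 ≤ 1 - a := by linarith [ha.2]
  calc ∫⁻ t in Ioo (0 : ℝ) 1, ENNReal.ofReal |(if t < a then (1 : ℝ) else 0) - a|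
      ≤ ∫⁻ t in Ioo (0 : ℝ) 1, ((Iio a).indicator (fun _ => ENNReal.ofReal (1 - a)) t +
          (Ici a).indicator (fun _ => ENNReal.ofReal a) t) := by
        refine lintegral_mono fun t => ?_
        rw [level_dev ha]
        by_cases ht : t < a <;> simp [ht, not_le.2, not_lt.1]
    _ = ENNReal.ofReal (1 - a) * volume (Ioo 0 a) + ENNReal.ofReal a * volume (Ico a 1 ∩ Ioi 0) := by
        rw [lintegral_add_left (measurable_const.indicator measurableSet_Iio),
          lintegral_indicator_const measurableSet_Iio, lintegral_indicator_const measurableSet_Ici,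
          Measure.restrict_apply measurableSet_Iio, Measure.restrict_apply measurableSet_Ici]
        congr 3 <;> ext t <;> simp only [mem_inter_iff, mem_Iio, mem_Ioo, mem_Ici, mem_Ico, mem_Ioi] <;>
          constructor <;> intro ht
        · exact ⟨ht.2.1, ht.1⟩
        · exact ⟨ht.2, ht.1, ht.2.trans_le ha.2⟩
        · exact ⟨⟨ht.1, ht.2.2⟩, ht.2.1⟩
        · exact ⟨ht.1.1, ht.2, ht.1.2⟩
    _ ≤ ENNReal.ofReal (1 - a) * ENNReal.ofReal (a - 0) + ENNReal.ofReal a * ENNReal.ofReal (1 - a) := by
        exact add_le_add (mul_le_mul' le_rfl (le_of_eq Real.volume_Ioo))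
          (mul_le_mul' le_rfl ((measure_mono inter_subset_left).trans_eq Real.volume_Ico))
    _ = _ := by
        rw [sub_zero, ← ENNReal.ofReal_mul h1, ← ENNReal.ofReal_mul ha.1,
          ← ENNReal.ofReal_add (mul_nonneg h1 ha.1) (mul_nonneg ha.1 h1)]
        congr 1
        ring

/-- `LevelPin`. -/
theorem levelPin (n : ℕ) : LevelPin n := by
  intro hn G D h L hL hset K u hK hu hV
  obtain ⟨α, hα⟩ : ∃ α : ℝ, α = ((n : ℝ) - 1) / n := ⟨_, rfl⟩
  rw [← hα] at hset ⊢
  have hn2 : (2 : ℝ) ≤ n := by exact_mod_cast hn
  have hα0 : 0 < α := by rw [hα]; exact div_pos (by linarith) (by linarith)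
  have hα1 : α ≤ 1 := by rw [hα, div_le_one (by linarith)]; linarith
  obtain ⟨V, hVd⟩ : ∃ V, V = vol G u := ⟨_, rfl⟩
  rw [← hVd] at hV ⊢
  have hper := h.per_nonneg u
  have hgap := h.gap_nonneg (G := G) hu.2.2
  have hp : 0 ≤ L * V ^ (α - 1) := mul_nonneg hL (Real.rpow_nonneg hV.le _)
  set If : ℝ → ℝ≥0∞ := fun t => liminf (fun k => ∫⁻ y, flux G u k t y) atTop
  set J : ℝ → ℝ≥0∞ := fun t => ∫⁻ y,
    ENNReal.ofReal (|(if t < u y then (1 : ℝ) else 0) - u y| * dens G y)
  have hfm : ∀ k, Measurable fun z : ℝ × (Fin n → ℝ) => flux G u k z.1 z.2 := fun k =>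
    (((contDiff_stp k).continuous_deriv_one.comp ((hu.1.continuous.comp continuous_snd).sub
      continuous_fst)).measurable.ennreal_ofReal).mul
        (((h.continuous_conorm_cd hu.1).mul h.continuous_dens).comp continuous_snd).measurable.ennreal_ofReal
  have hIfm : Measurable If := Measurable.liminf fun k => (hfm k).lintegral_prod_right'
  have hJm : Measurable fun z : ℝ × (Fin n → ℝ) =>
      ENNReal.ofReal (|(if z.1 < u z.2 then (1 : ℝ) else 0) - u z.2| * dens G z.2) :=
    ((((Measurable.ite (measurableSet_lt measurable_fst (hu.1.continuous.measurable.comp measurable_snd))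
      measurable_const measurable_const).sub (hu.1.continuous.measurable.comp measurable_snd)).abs).mul
        (h.continuous_dens.measurable.comp measurable_snd)).ennreal_ofReal
  have hpt : ∀ t ∈ Ioo (0 : ℝ) 1, ENNReal.ofReal (L * V ^ α) ≤
      If t + ENNReal.ofReal (L * V ^ (α - 1)) * J t := by
    intro t ht
    rcases eq_or_ne (If t) ∞ with he | he
    · simp [he]
    set S : Set (Fin n → ℝ) := {y | t < u y}
    have hSK : S ⊆ K := fun y hy => hu.2.1 (subset_tsupport _ (ne_of_gt (ht.1.trans hy)))
    have hSm : MeasurableSet S := measurableSet_lt measurable_const hu.1.continuous.measurable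
    have hsharp : L * volG G S ^ α ≤ (If t).toReal := by
      refine le_of_forall_pos_le_add fun ε hε => hset S _ hSm (hK.isBounded.subset hSK)
        (perimeterLE_level h hK hu ht.1 ?_)
      exact (ENNReal.lt_ofReal_iff_toReal_lt he).2 (by linarith)
    have hSi : Integrable (S.indicator (dens G)) :=
      ((h.continuous_dens.continuousOn.integrableOn_compact hK).mono_set hSK).integrable_indicator hSm
    have hfi : Integrable fun y => |(if t < u y then (1 : ℝ) else 0) - u y| * dens G y := by
      refine ((hSi.sub (hu.integrable hK h.continuous_dens)).abs).congr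
        (Eventually.of_forall fun y => ?_)
      by_cases hy : t < u y
      · simp only [S, Pi.sub_apply, indicator_of_mem (show y ∈ {y | t < u y} from hy), if_pos hy]
        rw [show dens G y - u y * dens G y = (1 - u y) * dens G y by ring, abs_mul,
          abs_of_pos (h.dens_pos y)]
      · simp only [S, Pi.sub_apply, indicator_of_notMem (show y ∉ {y | t < u y} from hy), if_neg hy]
        rw [show (0 : ℝ) - u y * dens G y = (0 - u y) * dens G y by ring, abs_mul,
          abs_of_pos (h.dens_pos y)]
    have hJ : |V - volG G S| ≤ ∫ y, |(if t < u y then (1 : ℝ) else 0) - u y| * dens G y := by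
      rw [hVd, vol, volG, ← integral_indicator hSm,
        ← integral_sub (hu.integrable hK h.continuous_dens) hSi]
      refine abs_integral_le_integral_abs.trans (le_of_eq (integral_congr_ae
        (Eventually.of_forall fun y => ?_)))
      by_cases hy : t < u y
      · simp only [S, indicator_of_mem (show y ∈ {y | t < u y} from hy), if_pos hy]
        rw [show u y * dens G y - dens G y = (u y - 1) * dens G y by ring, abs_mul, abs_sub_comm,
          abs_of_pos (h.dens_pos y)]
      · simp [S, hy, abs_mul, abs_of_pos (h.dens_pos y)]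
    have hW : 0 ≤ volG G S := setIntegral_nonneg hSm fun y _ => (h.dens_pos y).le
    have h1 := mul_le_mul_of_nonneg_left (rpow_ge_sub_abs hα0.le hα1 hV hW) hL
    have h2 := mul_le_mul_of_nonneg_left hJ hp
    calc ENNReal.ofReal (L * V ^ α) ≤ ENNReal.ofReal ((If t).toReal + L * V ^ (α - 1) *
          ∫ y, |(if t < u y then (1 : ℝ) else 0) - u y| * dens G y) :=
          ENNReal.ofReal_le_ofReal (by linarith)
      _ ≤ _ := by
          refine ENNReal.ofReal_add_le.trans (add_le_add (ENNReal.ofReal_toReal_le) (le_of_eq ?_))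
          rw [ENNReal.ofReal_mul hp, ofReal_integral_eq_lintegral_ofReal hfi
            (Eventually.of_forall fun y => mul_nonneg (abs_nonneg _) (h.dens_pos y).le)]
  have hint := setLIntegral_mono' (μ := (volume : Measure ℝ)) measurableSet_Ioo hpt
  rw [lintegral_const, Measure.restrict_apply_univ, Real.volume_Ioo, sub_zero, ENNReal.ofReal_one,
    mul_one, lintegral_add_left hIfm, lintegral_const_mul' _ _ ENNReal.ofReal_ne_top] at hint
  have hI : ∫⁻ t in Ioo (0 : ℝ) 1, If t ≤ ENNReal.ofReal (per G u) := by
    refine (lintegral_liminf_le fun k => (hfm k).lintegral_prod_right').trans ?_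
    refine liminf_le_of_frequently_le' (Frequently.of_forall fun k => ?_)
    rw [lintegral_lintegral_swap (hfm k).aemeasurable, per, ofReal_integral_eq_lintegral_ofReal
      (by simpa using h.integrable_mul_conorm hK hu (continuous_const (y := (1 : ℝ))))
      (Eventually.of_forall fun y => mul_nonneg (conorm_nonneg _ _) (h.dens_pos y).le)]
    refine lintegral_mono fun y => ?_
    simp only [flux]
    rw [lintegral_mul_const' _ _ ENNReal.ofReal_ne_top]
    exact mul_le_of_le_one_left' (lintegral_deriv_stp_le k (u y))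
  have hJ : ∫⁻ t in Ioo (0 : ℝ) 1, J t ≤ ENNReal.ofReal (2 * gap G u) := by
    rw [lintegral_lintegral_swap hJm.aemeasurable, gap, ← integral_const_mul,
      ofReal_integral_eq_lintegral_ofReal ((h.integrable_gap hK hu).const_mul 2)
        (Eventually.of_forall fun y => mul_nonneg zero_le_two (mul_nonneg (mul_nonneg (hu.2.2 y).1
          (by linarith [(hu.2.2 y).2])) (h.dens_pos y).le))]
    refine lintegral_mono fun y => ?_
    simp only [ENNReal.ofReal_mul (abs_nonneg _)]
    rw [lintegral_mul_const' _ _ ENNReal.ofReal_ne_top,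
      show 2 * (u y * (1 - u y) * dens G y) = 2 * (u y * (1 - u y)) * dens G y by ring,
      ENNReal.ofReal_mul (mul_nonneg zero_le_two
        (mul_nonneg (hu.2.2 y).1 (by linarith [(hu.2.2 y).2])))]
    exact mul_le_mul' (lintegral_dev_le (hu.2.2 y)) le_rfl
  have hfin := hint.trans (add_le_add hI (mul_le_mul' le_rfl hJ))
  rw [← ENNReal.ofReal_mul hp, ← ENNReal.ofReal_add hper (by positivity),
    ENNReal.ofReal_le_ofReal_iff (by positivity)] at hfin
  linarith

end Vale.Agent.P219.CH.Rigid
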