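import Vale.Agent.P219.Rigid.Centre
import Vale.Agent.P219.Rigid.Isometry

/-!
# P219: the equality case in dimension five
-/

noncomputable section

open MeasureTheory Set Filter Topology Matrix
open scoped ENNReal

namespace Vale.Agent.P219.CH.Rigid

lemma unit5_pos : 0 < Bend.unitBall 5 := by rw [Five.unitBall_five]; positivity

/-- The volume of a Euclidean ball, written with the dot product. -/
lemma volume_dot_le (r : ℝ) (hr : 0 ≤ r) :
    volume {z : (Fin 5 → ℝ) | z ⬝ᵥ z ≤ r ^ 2} = ENNReal.ofReal (r ^ 5 * Bend.unitBall 5) ∧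
      volume {z : (Fin 5 → ℝ) | z ⬝ᵥ z < r ^ 2} = ENNReal.ofReal (r ^ 5 * Bend.unitBall 5) := by
  have e : ∀ z : (Fin 5 → ℝ), z ⬝ᵥ z = ‖(WithLp.toLp 2 z : EuclideanSpace ℝ (Fin 5))‖ ^ 2 := fun z => by
    rw [EuclideanSpace.norm_sq_eq]
    simp [dotProduct, sq]
  have hb : volume (Metric.ball (0 : EuclideanSpace ℝ (Fin 5)) 1) =
      ENNReal.ofReal (Bend.unitBall 5) := by
    rw [Bend.unitBall, ENNReal.ofReal_toReal measure_ball_lt_top.ne]
  have hc : volume (Metric.closedBall (0 : EuclideanSpace ℝ (Fin 5)) r) =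
      ENNReal.ofReal (r ^ 5 * Bend.unitBall 5) := by
    rw [Measure.addHaar_closedBall volume _ hr, hb, ← ENNReal.ofReal_mul (by positivity)]
    simp
  have ho : volume (Metric.ball (0 : EuclideanSpace ℝ (Fin 5)) r) =
      ENNReal.ofReal (r ^ 5 * Bend.unitBall 5) := by
    rw [← Measure.addHaar_closedBall_eq_addHaar_ball, hc]
  refine ⟨?_, ?_⟩
  · rw [← hc, ← (PiLp.volume_preserving_toLp (Fin 5)).measure_preimage
      Metric.isClosed_closedBall.measurableSet.nullMeasurableSet]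
    congr 1
    ext z
    simp [e z, sq_le_sq₀ (norm_nonneg _) hr]
  · rw [← ho, ← (PiLp.volume_preserving_toLp (Fin 5)).measure_preimage
      Metric.isOpen_ball.measurableSet.nullMeasurableSet]
    congr 1
    ext z
    simp [e z, sq_lt_sq₀ (norm_nonneg _) hr]

/-- Equality holds only for sets isometric to Euclidean balls. -/
theorem rigidFive {G : (Fin 5 → ℝ) → Matrix (Fin 5) (Fin 5) ℝ} {D : (Fin 5 → ℝ) → (Fin 5 → ℝ) → ℝ} (h : IsCH G D)
    (Ω : Set (Fin 5 → ℝ)) (A : ℝ) (hΩ : MeasurableSet Ω) (hb : Bornology.IsBounded Ω)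
    (hA : PerimeterLE G Ω A) (hV : 0 < volG G Ω)
    (hAV : A ≤ 5 * Bend.unitBall 5 ^ ((1 : ℝ) / 5) * volG G Ω ^ ((4 : ℝ) / 5)) :
    ∃ (W : Set (Fin 5 → ℝ)) (Φ : (Fin 5 → ℝ) → (Fin 5 → ℝ)), IsOpen W ∧ ContDiff ℝ 1 Φ ∧ Function.Bijective Φ ∧
      Φ '' W = {z | z ⬝ᵥ z < (volG G Ω / Bend.unitBall 5) ^ ((2 : ℝ) / 5)} ∧
      (∀ x ∈ W, ∀ v, fderiv ℝ Φ x v ⬝ᵥ fderiv ℝ Φ x v = v ⬝ᵥ (G x *ᵥ v)) ∧
      Ω =ᵐ[volume] W ∧ (IsOpen Ω → interior (closure Ω) = Ω → Ω = W) := by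
  have hw := unit5_pos
  have hL : sharp5 = 5 * Bend.unitBall 5 ^ ((1 : ℝ) / 5) := by rw [sharp5, Five.unitBall_five]
  rw [← hL] at hAV
  obtain ⟨y, ξ, hξ, hae⟩ := centre G D h Ω A hΩ hb hA hV hAV
  obtain ⟨V, hVd⟩ : ∃ V, V = volG G Ω := ⟨_, rfl⟩
  rw [← hVd] at hV hae ⊢
  obtain ⟨r, hr⟩ : ∃ r, r = (V / Bend.unitBall 5) ^ ((1 : ℝ) / 5) := ⟨_, rfl⟩
  have hr0 : 0 < r := by rw [hr]; positivity
  have hr2 : (V / Bend.unitBall 5) ^ ((2 : ℝ) / 5) = r ^ 2 := by
    rw [hr, ← Real.rpow_natCast _ 2, ← Real.rpow_mul (by positivity)]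
    norm_num
  have hr5 : r ^ 5 * Bend.unitBall 5 = V := by
    rw [hr, ← Real.rpow_natCast _ 5, ← Real.rpow_mul (by positivity)]
    norm_num
    field_simp
  have hscale : sharp5 / 5 * V ^ (-(1 : ℝ) / 5) = r⁻¹ := by
    rw [hL, hr, Real.div_rpow hV.le hw.le, neg_div, Real.rpow_neg hV.le, inv_div, div_eq_mul_inv]
    ring
  rw [hscale] at hae
  rw [hr2]
  set a : (Fin 5 → ℝ) := r • (Sharp.frame G y *ᵥ ξ)
  set Φ := chart G D y a
  have hΦ : ContDiff ℝ 1 Φ := contDiff_chart h y a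
  have hbij : Function.Bijective Φ := chart_bijective h y a (Six.covector_bijective h y)
  have hdet : ∀ x, |(fderiv ℝ Φ x).det| = jfac G D x y * dens G x := abs_det_fderiv_chart h y a
  have hd0 : ∀ x, 0 < |(fderiv ℝ Φ x).det| := fun x => by
    rw [hdet]
    refine mul_pos (lt_of_le_of_ne (jfac_nonneg h x y) (Ne.symm ?_)) (h.dens_pos x)
    refine div_ne_zero (abs_ne_zero.2 fun h0 => ?_) (mul_pos (h.dens_pos x) (h.dens_pos y)).ne'
    rw [ContinuousLinearMap.det, LinearMap.det_eq_zero_iff_ker_ne_bot] at h0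
    exact h0 (LinearMap.ker_eq_bot.2 (Six.mixed_injective h x y))
  have hdf : ∀ s : Set (Fin 5 → ℝ), ∀ x ∈ s, HasFDerivWithinAt Φ (fderiv ℝ Φ x) s x := fun s x _ =>
    ((hΦ.differentiable one_ne_zero x).hasFDerivAt).hasFDerivWithinAt
  set W : Set (Fin 5 → ℝ) := Φ ⁻¹' {z | z ⬝ᵥ z < r ^ 2}
  set C : Set (Fin 5 → ℝ) := Φ ⁻¹' {z | z ⬝ᵥ z ≤ r ^ 2}
  have hdot : Continuous fun z : (Fin 5 → ℝ) => z ⬝ᵥ z := continuous_id.dotProduct continuous_id
  have hWo : IsOpen W := (isOpen_lt hdot continuous_const).preimage hΦ.continuous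
  have hCc : IsClosed C := (isClosed_le hdot continuous_const).preimage hΦ.continuous
  have hWC : W ⊆ C := fun x hx => le_of_lt (show Φ x ⬝ᵥ Φ x < r ^ 2 from hx)
  have himg : ∀ t : Set (Fin 5 → ℝ), Φ '' (Φ ⁻¹' t) = t := fun t =>
    Set.image_preimage_eq t hbij.2
  have hin : ∀ᵐ x ∂(volume.restrict Ω), x ∈ C ∧ jfac G D x y = 1 := by
    filter_upwards [hae] with x hx
    refine ⟨?_, hx.1⟩
    show Φ x ⬝ᵥ Φ x ≤ r ^ 2
    have hp : pairing G y ξ ξ = 1 := by rw [← h.conorm_sq, hξ, one_pow]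
    rw [dot_chart h, hp]
    have h2 := mul_le_mul_of_nonneg_left hx.2 hr0.le
    rw [← mul_assoc, mul_inv_cancel₀ hr0.ne', one_mul] at h2
    linarith
  -- the chart preserves the volume of `Ω`
  have hΩC : MeasurableSet (Ω ∩ C) := hΩ.inter hCc.measurableSet
  have hae0 : (Ω ∩ C : Set (Fin 5 → ℝ)) =ᵐ[volume] Ω := by
    rw [ae_eq_set]
    refine ⟨measure_mono_null (t := ∅) (fun x hx => (hx.2 hx.1.1).elim) measure_empty, ?_⟩
    have h0 := ae_iff.1 ((ae_restrict_iff' hΩ).1 hin)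
    refine measure_mono_null (fun x hx => ?_) h0
    exact fun hc => hx.2 ⟨hx.1, (hc hx.1).1⟩
  have hvolΩ : volume (Φ '' (Ω ∩ C)) = ENNReal.ofReal V := by
    rw [← lintegral_abs_det_fderiv_eq_addHaar_image volume hΩC (hdf _) hbij.1.injOn,
      setLIntegral_congr hae0, hVd, volG, ofReal_integral_eq_lintegral_ofReal
        ((h.continuous_dens.continuousOn.integrableOn_compact hb.isCompact_closure).mono_set
          subset_closure) (Eventually.of_forall fun x => (h.dens_pos x).le)]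
    refine lintegral_congr_ae (hin.mono fun x hx => ?_)
    simp only [hdet, hx.2, one_mul]
  have hvolC : volume (Φ '' C) = ENNReal.ofReal V := by
    rw [himg, (volume_dot_le r hr0.le).1, hr5]
  have hsub : Φ '' (Ω ∩ C) ⊆ Φ '' C := image_mono inter_subset_right
  have hnull : ∀ s : Set (Fin 5 → ℝ), MeasurableSet s → volume (Φ '' s) = 0 → volume s = 0 := by
    intro s hs hz
    rw [← lintegral_abs_det_fderiv_eq_addHaar_image volume hs (hdf _) hbij.1.injOn,
      lintegral_eq_zero_iff (show Measurable fun x => ENNReal.ofReal |(fderiv ℝ Φ x).det| from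
        (ContinuousLinearMap.continuous_det.comp
          (hΦ.continuous_fderiv one_ne_zero)).abs.measurable.ennreal_ofReal)] at hz
    have hf : ∀ᵐ x ∂(volume.restrict s), False := hz.mono fun x hx => by
      simp only [Pi.zero_apply, ENNReal.ofReal_eq_zero] at hx
      exact absurd (hd0 x) (not_lt.2 hx)
    rw [eventually_false_iff_eq_bot, ae_eq_bot, Measure.restrict_eq_zero] at hf
    exact hf
  have hCΩ : volume (C \ (Ω ∩ C)) = 0 := by
    refine hnull _ (hCc.measurableSet.diff hΩC) ?_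
    rw [image_sdiff hbij.1, measure_sdiff hsub
      (measurable_image_of_fderivWithin hΩC (hdf _) hbij.1.injOn).nullMeasurableSet
      (by rw [hvolΩ]; exact ENNReal.ofReal_ne_top), hvolC, hvolΩ, tsub_self]
  have hCW : volume (C \ W) = 0 := by
    refine hnull _ (hCc.measurableSet.diff hWo.measurableSet) ?_
    rw [image_sdiff hbij.1, himg, himg, measure_sdiff (show {z : (Fin 5 → ℝ) | z ⬝ᵥ z < r ^ 2} ⊆ {z | z ⬝ᵥ z ≤ r ^ 2} from fun z (hz : z ⬝ᵥ z < r ^ 2) => le_of_lt hz)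
      (isOpen_lt hdot continuous_const).measurableSet.nullMeasurableSet
      (by rw [(volume_dot_le r hr0.le).2]; exact ENNReal.ofReal_ne_top),
      (volume_dot_le r hr0.le).1, (volume_dot_le r hr0.le).2, tsub_self]
  have hWΩ : volume (W \ Ω) = 0 :=
    measure_mono_null (fun x hx => show x ∈ C \ (Ω ∩ C) from ⟨hWC hx.1, fun hc => hx.2 hc.1⟩) hCΩ
  have hΩW : volume (Ω \ W) = 0 := by
    refine measure_mono_null (t := (Ω \ (Ω ∩ C)) ∪ (C \ W)) (fun x hx => ?_)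
      (measure_union_null (ae_eq_set.1 hae0).2 hCW)
    by_cases hc : x ∈ C
    · exact Or.inr ⟨hc, hx.2⟩
    · exact Or.inl ⟨hx.1, fun hh => hc hh.2⟩
  have heq : Ω =ᵐ[volume] W := ae_eq_set.2 ⟨hΩW, hWΩ⟩
  have hj : EqOn (fun x => jfac G D x y) (fun _ => (1 : ℝ)) W := by
    refine Measure.eqOn_open_of_ae_eq (μ := (volume : Measure (Fin 5 → ℝ))) ?_ hWo
      ((continuous_jfac h).comp (continuous_id.prodMk continuous_const)).continuousOn
      continuousOn_const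
    rw [← Measure.restrict_congr_set heq]
    exact hin.mono fun x hx => hx.2
  refine ⟨W, Φ, hWo, hΦ, hbij, himg _, fun x hx v => chart_isometric h y a x (hj hx) v, heq, ?_⟩
  intro hΩo hreg
  refine Subset.antisymm ?_ ?_
  · -- every point of `Ω` lies in the open ball
    have hsubC : Ω ⊆ C := by
      intro x hx
      by_contra hxC
      have h0 : volume (Ω ∩ Cᶜ) = 0 :=
        measure_mono_null (fun z hz => show z ∈ Ω \ (Ω ∩ C) from ⟨hz.1, fun hh => hz.2 hh.2⟩)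
          (ae_eq_set.1 hae0).2
      exact (hΩo.inter hCc.isOpen_compl).measure_ne_zero volume ⟨x, hx, hxC⟩ h0
    intro x hx
    by_contra hxW
    have hn : Φ x ⬝ᵥ Φ x = r ^ 2 := le_antisymm (hsubC hx) (not_lt.1 hxW)
    -- leave the ball radially
    have hcont : Tendsto (fun t : ℝ => (1 + t) • Φ x) (𝓝[>] 0) (𝓝 (Φ x)) :=
      (Continuous.tendsto' (by fun_prop) _ _ (by simp)).mono_left nhdsWithin_le_nhds
    have hΦ0 : Φ '' Ω ∈ 𝓝 (Φ x) := by
      obtain ⟨L, hL⟩ : ∃ L : (Fin 5 → ℝ) ≃L[ℝ] (Fin 5 → ℝ), (L : (Fin 5 → ℝ) →L[ℝ] (Fin 5 → ℝ)) = fderiv ℝ Φ x := by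
        have hinj : Function.Injective (fderiv ℝ Φ x) := by
          refine (LinearMap.ker_eq_bot (f := (fderiv ℝ Φ x).toLinearMap)).1 ?_
          by_contra hk
          have := hd0 x
          rw [ContinuousLinearMap.det, LinearMap.det_eq_zero_iff_ker_ne_bot.2 hk, abs_zero] at this
          exact lt_irrefl _ this
        exact ⟨Six.Descent.equivOfInj _ hinj, Six.Descent.coe_equivOfInj _ hinj⟩
      have hstrict : HasStrictFDerivAt Φ (L : (Fin 5 → ℝ) →L[ℝ] (Fin 5 → ℝ)) x := by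
        rw [hL]; exact hΦ.contDiffAt.hasStrictFDerivAt one_ne_zero
      rw [← hstrict.map_nhds_eq_of_equiv]
      exact image_mem_map (hΩo.mem_nhds hx)
    obtain ⟨t, ⟨z, hz, hzt⟩, ht⟩ := ((hcont.eventually hΦ0).and self_mem_nhdsWithin).exists
    have hzC := hsubC hz
    have hzC' : Φ z ⬝ᵥ Φ z ≤ r ^ 2 := hzC
    rw [hzt, smul_dotProduct, dotProduct_smul, hn, smul_eq_mul, smul_eq_mul] at hzC'
    nlinarith [mul_pos ht (pow_pos hr0 2)]
  · rw [← hreg, hWo.subset_interior_iff]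
    intro x hx
    by_contra hxΩ
    have h0 : volume (W ∩ (closure Ω)ᶜ) = 0 :=
      measure_mono_null (fun z hz => show z ∈ W \ Ω from ⟨hz.1, fun hh => hz.2 (subset_closure hh)⟩)
        hWΩ
    exact (hWo.inter isClosed_closure.isOpen_compl).measure_ne_zero volume ⟨x, hx, hxΩ⟩ h0

end Vale.Agent.P219.CH.Rigid
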