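import Vale.Agent.P219.Rigid.StrictTools
import Vale.Agent.P219.Nine.Value

/-!
# P219: the certificate of dimension nine is strict
-/

noncomputable section

open Set Filter Topology

namespace Vale.Agent.P219.CH.Rigid.InNine

open Nine

/-- The limit kernel. -/
def limKer (q : ℝ × ℝ × ℝ) : ℝ :=
  (psi q.1 |q.2.1| |q.2.2| + psi q.1 |q.2.2| |q.2.1|) / 2200

theorem sym_pos {r c d : ℝ} (hr : 0 < r) (hc : 0 ≤ c) (hc1 : c ≤ 1) (hd : 0 ≤ d) (hd1 : d ≤ 1) :
    0 < symS r (c + d) (c * d) := by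
  obtain ⟨h0, h1⟩ := cosines_mem hc hc1 hd hd1
  have hlow := symS_low hr.le (show 0 ≤ c + d by linarith) (show c + d ≤ 2 by linarith)
  have hhigh := symS_high hr.le (show 0 ≤ c + d by linarith) (show c + d ≤ 2 by linarith)
  rcases eq_or_lt_of_le h0 with he | he
  · rw [← he]; exact hlow
  rcases eq_or_lt_of_le h1 with he' | he'
  · rw [he']; exact hhigh
  refine secant_pos (f := symS r (c + d))
    (S := (1628928 * r + 1745856 * r ^ 2 + 419328 * r ^ 3) *
      ((c * d - max 0 (c + d - 1)) * (((c + d) / 2) ^ 2 - c * d) *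
        (((c + d) / 2) ^ 2 - max 0 (c + d - 1))))
    he he' hlow.le hhigh.le
    (mul_pos (by positivity) (mul_pos (mul_pos (by linarith) (by linarith)) (by linarith)))
    (le_of_eq ?_)
  unfold symS
  ring

theorem limKer_pos {r c d : ℝ} (hr : 0 < r) (hc : |c| ≤ 1) (hd : |d| ≤ 1) :
    0 < limKer (r, c, d) := by
  refine div_pos (pos_of_mul_pos_right (a := r ^ 5 * (2 + r) ^ 4) ?_ (by positivity)) (by norm_num)
  rw [psi_sym hr]
  exact sym_pos hr (abs_nonneg c) hc (abs_nonneg d) hd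

theorem diagJ_pos {r t : ℝ} (hr : 0 < r) (ht : 0 ≤ t) (ht1 : t ≤ 1) : 0 < diagJ r t := by
  have p := fun k => pow_nonneg ht k
  have m0 : t ^ 1 ≤ t ^ 0 := step ht ht1 0
  have m1 : t ^ 2 ≤ t ^ 1 := step ht ht1 1
  have m2 : t ^ 3 ≤ t ^ 2 := step ht ht1 2
  have m3 : t ^ 4 ≤ t ^ 3 := step ht ht1 3
  have m4 : t ^ 5 ≤ t ^ 4 := step ht ht1 4
  have m5 : t ^ 6 ≤ t ^ 5 := step ht ht1 5
  have m6 : t ^ 7 ≤ t ^ 6 := step ht ht1 6
  unfold diagJ
  refine add_pos_of_nonneg_of_pos ?_ (mul_pos (pow_pos hr 10) (by positivity))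
  repeat' first
    | linarith [p 1, p 2, p 3, p 4, p 5, p 6, p 7, p 8, p 9]
    | exact pow_nonneg hr.le _
    | exact hr.le
    | refine mul_nonneg ?_ ?_
    | refine add_nonneg ?_ ?_

theorem diag_eq {r t : ℝ} (hr : 0 < r) (ht : 0 ≤ t) (ht1 : t ≤ 1)
    (h : lineF r (2 * t) (t ^ 2) = 0) : r = 2 * t := by
  have h1t : 0 < 1 + t := by linarith
  have h2r : 0 < 2 + r := by linarith
  have hx : lineF r (2 * t) (t ^ 2) * ((2 + r) ^ 4 * (1 + t) ^ 3) =
      (r - 2 * t) ^ 2 * diagJ r t := by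
    rw [show 2 * t = t + t by ring, show t ^ 2 = t * t by ring, lineF_eq ht ht]
    unfold symS aCoef diagJ
    field_simp
    ring
  rw [h, zero_mul] at hx
  have h2 := (mul_eq_zero.1 hx.symm).resolve_right (diagJ_pos hr ht ht1).ne'
  linarith [pow_eq_zero_iff two_ne_zero |>.1 h2]

/-- The penalty leaves only the corner on the edge. -/
theorem edge_eq {r c : ℝ} (hr : 0 < r) (hc : 0 < c) (hc1 : c ≤ 1)
    (h : lineF r (c + 1) c = 0) : r = 2 ∧ c = 1 := by
  have h1 := line_edge_one hr.le hc.le hc1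
  rw [h] at h1
  have hc0 : 1 - c = 0 := by
    by_contra hne
    have : 0 < 62500 * c ^ 2 * (1 - c) ^ 4 := by positivity
    linarith
  have hc2 : c = 1 := by linarith
  subst hc2
  norm_num at h
  refine ⟨?_, rfl⟩
  have := diag_eq hr zero_le_one le_rfl (by norm_num; exact h)
  linarith

theorem line_eq {r c d : ℝ} (hr : 0 < r) (hc : 0 < c) (hc1 : c ≤ 1) (hd : 0 < d) (hd1 : d ≤ 1)
    (h : lineF r (c + d) (c * d) = 0) : r = 2 * c := by
  rcases cosine_cases hc hc1 hd hd1 with he | he | he | ⟨h0, h1⟩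
  · subst he
    rw [show c + c = 2 * c by ring, show c * c = c ^ 2 by ring] at h
    exact diag_eq hr hc.le hc1 h
  · subst he
    rw [one_mul, add_comm 1 d] at h
    obtain ⟨h2, h3⟩ := edge_eq hr hd hd1 h
    linarith
  · subst he
    rw [mul_one] at h
    obtain ⟨h2, h3⟩ := edge_eq hr hc hc1 h
    linarith
  · exfalso
    obtain ⟨s, hs⟩ : ∃ s, s = c + d := ⟨_, rfl⟩
    rw [← hs] at h h0 h1
    obtain ⟨q0, hq0⟩ : ∃ z, z = max 0 (s - 1) := ⟨_, rfl⟩
    obtain ⟨q1, hq1⟩ : ∃ z, z = (s / 2) ^ 2 := ⟨_, rfl⟩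
    rw [← hq0] at h0
    rw [← hq1] at h1
    have hs0 : 0 ≤ s := by linarith
    have hs2 : s ≤ 2 := by linarith
    have hn : 0 ≤ q0 := hq0 ▸ le_max_left _ _
    obtain ⟨q, hq⟩ : ∃ q, q = c * d := ⟨_, rfl⟩
    rw [← hq] at h h0 h1
    obtain ⟨X, hX⟩ : ∃ X, X = (q - q0) * (q1 - q) * (q1 - q0) := ⟨_, rfl⟩
    have hX0 : 0 < X := hX ▸ mul_pos (mul_pos (by linarith) (by linarith)) (by linarith)
    have k1 : ((q1 - q) * symS r s q0 + (q - q0) * symS r s q1 +
        (1628928 * r + 1745856 * r ^ 2 + 419328 * r ^ 3) * X) * (r ^ 3 / (2 + r) ^ 4) =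
        (q1 - q0) * symS r s q * (r ^ 3 / (2 + r) ^ 4) := by
      congr 1
      rw [hX]
      unfold symS
      ring
    have k2 := hsum_secant s q0 q1 q
    have k3 := rsum_secant hs0 hn h0.le h1.le
    have k4 := mul_le_mul_of_nonneg_right (bend hs0 hs2 hq0 h0.le h1.le hq1) hX0.le
    have key : 0 < lineF r s q - 1000000 * q0 ^ 2 * (q - q1) ^ 2 := by
      refine secant_pos (f := fun z => lineF r s z - 1000000 * q0 ^ 2 * (z - q1) ^ 2)
        (S := (1628928 * r + 1745856 * r ^ 2 + 419328 * r ^ 3) * X * (r ^ 3 / (2 + r) ^ 4))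
        h0 h1 ?_ ?_ (mul_pos (mul_pos (by positivity) hX0) (by positivity)) ?_
      · have := lineF_low hr.le hs0 hs2
        rw [← hq0, ← hq1] at this
        linarith
      · have := lineF_high hr.le hs0 hs2
        rw [← hq1] at this
        simpa using this
      · rw [hX] at k1 k4 ⊢
        simp only [lineF]
        linear_combination k1 + k3 + k4 - k2
    rw [h] at key
    linarith [mul_nonneg (show 0 ≤ 1000000 * q0 ^ 2 by positivity) (sq_nonneg (q - q1))]

/-- The certificate is strict. -/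
theorem strict_nine : StrictCert 9 (fun c => aCoef |c| / 2200) (153 / 4) limKer := by
  have hKc : ContinuousOn limKer {q | 0 < q.1} := by
    unfold limKer psi dA dB wA wB
    intro q hq
    have h0 : 0 < q.1 := hq
    exact ContinuousAt.continuousWithinAt (by fun_prop (disch := positivity))
  have hac : Continuous fun c : ℝ => aCoef |c| / 2200 := by
    unfold aCoef
    exact ((Continuous.div (by fun_prop) (by fun_prop) fun c => by positivity)).div_const _
  have hcert : Gen.Cert 9 (fun c => aCoef |c| / 2200) (153 / 4) := by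
    refine ⟨cert_nine.b_nonneg, hac.measurable, fun c hc => ?_, ?_, ?_, fun ε T hε hT => ?_⟩
    · rw [abs_of_nonneg hc.1]; exact cert_nine.a_nonpos c hc
    · obtain ⟨B, hB⟩ := cert_nine.a_bounded
      exact ⟨B, fun c hc => by rw [abs_of_nonneg hc.1]; exact hB c hc⟩
    · refine Eq.trans ?_ cert_nine.value
      simp only [Gen.cmean]
      congr 1
      refine MeasureTheory.integral_congr_ae (Eventually.of_forall fun v => ?_)
      by_cases hv : v ∈ {v : Fin 9 → ℝ | 0 < v 0}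
      · simp only [Set.indicator_of_mem hv]
        rw [abs_of_nonneg (div_nonneg (le_of_lt hv) (Real.sqrt_nonneg _))]
      · simp only [Set.indicator_of_notMem hv]
    · obtain ⟨w, h1, h2, h3, h4⟩ := cert_nine.weight ε T hε hT
      refine ⟨w, h1, h2, h3, fun r c d hr hc hd => ?_⟩
      rw [abs_of_pos hc.1, abs_of_pos hd.1]
      exact h4 r c d hr hc hd
  have e6 : ∀ r c d : ℝ, 0 < r → symS r (|c| + |d|) (|c| * |d|) * (r ^ 3 / (2 + r) ^ 4) =
      2200 * (r ^ (9 - 1) * limKer (r, c, d)) := fun r c d hr => by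
    rw [← psi_sym hr]
    simp only [limKer]
    field_simp
    ring
  have hu : ∀ r c d, 0 < r → c ∈ Icc (-1 : ℝ) 1 → d ∈ Icc (-1 : ℝ) 1 →
      usedKer 9 (fun c => aCoef |c| / 2200) (153 / 4) 0 r c d ≤ limKer (r, c, d) ∧
        (usedKer 9 (fun c => aCoef |c| / 2200) (153 / 4) 0 r c d = limKer (r, c, d) → r = 2 * c) := by
    intro r c d hr hc hd
    refine used_of_line (by simp [aCoef]) hr
      (limKer_pos hr (abs_le.2 ⟨hc.1, hc.2⟩) (abs_le.2 ⟨hd.1, hd.2⟩)) (fun h1 h2 => ?_)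
      fun h1 h2 h => ?_
    · have e := e6 r c d hr
      rw [abs_of_pos h1, abs_of_pos h2] at e ⊢
      obtain ⟨a0, a1⟩ := cosines_mem h1.le hc.2 h2.le hd.2
      have := lineF_nonneg hr.le (by linarith) (by linarith [hc.2, hd.2]) a0 a1
      rw [lineF_eq h1.le h2.le] at this
      linarith
    · have e := e6 r c d hr
      rw [abs_of_pos h1, abs_of_pos h2] at e h
      refine line_eq hr h1 hc.2 h2 hd.2 ?_
      rw [lineF_eq h1.le h2.le]
      linarith
  refine ⟨hcert, hac, hKc, fun r c d hr hc hd => (hu r c d hr hc hd).1,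
    fun r c d hr hc hd => (hu r c d hr hc hd).2, fun ε T hε hT => ?_⟩
  obtain ⟨η₀, hη₀, hclose⟩ := exists_reg_close hKc hε T
  obtain ⟨C, hC⟩ : ∃ C, C = 2800000 * T ^ 8 + 2800000 + 673200 := ⟨_, rfl⟩
  have hT8 : 0 ≤ T ^ 8 := by positivity
  have hC0 : 0 < C := by rw [hC]; positivity
  obtain ⟨η, hη⟩ : ∃ η, η = min η₀ (min 1 (min (2200 * ε / C) (ε / 3000))) := ⟨_, rfl⟩
  have hη0 : 0 < η :=
    hη ▸ lt_min hη₀ (lt_min one_pos (lt_min (by positivity) (by positivity)))
  have hη1 : η ≤ 1 := hη ▸ (min_le_right _ _).trans (min_le_left _ _)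
  have hηC : η ≤ 2200 * ε / C :=
    hη ▸ (min_le_right _ _).trans ((min_le_right _ _).trans (min_le_left _ _))
  have hηε : η ≤ ε / 3000 :=
    hη ▸ (min_le_right _ _).trans ((min_le_right _ _).trans (min_le_right _ _))
  obtain ⟨hP, hF⟩ := weight_at (ε := ε) hη0 hη1 hT (hC ▸ (le_div_iff₀ hC0).1 hηC)
  refine ⟨weight η, contDiff_weight hη0.ne', fun p q hp hq => weight_pos hη0.ne' hp hq, hP,
    fun r c d hr hc hd => ?_, fun r c d hr hc hd => ?_⟩
  · rw [abs_of_pos hc.1, abs_of_pos hd.1]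
    exact hF r c d hr hc hd
  · have hc1 : |c| ≤ 1 := abs_le.2 ⟨hc.1, hc.2⟩
    have hd1 : |d| ≤ 1 := abs_le.2 ⟨hd.1, hd.2⟩
    have h := sym_ge hη0 hη1 (hε.le.trans hr.1) hc1 hd1
    have h2 := hclose η hη0 (hη ▸ min_le_left _ _) r c d hr hc hd
    simp only [limKer] at h2 ⊢
    have h3 : |c| * |d| ≤ 1 := mul_le_one₀ hc1 (abs_nonneg d) hd1
    have h4 := mul_le_mul_of_nonneg_left h3 (show 0 ≤ 2800000 * η by positivity)
    linarith

end Vale.Agent.P219.CH.Rigid.InNine
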