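import Vale.Agent.P219.Rigid.StrictTools
import Vale.Agent.P219.Seven.Value

/-!
# P219: the certificate of dimension seven is strict
-/

noncomputable section

open Set Filter Topology

namespace Vale.Agent.P219.CH.Rigid.InSeven

open Seven

/-- The limit kernel. -/
def limKer (q : ℝ × ℝ × ℝ) : ℝ :=
  (psi q.1 |q.2.1| |q.2.2| + psi q.1 |q.2.2| |q.2.1|) / 825

theorem poly_pos {r : ℝ} (hr : 0 ≤ r) :
    0 < 28608 + 21900 * r + 2100 * r ^ 2 - 18396 * r ^ 3 - 6636 * r ^ 4 + 4260 * r ^ 5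
      + 1650 * r ^ 6 := by
  have h := mul_nonneg (pow_nonneg hr 4) (sq_nonneg (r - 27 / 20))
  have h3 := mul_nonneg (pow_nonneg hr 3) (sq_nonneg (r - 27 / 20))
  have h2 := mul_nonneg (pow_nonneg hr 2) (sq_nonneg (r - 27 / 20))
  have h1 := mul_nonneg hr (sq_nonneg (r - 27 / 20))
  have h0 := sq_nonneg (r - 27 / 20)
  nlinarith [mul_nonneg hr (sq_nonneg (r - 5 / 2)), sq_nonneg (r - 5 / 2),
    mul_nonneg (sq_nonneg r) (sq_nonneg (r - 5 / 2))]

theorem edge_zero_pos {r c : ℝ} (hr : 0 ≤ r) (hc : 0 ≤ c) (hc1 : c ≤ 1) : 0 < symS r c 0 := by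
  have h1 : 0 ≤ 43560 - 29040 * c + 15912 * c ^ 2 := by nlinarith
  have h2 : 0 ≤ 44340 - 43560 * c + 11986 * c ^ 2 := by nlinarith
  have h3 : 0 ≤ 34878 - 35316 * c + 5199 * c ^ 2 := by nlinarith
  have h4 : 0 ≤ 23560 - 16038 * c + 940 * c ^ 2 := by nlinarith
  have h5 : 0 ≤ 9900 - 2820 * c := by linarith
  simp only [symS, zero_mul, mul_zero, sub_zero, add_zero, zero_pow two_ne_zero]
  positivity

theorem edge_one_pos {r c : ℝ} (hr : 0 ≤ r) (hc : 0 ≤ c) (hc1 : c ≤ 1) :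
    0 < symS r (c + 1) c := by
  have hc2 : c ^ 2 ≤ 1 := pow_le_one₀ hc hc1
  have e0 : 28608 ≤ 36192 - 4912 * c - 7584 * c ^ 2 + 4912 * c ^ 3 := by
    nlinarith [mul_nonneg hc (sub_nonneg.2 hc2)]
  have e1 : 21900 ≤ 30432 - 19080 * c + 13728 * c ^ 2 + 4776 * c ^ 3 := by
    nlinarith [sq_nonneg (c - 7 / 10), pow_nonneg hc 3]
  have e2 : 2100 ≤ 12766 - 30392 * c + 21674 * c ^ 2 + 1160 * c ^ 3 := by
    nlinarith [sq_nonneg (c - 7 / 10), pow_nonneg hc 3]
  have e3 : -18396 ≤ 4761 - 31836 * c + 8679 * c ^ 2 := by nlinarith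
  have e4 : -6636 ≤ 8462 - 16038 * c + 940 * c ^ 2 := by nlinarith
  have e5 : 4260 ≤ 7080 - 2820 * c := by linarith
  have := poly_pos hr
  have := mul_le_mul_of_nonneg_left e1 hr
  have := mul_le_mul_of_nonneg_left e2 (pow_nonneg hr 2)
  have := mul_le_mul_of_nonneg_left e3 (pow_nonneg hr 3)
  have := mul_le_mul_of_nonneg_left e4 (pow_nonneg hr 4)
  have := mul_le_mul_of_nonneg_left e5 (pow_nonneg hr 5)
  unfold symS
  linarith

theorem edge_diag_pos {r t : ℝ} (hr : 0 ≤ r) (ht : 0 ≤ t) (ht1 : t ≤ 1) :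
    0 < symS r (2 * t) (t ^ 2) := by
  have hx : t ^ 2 ≤ 1 := pow_le_one₀ ht ht1
  have e0 : 28608 ≤ 29040 + 4480 * t ^ 2 - 4912 * t ^ 4 := by
    nlinarith [mul_nonneg (sq_nonneg t) (sub_nonneg.2 hx)]
  have e1 : 21900 ≤ 43560 - 58080 * t + 22272 * t ^ 2 + 29472 * t ^ 3 - 7368 * t ^ 4 := by
    nlinarith [sq_nonneg (t - 649 / 1000), mul_nonneg ht (sq_nonneg (t - 649 / 1000)),
      mul_nonneg (mul_nonneg ht (sub_nonneg.2 ht1)) (sq_nonneg (t - 649 / 1000))]
  have e2 : 2100 ≤ 44340 - 87120 * t + 21652 * t ^ 2 + 28656 * t ^ 3 - 2320 * t ^ 4 := by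
    nlinarith [sq_nonneg (t - 81 / 100), mul_nonneg ht (sq_nonneg (t - 81 / 100)),
      mul_nonneg (sub_nonneg.2 ht1) (sq_nonneg (t - 81 / 100))]
  have e3 : -18396 ≤ 34878 - 70632 * t + 10398 * t ^ 2 + 6960 * t ^ 3 := by
    nlinarith [mul_nonneg (sub_nonneg.2 ht1) (mul_nonneg ht ht), mul_nonneg (sub_nonneg.2 ht1) ht]
  have e4 : -6636 ≤ 23560 - 32076 * t + 1880 * t ^ 2 := by nlinarith
  have e5 : 4260 ≤ 9900 - 5640 * t := by linarith
  have := poly_pos hr
  have := mul_le_mul_of_nonneg_left e1 hr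
  have := mul_le_mul_of_nonneg_left e2 (pow_nonneg hr 2)
  have := mul_le_mul_of_nonneg_left e3 (pow_nonneg hr 3)
  have := mul_le_mul_of_nonneg_left e4 (pow_nonneg hr 4)
  have := mul_le_mul_of_nonneg_left e5 (pow_nonneg hr 5)
  unfold symS
  linarith

theorem sym_pos {r c d : ℝ} (hr : 0 ≤ r) (hc : 0 ≤ c) (hc1 : c ≤ 1) (hd : 0 ≤ d) (hd1 : d ≤ 1) :
    0 < symS r (c + d) (c * d) := by
  obtain ⟨h0, h1⟩ := cosines_mem hc hc1 hd hd1
  obtain ⟨s, hs⟩ : ∃ s, s = c + d := ⟨_, rfl⟩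
  rw [← hs] at h0 h1 ⊢
  have hlow : 0 < symS r s (max 0 (s - 1)) := by
    rcases le_total s 1 with h | h
    · rw [max_eq_left (by linarith)]; exact edge_zero_pos hr (by linarith) h
    · rw [max_eq_right (by linarith)]
      simpa using edge_one_pos hr (c := s - 1) (by linarith) (by linarith)
  have hhigh : 0 < symS r s ((s / 2) ^ 2) := by
    simpa [mul_div_cancel₀] using edge_diag_pos hr (t := s / 2) (by linarith) (by linarith)
  rcases eq_or_lt_of_le h0 with he | he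
  · rw [← he]; exact hlow
  rcases eq_or_lt_of_le h1 with he' | he'
  · rw [he']; exact hhigh
  refine secant_pos (f := symS r s) (S := (24560 + 26472 * r + 6960 * r ^ 2) *
    ((c * d - max 0 (s - 1)) * ((s / 2) ^ 2 - c * d) * ((s / 2) ^ 2 - max 0 (s - 1))))
    he he' hlow.le hhigh.le
    (mul_pos (by positivity) (mul_pos (mul_pos (by linarith) (by linarith)) (by linarith)))
    (le_of_eq ?_)
  unfold symS
  ring

theorem limKer_pos {r c d : ℝ} (hr : 0 < r) (hc : |c| ≤ 1) (hd : |d| ≤ 1) :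
    0 < limKer (r, c, d) := by
  refine div_pos (pos_of_mul_pos_right (a := r ^ 3 * (2 + r) ^ 3) ?_ (by positivity)) (by norm_num)
  rw [psi_sym hr]
  exact sym_pos hr.le (abs_nonneg c) hc (abs_nonneg d) hd

theorem edgeB_lt {c : ℝ} (hc : 0 ≤ c) (hc1 : c ≤ 1) : edgeB c ^ 2 < 4 * edgeA c * 750000 := by
  obtain ⟨h0, h1⟩ := abs_le.1 (abs_edgeB_le hc hc1)
  have hA := edgeA_ge hc hc1
  have h4 : c ^ 4 ≤ c ^ 3 := pow_le_pow_of_le_one hc hc1 (by norm_num)
  have := pow_nonneg hc 3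
  have := sq_nonneg c
  nlinarith [sq_le_sq' h0 h1]

theorem edge_eq {r c : ℝ} (hr : 0 < r) (hc : 0 < c) (hc1 : c ≤ 1)
    (h : lineF r (c + 1) c = 0) : r = 2 ∧ c = 1 := by
  rcases le_total r (859 / 1000 + 2 / 3 * c) with h' | h'
  · exfalso
    have e := lineF_eq (r := r) hc.le zero_le_one
    rw [mul_one] at e
    rw [e] at h
    have h1 : aCoef 1 = -37452 := by norm_num [aCoef]
    have h2 := aCoef_le hc.le hc1
    have h3 : 0 < symS r (c + 1) c * (r ^ 3 / (2 + r) ^ 3) :=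
      mul_pos (edge_one_pos hr.le hc.le hc1) (by positivity)
    have h4 := mul_le_mul_of_nonneg_left h' hc.le
    rw [h1] at h
    linarith
  · obtain ⟨v, hv⟩ : ∃ v, r = 1 + c + v := ⟨r - 1 - c, by ring⟩
    subst hv
    have e := line_edge_expand hc.le (v := v) (by linarith)
    rw [h, zero_mul] at e
    have hA : 0 < edgeA c := by
      have := edgeA_ge hc.le hc1
      have := sq_nonneg c
      have := pow_nonneg hc.le 3
      linarith
    have hC := edgeSq_ge hc.le hc1 (show -(141 / 1000 + c / 3) ≤ v by linarith)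
    have hB : edgeB c ^ 2 < 4 * edgeA c * edgeSq v c :=
      (edgeB_lt hc.le hc1).trans_le (mul_le_mul_of_nonneg_left hC (by positivity))
    have key : (2 * edgeA c * (c - 1) + edgeB c * v) ^ 2 +
        (4 * edgeA c * edgeSq v c - edgeB c ^ 2) * v ^ 2 = 0 := by
      linear_combination (-(4 * edgeA c)) * e
    have h1 := (add_eq_zero_iff_of_nonneg (sq_nonneg _)
      (mul_nonneg (sub_nonneg.2 hB.le) (sq_nonneg v))).1 key
    have hv0 : v = 0 := pow_eq_zero_iff two_ne_zero |>.1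
      ((mul_eq_zero.1 h1.2).resolve_left (by linarith))
    have h3 := pow_eq_zero_iff two_ne_zero |>.1 h1.1
    rw [hv0, mul_zero, add_zero] at h3
    have hc0 := (mul_eq_zero.1 h3).resolve_left (by linarith)
    constructor <;> linarith

theorem line_eq {r c d : ℝ} (hr : 0 < r) (hc : 0 < c) (hc1 : c ≤ 1) (hd : 0 < d) (hd1 : d ≤ 1)
    (h : lineF r (c + d) (c * d) = 0) : r = 2 * c := by
  rcases cosine_cases hc hc1 hd hd1 with he | he | he | ⟨h0, h1⟩
  · subst he
    rw [show c + c = 2 * c by ring, show c * c = c ^ 2 by ring] at h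
    have h1t : 0 < 1 + c := by linarith
    have h2r : 0 < 2 + r := by linarith
    have hx : lineF r (2 * c) (c ^ 2) * ((2 + r) ^ 3 * (1 + c) ^ 2) =
        (r - 2 * c) ^ 2 * diagJ r c := by
      rw [show 2 * c = c + c by ring, show c ^ 2 = c * c by ring, lineF_eq hc.le hc.le]
      unfold symS aCoef diagJ
      field_simp
      ring
    rw [h, zero_mul] at hx
    have hJ : 0 < diagJ r c := by
      have : c ^ 2 ≤ 1 := pow_le_one₀ hc.le hc1
      have : 0 ≤ 29888 - 3200 * c := by linarith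
      have : 0 ≤ 41632 - 4800 * c := by linarith
      have : 0 ≤ 17616 - 2400 * c := by linarith
      have : 0 ≤ 1336 - 400 * c := by linarith
      have : 0 ≤ 5764 - 880 * c := by linarith
      have : 0 ≤ 24996 + 94 * c - 400 * c ^ 2 := by linarith
      unfold diagJ
      positivity
    have h2 := (mul_eq_zero.1 hx.symm).resolve_right hJ.ne'
    linarith [pow_eq_zero_iff two_ne_zero |>.1 h2]
  · subst he
    rw [one_mul, add_comm 1 d] at h
    obtain ⟨h2, h3⟩ := edge_eq hr hd hd1 h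
    linarith
  · subst he
    rw [mul_one] at h
    obtain ⟨h2, h3⟩ := edge_eq hr hc hc1 h
    linarith
  · exfalso
    obtain ⟨s, hs⟩ : ∃ s, s = c + d := ⟨_, rfl⟩
    rw [← hs] at h h0 h1
    obtain ⟨q0, hq0⟩ : ∃ z, z = max 0 (s - 1) := ⟨_, rfl⟩
    obtain ⟨q1, hq1⟩ : ∃ z, z = (s / 2) ^ 2 := ⟨_, rfl⟩
    rw [← hq0] at h0
    rw [← hq1] at h1
    have hs0 : 0 ≤ s := by linarith
    have hs2 : s ≤ 2 := by linarith
    have hn : 0 ≤ q0 := hq0 ▸ le_max_left _ _
    obtain ⟨q, hq⟩ : ∃ q, q = c * d := ⟨_, rfl⟩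
    rw [← hq] at h h0 h1
    obtain ⟨X, hX⟩ : ∃ X, X = (q - q0) * (q1 - q) * (q1 - q0) := ⟨_, rfl⟩
    have hX0 : 0 < X := hX ▸ mul_pos (mul_pos (by linarith) (by linarith)) (by linarith)
    obtain ⟨P, hP⟩ : ∃ P, P = (1 + s + (s / 2) ^ 2) ^ 3 := ⟨_, rfl⟩
    have hP0 : 0 < P := by rw [hP]; positivity
    have k2 := hsum_secant s q0 q1 q
    have k3 := rsum_secant hs0 hn h0.le h1.le hq1.le
    rw [← hX, ← hP] at k3
    rw [← hX] at k2
    have hb := bend hs0 hs2 (m := 1600 * (q0 + q1 + q)) (by linarith)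
    rw [← hP] at hb
    have k4 : (2176 - 27216 * s + 3200 * s ^ 2 - 1600 * (q0 + q1 + q)) * X ≤
        (2176 + 11472 * s + 3824 * s ^ 2) * X / P := by
      rw [le_div_iff₀ hP0]
      calc _ = (2176 - 27216 * s + 3200 * s ^ 2 - 1600 * (q0 + q1 + q)) * P * X := by ring
        _ ≤ _ := mul_le_mul_of_nonneg_right hb hX0.le
    have k5 : (q1 - q) * symS r s q0 + (q - q0) * symS r s q1 +
        (24560 + 26472 * r + 6960 * r ^ 2) * X = (q1 - q0) * symS r s q := by
      rw [hX]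
      unfold symS
      ring
    have k6 : ((q1 - q) * symS r s q0 + (q - q0) * symS r s q1 +
        (24560 + 26472 * r + 6960 * r ^ 2) * X) * (r ^ 3 / (2 + r) ^ 3) =
        (q1 - q0) * symS r s q * (r ^ 3 / (2 + r) ^ 3) := by rw [k5]
    refine (secant_pos (f := lineF r s)
      (S := (24560 + 26472 * r + 6960 * r ^ 2) * X * (r ^ 3 / (2 + r) ^ 3)) h0 h1
      (hq0 ▸ lineF_low hr.le hs0 hs2) (hq1 ▸ lineF_high hr.le hs0 hs2)
      (mul_pos (mul_pos (by positivity) hX0) (by positivity)) ?_).ne' h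
    unfold lineF
    linarith

/-- The certificate is strict. -/
theorem strict_seven : StrictCert 7 (fun c => aCoef |c| / 825) (132 / 5) limKer := by
  have hKc : ContinuousOn limKer {q | 0 < q.1} := by
    unfold limKer psi dA dB wA wB
    intro q hq
    have h0 : 0 < q.1 := hq
    exact ContinuousAt.continuousWithinAt (by fun_prop (disch := positivity))
  have hac : Continuous fun c : ℝ => aCoef |c| / 825 := by
    unfold aCoef
    exact ((Continuous.div (by fun_prop) (by fun_prop) fun c => by positivity)).div_const _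
  have hcert : Gen.Cert 7 (fun c => aCoef |c| / 825) (132 / 5) := by
    refine ⟨cert_seven.b_nonneg, hac.measurable, fun c hc => ?_, ?_, ?_, fun ε T hε hT => ?_⟩
    · rw [abs_of_nonneg hc.1]; exact cert_seven.a_nonpos c hc
    · obtain ⟨B, hB⟩ := cert_seven.a_bounded
      exact ⟨B, fun c hc => by rw [abs_of_nonneg hc.1]; exact hB c hc⟩
    · refine Eq.trans ?_ cert_seven.value
      simp only [Gen.cmean]
      congr 1
      refine MeasureTheory.integral_congr_ae (Eventually.of_forall fun v => ?_)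
      by_cases hv : v ∈ {v : Fin 7 → ℝ | 0 < v 0}
      · simp only [Set.indicator_of_mem hv]
        rw [abs_of_nonneg (div_nonneg (le_of_lt hv) (Real.sqrt_nonneg _))]
      · simp only [Set.indicator_of_notMem hv]
    · obtain ⟨w, h1, h2, h3, h4⟩ := cert_seven.weight ε T hε hT
      refine ⟨w, h1, h2, h3, fun r c d hr hc hd => ?_⟩
      rw [abs_of_pos hc.1, abs_of_pos hd.1]
      exact h4 r c d hr hc hd
  have e6 : ∀ r c d : ℝ, 0 < r → symS r (|c| + |d|) (|c| * |d|) * (r ^ 3 / (2 + r) ^ 3) =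
      825 * (r ^ (7 - 1) * limKer (r, c, d)) := fun r c d hr => by
    rw [← psi_sym hr]
    simp only [limKer]
    field_simp
    ring
  have hu : ∀ r c d, 0 < r → c ∈ Icc (-1 : ℝ) 1 → d ∈ Icc (-1 : ℝ) 1 →
      usedKer 7 (fun c => aCoef |c| / 825) (132 / 5) 0 r c d ≤ limKer (r, c, d) ∧
        (usedKer 7 (fun c => aCoef |c| / 825) (132 / 5) 0 r c d = limKer (r, c, d) → r = 2 * c) := by
    intro r c d hr hc hd
    refine used_of_line (by simp [aCoef]) hr
      (limKer_pos hr (abs_le.2 ⟨hc.1, hc.2⟩) (abs_le.2 ⟨hd.1, hd.2⟩)) (fun h1 h2 => ?_)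
      fun h1 h2 h => ?_
    · have e := e6 r c d hr
      rw [abs_of_pos h1, abs_of_pos h2] at e ⊢
      obtain ⟨a0, a1⟩ := cosines_mem h1.le hc.2 h2.le hd.2
      have := lineF_nonneg hr.le (by linarith) (by linarith [hc.2, hd.2]) a0 a1
      rw [lineF_eq h1.le h2.le] at this
      linarith
    · have e := e6 r c d hr
      rw [abs_of_pos h1, abs_of_pos h2] at e h
      refine line_eq hr h1 hc.2 h2 hd.2 ?_
      rw [lineF_eq h1.le h2.le]
      linarith
  refine ⟨hcert, hac, hKc, fun r c d hr hc hd => (hu r c d hr hc hd).1,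
    fun r c d hr hc hd => (hu r c d hr hc hd).2, fun ε T hε hT => ?_⟩
  obtain ⟨η₀, hη₀, hclose⟩ := exists_reg_close hKc hε T
  obtain ⟨C, hC⟩ : ∃ C, C = 2412 * T ^ 6 + 2412 + 130680 := ⟨_, rfl⟩
  have hT6 : 0 ≤ T ^ 6 := by positivity
  have hC0 : 0 < C := by rw [hC]; positivity
  obtain ⟨η, hη⟩ : ∃ η, η = min η₀ (min 1 (min (825 * ε / C) (ε / 1000))) := ⟨_, rfl⟩
  have hη0 : 0 < η :=
    hη ▸ lt_min hη₀ (lt_min one_pos (lt_min (by positivity) (by positivity)))
  have hη1 : η ≤ 1 := hη ▸ (min_le_right _ _).trans (min_le_left _ _)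
  have hηC : η ≤ 825 * ε / C :=
    hη ▸ (min_le_right _ _).trans ((min_le_right _ _).trans (min_le_left _ _))
  have hηε : η ≤ ε / 1000 :=
    hη ▸ (min_le_right _ _).trans ((min_le_right _ _).trans (min_le_right _ _))
  obtain ⟨hP, hF⟩ := weight_at (ε := ε) hη0 hη1 hT (hC ▸ (le_div_iff₀ hC0).1 hηC)
  refine ⟨weight η, contDiff_weight hη0.ne', fun p q hp hq => weight_pos hη0.ne' hp hq, hP,
    fun r c d hr hc hd => ?_, fun r c d hr hc hd => ?_⟩
  · rw [abs_of_pos hc.1, abs_of_pos hd.1]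
    exact hF r c d hr hc hd
  · have hc1 : |c| ≤ 1 := abs_le.2 ⟨hc.1, hc.2⟩
    have hd1 : |d| ≤ 1 := abs_le.2 ⟨hd.1, hd.2⟩
    have h := sym_ge hη0 hη1 (hε.le.trans hr.1) hc1 hd1
    have h2 := hclose η hη0 (hη ▸ min_le_left _ _) r c d hr hc hd
    simp only [limKer] at h2 ⊢
    have h3 : |c| * |d| ≤ 1 := mul_le_one₀ hc1 (abs_nonneg d) hd1
    have h4 := mul_le_mul_of_nonneg_left h3 (show 0 ≤ 2412 * η by positivity)
    linarith

end Vale.Agent.P219.CH.Rigid.InSeven
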