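import Vale.Agent.P219.Rigid.StrictTools
import Vale.Agent.P219.Six.Poly
import Vale.Agent.P219.Eight.Value

/-!
# P219: the certificate of dimension six is strict

The weight is a multiple of the reciprocal of the regularised squared distance; its pair kernel is
`2 / 17` times `Six.pairKer`.
-/

noncomputable section

open MeasureTheory Set Filter Topology

namespace Vale.Agent.P219.CH.Rigid.InSix

open Eight (rho2 rho2_pos rho2_of_gt contDiff_rho2)

/-- The weight. -/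
def weight (η : ℝ) (z : ℝ × ℝ) : ℝ := 10 / 17 / rho2 η z.1

theorem contDiff_weight {η : ℝ} (hη : η ≠ 0) : ContDiff ℝ 1 (weight η) :=
  contDiff_const.div ((contDiff_rho2 η).comp contDiff_fst) fun _ => (rho2_pos hη _).ne'

theorem fderiv_weight {η : ℝ} (hη : η ≠ 0) {p : ℝ} (hp : 0 ≤ p) (q : ℝ) :
    Dir.wa (weight η) (p, q) = -(20 / 17) / (η ^ 2 + 2 * p) ^ 2 ∧
      Dir.wb (weight η) (p, q) = 0 := by
  have h2 : 0 < η ^ 2 := by positivity
  have hd : HasFDerivAt (weight η) (fderiv ℝ (weight η) (p, q)) (p, q) :=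
    ((contDiff_weight hη).differentiable one_ne_zero _).hasFDerivAt
  constructor
  · have h1 : HasDerivAt (fun t => weight η (t, q)) (Dir.wa (weight η) (p, q)) p :=
      hd.comp_hasDerivAt_of_eq p ((hasDerivAt_id p).prodMk (hasDerivAt_const p q)) rfl
    refine h1.unique ?_
    have hl : HasDerivAt (fun t : ℝ => η ^ 2 + 2 * t) 2 p := by
      simpa using ((hasDerivAt_id p).const_mul (2 : ℝ)).const_add (η ^ 2)
    have hf : HasDerivAt (fun t : ℝ => 10 / 17 / (η ^ 2 + 2 * t)) _ p :=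
      (hasDerivAt_const p (10 / 17 : ℝ)).div hl (by positivity)
    refine (hf.congr_deriv ?_).congr_of_eventuallyEq ?_
    · ring
    · filter_upwards [lt_mem_nhds (show -(η ^ 2 / 4) < p by linarith)] with t ht
      simp only [weight, rho2_of_gt hη ht.le]
  · have h1 : HasDerivAt (fun t => weight η (p, t)) (Dir.wb (weight η) (p, q)) q :=
      hd.comp_hasDerivAt_of_eq q ((hasDerivAt_const q p).prodMk (hasDerivAt_id q)) rfl
    exact h1.unique (hasDerivAt_const q (10 / 17 / rho2 η p))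

/-- The limit kernel. -/
def limKer (q : ℝ × ℝ × ℝ) : ℝ := 2 / 17 * Six.pairKer q.1 |q.2.1| |q.2.2|

theorem sym_ge {η r c d : ℝ} (hη : 0 < η) (hr : 0 ≤ r) (hd : |d| ≤ 1) (hc : |c| ≤ 1) :
    limKer (Real.sqrt (r ^ 2 + η ^ 2), c, d) ≤ Gen.sym 6 (weight η) r c d := by
  obtain ⟨ρ, hρ⟩ : ∃ ρ, ρ = Real.sqrt (r ^ 2 + η ^ 2) := ⟨_, rfl⟩
  rw [← hρ]
  have hρ0 : 0 < ρ := hρ ▸ Real.sqrt_pos.2 (by positivity)
  have hρ2 : ρ ^ 2 = r ^ 2 + η ^ 2 := hρ ▸ Real.sq_sqrt (by positivity)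
  have hrρ : r ≤ ρ := hρ ▸ Real.le_sqrt_of_sq_le (by nlinarith)
  have hk : ∀ x e : ℝ, |e| ≤ 1 →
      10 / 17 * ((3 + 2 * |e| ^ 2) / ρ ^ 2 - 5 * |e| / ρ) ≤
        Dir.kern 6 (((6 : ℕ) : ℝ) - 1) (weight η) (r ^ 2 / 2) x e := by
    intro x e he
    obtain ⟨wA, wB⟩ := fderiv_weight hη.ne' (show 0 ≤ r ^ 2 / 2 by positivity) x
    have hw : weight η (r ^ 2 / 2, x) = 10 / 17 / ρ ^ 2 := by
      simp only [weight, rho2_of_gt hη.ne' (show -(η ^ 2 / 4) ≤ r ^ 2 / 2 by nlinarith), hρ2]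
      ring
    have e3 : Real.sqrt (2 * (r ^ 2 / 2)) = r := by
      rw [show 2 * (r ^ 2 / 2) = r ^ 2 by ring, Real.sqrt_sq hr]
    rw [show η ^ 2 + 2 * (r ^ 2 / 2) = ρ ^ 2 by rw [hρ2]; ring] at wA
    simp only [Dir.kern, wA, wB, hw, e3, mul_zero, add_zero, abs_zero, zero_mul, sub_zero]
    have he2 : 0 ≤ 1 - e ^ 2 := by
      rw [← sq_abs]; exact sub_nonneg.2 (pow_le_one₀ (abs_nonneg e) he)
    obtain ⟨m, hm⟩ : ∃ m, m = max e 0 := ⟨_, rfl⟩
    have hm1 : m ≤ |e| := hm ▸ max_le (le_abs_self e) (abs_nonneg e)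
    rw [← hm, sq_abs]
    refine le_of_mul_le_mul_right ?_ (pow_pos hρ0 4)
    have a1 := mul_le_mul_of_nonneg_left (show r ^ 2 ≤ ρ ^ 2 by rw [hρ2]; nlinarith)
      (mul_nonneg (by norm_num : (0 : ℝ) ≤ 20 / 17) he2)
    have a2 := mul_le_mul hrρ hm1 (hm ▸ le_max_right e 0) hρ0.le
    have a3 := mul_le_mul_of_nonneg_left a2 (show 0 ≤ 50 / 17 * ρ ^ 2 by positivity)
    push_cast
    field_simp
    nlinarith [a1, a3]
  have h1 := hk (r * c) d hd
  have h2 := hk (r * d) c hc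
  rw [Gen.sym, limKer, Six.pairKer]
  refine le_trans (le_of_eq ?_) (add_le_add (add_le_add le_rfl h1) h2)
  field_simp
  ring

theorem limKer_pos {r c d : ℝ} (hr : 0 < r) (hc : |c| ≤ 1) (hd : |d| ≤ 1) :
    0 < limKer (r, c, d) := by
  simp only [limKer, Six.pairKer]
  have e : (17 - 25 * (|c| + |d|) / r + (30 + 10 * (|c| ^ 2 + |d| ^ 2)) / r ^ 2) =
      (17 * r ^ 2 - 25 * (|c| + |d|) * r + (30 + 10 * (|c| ^ 2 + |d| ^ 2))) / r ^ 2 := by
    field_simp
  rw [e]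
  refine mul_pos (by norm_num) (div_pos ?_ (by positivity))
  nlinarith [sq_nonneg (34 * r - 25 * (|c| + |d|)), sq_nonneg (|c| - |d|),
    mul_self_le_mul_self (abs_nonneg c) hc, mul_self_le_mul_self (abs_nonneg d) hd]

/-- The coefficient of the marginal terms. -/
def aCoef (t : ℝ) : ℝ := -(480 / 17) * t ^ 2 - 96 / 17 * t ^ 4

theorem line {r c d : ℝ} (hr : 0 < r) (hc : 0 ≤ c) (hd : 0 ≤ d) :
    aCoef c * d + aCoef d * c + 2 * (360 / 17) * c * d * r ≤ r ^ 5 * limKer (r, c, d) := by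
  have := Six.polyPin r c d hr hc hd
  simp only [limKer, abs_of_nonneg hc, abs_of_nonneg hd, aCoef]
  linarith

/-- Equality in the line inequality forces `r = 2 c`. -/
theorem line_eq {r c d : ℝ} (hr : 0 < r) (hc : 0 < c) (hd : 0 < d)
    (h : aCoef c * d + aCoef d * c + 2 * (360 / 17) * c * d * r = r ^ 5 * limKer (r, c, d)) :
    r = 2 * c := by
  simp only [limKer, abs_of_nonneg hc.le, abs_of_nonneg hd.le, aCoef] at h
  have hcd : 0 < c * d := mul_pos hc hd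
  have e : r ^ 5 * Six.pairKer r c d =
      17 * r ^ 5 - 25 * (c + d) * r ^ 4 + (30 + 10 * (c ^ 2 + d ^ 2)) * r ^ 3 := by
    unfold Six.pairKer
    field_simp
  have heq : 17 * r ^ 5 - 25 * (c + d) * r ^ 4 + (30 + 10 * (c ^ 2 + d ^ 2)) * r ^ 3 =
      360 * c * d * r - 240 * (c * d) * (c + d) - 48 * (c * d) * (c ^ 3 + d ^ 3) := by
    rw [← e]; linarith
  obtain ⟨t, ht⟩ : ∃ t, t = Real.sqrt (c * d) := ⟨_, rfl⟩
  have hs := Real.sq_sqrt hcd.le
  have ht0 : 0 < t := ht ▸ Real.sqrt_pos.2 hcd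
  rw [← ht] at hs
  have hcs : 2 * t ≤ c + d := by nlinarith [sq_nonneg (c - d)]
  have A : 0 ≤ 30 * (r - 2 * t) ^ 2 * (r + 4 * t) := by positivity
  have B : 0 ≤ 240 * (c * d) * (c + d - 2 * t) := mul_nonneg (by positivity) (sub_nonneg.2 hcs)
  have h3 : 30 * r ^ 3 - 360 * c * d * r + 240 * (c * d) * (c + d) =
      30 * (r - 2 * t) ^ 2 * (r + 4 * t) + 240 * (c * d) * (c + d - 2 * t) := by
    linear_combination (360 * r - 480 * t) * hs
  have h5 : 0 ≤ 17 * r ^ 5 - 25 * (c + d) * r ^ 4 + 10 * (c ^ 2 + d ^ 2) * r ^ 3 +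
      48 * (c * d) * (c ^ 3 + d ^ 3) := by
    obtain ⟨s, hs'⟩ : ∃ s, s = c + d := ⟨_, rfl⟩
    have hs0 : 0 < s := by rw [hs']; linarith
    have f0 : 0 ≤ r ^ 3 * (17 * r ^ 2 - 25 * r * s + 10 * s ^ 2) :=
      mul_nonneg (pow_nonneg hr.le 3) (by nlinarith [sq_nonneg (34 * r - 25 * s)])
    have f1 : 0 ≤ (r - s) ^ 2 * (17 * r ^ 3 + 9 * r ^ 2 * s + 6 * r * s ^ 2 + 3 * s ^ 3) := by
      positivity
    have hp : 4 * (c * d) ≤ s ^ 2 := by rw [hs']; nlinarith [sq_nonneg (c - d)]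
    have key : s ^ 2 * (17 * r ^ 5 - 25 * (c + d) * r ^ 4 + 10 * (c ^ 2 + d ^ 2) * r ^ 3 +
        48 * (c * d) * (c ^ 3 + d ^ 3)) =
        (s ^ 2 - 4 * (c * d)) * (r ^ 3 * (17 * r ^ 2 - 25 * r * s + 10 * s ^ 2)) +
        4 * (c * d) * ((r - s) ^ 2 * (17 * r ^ 3 + 9 * r ^ 2 * s + 6 * r * s ^ 2 + 3 * s ^ 3)) +
        36 * s ^ 3 * (c * d) * (s ^ 2 - 4 * (c * d)) := by
      rw [hs']; ring
    refine nonneg_of_mul_nonneg_right (a := s ^ 2) ?_ (by positivity)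
    rw [key]
    have := sub_nonneg.2 hp
    positivity
  have hA : 30 * (r - 2 * t) ^ 2 * (r + 4 * t) = 0 := by linarith
  have hB : 240 * (c * d) * (c + d - 2 * t) = 0 := by linarith
  have h2t : r = 2 * t := by
    have hne : 30 * (r + 4 * t) ≠ 0 := by positivity
    have : (r - 2 * t) ^ 2 * (30 * (r + 4 * t)) = 0 := by linarith
    have h0 := (mul_eq_zero.1 this).resolve_right hne
    linarith [pow_eq_zero_iff two_ne_zero |>.1 h0]
  have hsum : c + d = 2 * t := by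
    have h0 := (mul_eq_zero.1 hB).resolve_left (by positivity)
    linarith
  have hd' : d = 2 * t - c := by linarith
  have hct : (c - t) ^ 2 = 0 := by
    rw [hd'] at hs
    nlinarith [hs]
  have := pow_eq_zero_iff two_ne_zero |>.1 hct
  linarith

/-- The mean of the marginal coefficient is the excess of the volume coefficient. -/
theorem value_six :
    Gen.cmean 6 (fun c => -aCoef c) = (360 / 17) / ((6 : ℕ) : ℝ) - 1 := by
  have h2 := Gen.Cosine.axis_two (n := 6)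
  have h4 := Gen.Cosine.axis_four (n := 6)
  push_cast at h2 h4
  have hm := Gen.Cosine.mass_pos (n := 6)
  have c2 := Gen.Cosine.cmean_pow (n := 6) even_two two_ne_zero
  have c4 := Gen.Cosine.cmean_pow (n := 6) (k := 4) (by decide) (by norm_num)
  have e : Gen.cmean 6 (fun c => -aCoef c) = 480 / 17 * Gen.cmean 6 (fun c => c ^ 2) +
      96 / 17 * Gen.cmean 6 (fun c => c ^ 4) := by
    have i2 := Eight.integrable_cosine (n := 6) (g := fun c => c ^ 2) (by fun_prop)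
    have i4 := Eight.integrable_cosine (n := 6) (g := fun c => c ^ 4) (by fun_prop)
    simp only [Gen.cmean]
    rw [← mul_div_assoc, ← mul_div_assoc, ← add_div, ← integral_const_mul, ← integral_const_mul,
      ← integral_add (i2.const_mul _) (i4.const_mul _)]
    congr 1
    refine integral_congr_ae (Eventually.of_forall fun v => ?_)
    by_cases hv : v ∈ {v : Fin 6 → ℝ | 0 < v 0}
    · simp only [Set.indicator_of_mem hv, aCoef]
      ring
    · simp only [Set.indicator_of_notMem hv]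
      ring
  rw [e, c2, c4]
  push_cast
  field_simp
  linarith

theorem weight_clauses {ε T : ℝ} (hε : 0 < ε) :
    ∃ w : ℝ × ℝ → ℝ, ContDiff ℝ 1 w ∧ (∀ p q, 0 ≤ p → q ^ 2 ≤ 2 * p → 0 < w (p, q)) ∧
      (∀ r c d, r ∈ Icc 0 T → c ∈ Icc (-1 : ℝ) 1 → d ∈ Icc (-1 : ℝ) 1 →
        -ε ≤ Gen.sym 6 w r c d) ∧
      (∀ r c d, r ∈ Ioc 0 T → c ∈ Ioc (0 : ℝ) 1 → d ∈ Ioc (0 : ℝ) 1 →
        aCoef c * d + aCoef d * c + 2 * (360 / 17) * c * d * r - ε * (c * d) ≤
          r ^ (6 - 1) * Gen.sym 6 w r c d) ∧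
      ∀ r c d, r ∈ Icc ε T → c ∈ Icc (-1 : ℝ) 1 → d ∈ Icc (-1 : ℝ) 1 →
        limKer (r, c, d) - ε ≤ Gen.sym 6 w r c d := by
  have hKc : ContinuousOn limKer {q | 0 < q.1} := by
    unfold limKer Six.pairKer
    exact ContinuousOn.mul continuousOn_const (((continuousOn_const.sub ((by fun_prop :
      ContinuousOn (fun q : ℝ × ℝ × ℝ => 25 * (|q.2.1| + |q.2.2|)) {q | 0 < q.1}).div
        continuousOn_fst fun q hq => hq.ne')).add ((by fun_prop : ContinuousOn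
      (fun q : ℝ × ℝ × ℝ => 30 + 10 * (|q.2.1| ^ 2 + |q.2.2| ^ 2)) {q | 0 < q.1}).div
        (continuousOn_fst.pow 2) fun q hq => pow_ne_zero 2 hq.ne')))
  obtain ⟨η₀, hη₀, hclose⟩ := exists_reg_close hKc hε T
  obtain ⟨η, hη⟩ : ∃ η, η = min η₀ (ε / 100) := ⟨_, rfl⟩
  have hη0 : 0 < η := hη ▸ lt_min hη₀ (by positivity)
  have hηε : η ≤ ε / 100 := hη ▸ min_le_right _ _
  refine ⟨weight η, contDiff_weight hη0.ne', fun p q _ _ => div_pos (by norm_num)
    (rho2_pos hη0.ne' _), ?_, ?_, ?_⟩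
  · intro r c d hr hc hd
    have h := sym_ge hη0 hr.1 (abs_le.2 ⟨hd.1, hd.2⟩) (abs_le.2 ⟨hc.1, hc.2⟩)
    have h0 := limKer_pos (r := Real.sqrt (r ^ 2 + η ^ 2)) (Real.sqrt_pos.2 (by positivity))
      (abs_le.2 ⟨hc.1, hc.2⟩) (abs_le.2 ⟨hd.1, hd.2⟩)
    linarith
  · intro r c d hr hc hd
    obtain ⟨ρ, hρ⟩ : ∃ ρ, ρ = Real.sqrt (r ^ 2 + η ^ 2) := ⟨_, rfl⟩
    have hρ0 : 0 < ρ := hρ ▸ Real.sqrt_pos.2 (by positivity)
    have hρ2 : ρ ^ 2 = r ^ 2 + η ^ 2 := hρ ▸ Real.sq_sqrt (by positivity)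
    have hrρ : r ≤ ρ := hρ ▸ Real.le_sqrt_of_sq_le (by nlinarith [sq_nonneg η])
    have hηρ : η ≤ ρ := hρ ▸ Real.le_sqrt_of_sq_le (by nlinarith [sq_nonneg r])
    have h := sym_ge (c := c) (d := d) hη0 hr.1.le (abs_le.2 ⟨by linarith [hd.1], hd.2⟩)
      (abs_le.2 ⟨by linarith [hc.1], hc.2⟩)
    rw [← hρ] at h
    obtain ⟨x, hx⟩ : ∃ x, x = r / ρ := ⟨_, rfl⟩
    have hx0 : 0 ≤ x := hx ▸ div_nonneg hr.1.le hρ0.le
    have hx1 : x ≤ 1 := hx ▸ (div_le_one hρ0).2 hrρ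
    have hxr : x * ρ = r := by rw [hx, div_mul_cancel₀ _ hρ0.ne']
    have h5 : x ^ 5 ≤ 1 := pow_le_one₀ hx0 hx1
    have hl := mul_le_mul_of_nonneg_left (line hρ0 hc.1.le hd.1.le) (pow_nonneg hx0 5)
    have hs := mul_le_mul_of_nonneg_left h (pow_nonneg hr.1.le 5)
    have e5 : x ^ 5 * (ρ ^ 5 * limKer (ρ, c, d)) = r ^ 5 * limKer (ρ, c, d) := by
      rw [← hxr]; ring
    have e4 : x ^ 5 * (2 * (360 / 17) * c * d * ρ) = 2 * (360 / 17) * c * d * (r * x ^ 4) := by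
      rw [← hxr]; ring
    have hA : ∀ z : ℝ, aCoef z ≤ 0 := fun z => by
      unfold aCoef
      linarith [sq_nonneg z, sq_nonneg (z ^ 2)]
    have hneg := mul_le_mul_of_nonpos_right h5
      (show aCoef c * d + aCoef d * c ≤ 0 from add_nonpos
        (mul_nonpos_of_nonpos_of_nonneg (hA c) hd.1.le)
        (mul_nonpos_of_nonpos_of_nonneg (hA d) hc.1.le))
    have hloss : r * (1 - x ^ 4) ≤ 2 * η := by
      refine le_of_mul_le_mul_right ?_ (pow_pos hρ0 2)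
      have e : (1 - x ^ 2) * ρ ^ 2 = η ^ 2 := by rw [hx]; field_simp; linarith
      have hx2 : x ^ 2 ≤ 1 := pow_le_one₀ hx0 hx1
      calc r * (1 - x ^ 4) * ρ ^ 2 = r * (1 + x ^ 2) * η ^ 2 := by
            linear_combination r * (1 + x ^ 2) * e
        _ ≤ r * 2 * η ^ 2 := mul_le_mul_of_nonneg_right
            (mul_le_mul_of_nonneg_left (by linarith) hr.1.le) (sq_nonneg η)
        _ = 2 * η * (r * η) := by ring
        _ ≤ 2 * η * (ρ * ρ) := mul_le_mul_of_nonneg_left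
            (mul_le_mul hrρ hηρ hη0.le hρ0.le) (by positivity)
        _ = _ := by ring
    have hcd : 0 ≤ c * d := mul_nonneg hc.1.le hd.1.le
    have hl2 := mul_le_mul_of_nonneg_left hloss (show 0 ≤ 720 / 17 * (c * d) by positivity)
    have hl3 := mul_le_mul_of_nonneg_right hηε hcd
    have hl4 := mul_nonneg hε.le hcd
    show _ ≤ r ^ 5 * _
    linarith
  · intro r c d hr hc hd
    have h := sym_ge (r := r) hη0 (hε.le.trans hr.1) (abs_le.2 ⟨hd.1, hd.2⟩)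
      (abs_le.2 ⟨hc.1, hc.2⟩)
    have h2 := hclose η hη0 (hη ▸ min_le_left _ _) r c d hr hc hd
    linarith

/-- The certificate of the sharp constant in dimension six. -/
theorem cert_six : Gen.Cert 6 aCoef (360 / 17) where
  b_nonneg := by norm_num
  measurable_a := by unfold aCoef; fun_prop
  a_nonpos := fun c _ => by
    unfold aCoef
    linarith [sq_nonneg c, sq_nonneg (c ^ 2)]
  a_bounded := ⟨40, fun c hc => by
    have h2 : c ^ 2 ≤ 1 := pow_le_one₀ hc.1 hc.2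
    have h4 : c ^ 4 ≤ 1 := pow_le_one₀ hc.1 hc.2
    unfold aCoef
    linarith⟩
  value := value_six
  weight := fun ε T hε _ => by
    obtain ⟨w, h1, h2, h3, h4, -⟩ := weight_clauses (T := T) hε
    exact ⟨w, h1, h2, h3, h4⟩

/-- The certificate is strict. -/
theorem strict_six : StrictCert 6 aCoef (360 / 17) limKer := by
  have hKc : ContinuousOn limKer {q | 0 < q.1} := by
    unfold limKer Six.pairKer
    intro q hq
    have : q.1 ≠ 0 := ne_of_gt hq
    exact ContinuousAt.continuousWithinAt (by fun_prop (disch := first | exact this | positivity))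
  have hu : ∀ r c d, 0 < r → c ∈ Icc (-1 : ℝ) 1 → d ∈ Icc (-1 : ℝ) 1 →
      usedKer 6 aCoef (360 / 17) 0 r c d ≤ limKer (r, c, d) ∧
        (usedKer 6 aCoef (360 / 17) 0 r c d = limKer (r, c, d) → r = 2 * c) := fun r c d hr hc hd =>
    used_of_line (by simp [aCoef]) hr (limKer_pos hr (abs_le.2 ⟨hc.1, hc.2⟩) (abs_le.2 ⟨hd.1, hd.2⟩))
      (fun h1 h2 => line hr h1.le h2.le) (fun h1 h2 => line_eq hr h1 h2)
  exact ⟨cert_six, by unfold aCoef; fun_prop, hKc, fun r c d hr hc hd => (hu r c d hr hc hd).1,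
    fun r c d hr hc hd => (hu r c d hr hc hd).2, fun ε T hε _ => weight_clauses hε⟩

end Vale.Agent.P219.CH.Rigid.InSix
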