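import Vale.Agent.P219.Rigid.Strict

/-!
# P219: tools for strict certificates
-/

noncomputable section

open Set Filter Topology

namespace Vale.Agent.P219.CH.Rigid

variable {n : ℕ} {a : ℝ → ℝ} {b : ℝ} {K : ℝ × ℝ × ℝ → ℝ}

/-- The kernel at a slightly regularised distance is close, uniformly away from zero. -/
theorem exists_reg_close (hK : ContinuousOn K {q | 0 < q.1}) {ε : ℝ} (hε : 0 < ε) (T : ℝ) :
    ∃ η₀ : ℝ, 0 < η₀ ∧ ∀ η, 0 < η → η ≤ η₀ → ∀ r c d : ℝ, r ∈ Icc ε T →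
      c ∈ Icc (-1 : ℝ) 1 → d ∈ Icc (-1 : ℝ) 1 →
      K (r, c, d) ≤ K (Real.sqrt (r ^ 2 + η ^ 2), c, d) + ε / 2 := by
  have hS : IsCompact (Icc ε T ×ˢ Icc (-1 : ℝ) 1 ×ˢ Icc (-1 : ℝ) 1) :=
    isCompact_Icc.prod (isCompact_Icc.prod isCompact_Icc)
  have hev : ∀ᶠ η in 𝓝 (0 : ℝ), ∀ p ∈ Icc ε T ×ˢ Icc (-1 : ℝ) 1 ×ˢ Icc (-1 : ℝ) 1,
      K p < K (Real.sqrt (p.1 ^ 2 + η ^ 2), p.2) + ε / 2 := by
    refine hS.eventually_forall_of_forall_eventually fun p hp => ?_
    have hp0 : 0 < p.1 := hε.trans_le hp.1.1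
    have ho := isOpen_lt (continuous_const (y := (0 : ℝ))) (continuous_fst (X := ℝ) (Y := ℝ × ℝ))
    have hKp : ContinuousAt K p := hK.continuousAt (ho.mem_nhds hp0)
    have e : Real.sqrt (p.1 ^ 2 + (0 : ℝ) ^ 2) = p.1 := by simp [Real.sqrt_sq hp0.le]
    have h1 : ContinuousAt (fun z : ℝ × ℝ × ℝ × ℝ => K z.2) (0, p) :=
      hKp.comp_of_eq continuousAt_snd rfl
    have hmap : ContinuousAt (fun z : ℝ × ℝ × ℝ × ℝ =>
        (Real.sqrt (z.2.1 ^ 2 + z.1 ^ 2), z.2.2)) (0, p) :=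
      (show Continuous fun z : ℝ × ℝ × ℝ × ℝ =>
        (Real.sqrt (z.2.1 ^ 2 + z.1 ^ 2), z.2.2) by fun_prop).continuousAt
    have h2 : ContinuousAt (fun z : ℝ × ℝ × ℝ × ℝ =>
        K (Real.sqrt (z.2.1 ^ 2 + z.1 ^ 2), z.2.2) + ε / 2) (0, p) :=
      (hKp.comp_of_eq hmap (by simp only; rw [e])).add continuousAt_const
    refine h1.eventually_lt h2 ?_
    simp only [e]
    linarith
  obtain ⟨δ, hδ, h⟩ := Metric.eventually_nhds_iff.1 hev
  refine ⟨δ / 2, half_pos hδ, fun η hη hη0 r c d hr hc hd => ?_⟩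
  exact (h (by rw [dist_zero_right, Real.norm_eq_abs, abs_of_pos hη]; linarith)
    (r, c, d) ⟨hr, hc, hd⟩).le

/-- A positive kernel that dominates the line term, with equality only for `r = 2 c`, is strict. -/
theorem used_of_line (ha0 : a 0 ≤ 0) {r c d : ℝ} (hr : 0 < r)
    (hpos : 0 < K (r, c, d))
    (hline : 0 < c → 0 < d →
      a c * d + a d * c + 2 * b * c * d * r ≤ r ^ (n - 1) * K (r, c, d))
    (heq : 0 < c → 0 < d →
      a c * d + a d * c + 2 * b * c * d * r = r ^ (n - 1) * K (r, c, d) → r = 2 * c) :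
    usedKer n a b 0 r c d ≤ K (r, c, d) ∧ (usedKer n a b 0 r c d = K (r, c, d) → r = 2 * c) := by
  have hp : 0 < r ^ (n - 1) := pow_pos hr _
  by_cases hcd : 0 < c ∧ 0 < d
  · obtain ⟨hc, hd⟩ := hcd
    rw [usedKer, max_eq_left hc.le, max_eq_left hd.le, sub_zero,
      show a c * d + a d * c + 2 * b * r * (c * d) = a c * d + a d * c + 2 * b * c * d * r by ring]
    refine ⟨?_, fun h => heq hc hd ?_⟩
    · rw [div_le_iff₀ hp]
      exact max_le ((hline hc hd).trans_eq (mul_comm _ _)) (mul_nonneg hpos.le hp.le)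
    · rw [div_eq_iff hp.ne'] at h
      rcases max_choice (a c * d + a d * c + 2 * b * c * d * r) 0 with h1 | h1
      · rw [h1] at h
        linarith
      · rw [h1] at h
        have := mul_pos hpos hp
        linarith
  · have h0 : usedKer n a b 0 r c d = 0 := by
      have key : ∀ x y : ℝ, x ≤ 0 → max (a (max x 0) * max y 0 + a (max y 0) * max x 0 +
          (2 * b * r - 0) * (max x 0 * max y 0)) 0 = 0 := fun x y hx => by
        rw [max_eq_right hx, max_eq_right]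
        have := mul_nonpos_of_nonpos_of_nonneg ha0 (le_max_right y 0)
        linarith
      rw [usedKer]
      rcases not_and_or.1 hcd with hh | hh
      · rw [key c d (not_lt.1 hh), zero_div]
      · rw [show a (max c 0) * max d 0 + a (max d 0) * max c 0 +
            (2 * b * r - 0) * (max c 0 * max d 0) = a (max d 0) * max c 0 + a (max c 0) * max d 0 +
            (2 * b * r - 0) * (max d 0 * max c 0) by ring, key d c (not_lt.1 hh), zero_div]
    rw [h0]
    exact ⟨hpos.le, fun h => absurd h hpos.ne⟩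

/-- A function above its secant by a positive amount inside an interval is positive there. -/
theorem secant_pos {f : ℝ → ℝ} {q0 q1 q S : ℝ} (h0 : q0 < q) (h1 : q < q1) (hf0 : 0 ≤ f q0)
    (hf1 : 0 ≤ f q1) (hS : 0 < S)
    (h : (q1 - q) * f q0 + (q - q0) * f q1 + S ≤ (q1 - q0) * f q) : 0 < f q := by
  refine pos_of_mul_pos_right (a := q1 - q0) ?_ (by linarith)
  have := mul_nonneg (sub_nonneg.2 h1.le) hf0
  have := mul_nonneg (sub_nonneg.2 h0.le) hf1
  linarith

/-- The three places of a pair of cosines: equal, one of them equal to one, or inside. -/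
theorem cosine_cases {c d : ℝ} (hc : 0 < c) (hc1 : c ≤ 1) (hd : 0 < d) (hd1 : d ≤ 1) :
    c = d ∨ c = 1 ∨ d = 1 ∨
      (max 0 (c + d - 1) < c * d ∧ c * d < ((c + d) / 2) ^ 2) := by
  by_cases h1 : c = d
  · exact Or.inl h1
  rcases eq_or_lt_of_le hc1 with h2 | h2
  · exact Or.inr (Or.inl h2)
  rcases eq_or_lt_of_le hd1 with h3 | h3
  · exact Or.inr (Or.inr (Or.inl h3))
  refine Or.inr (Or.inr (Or.inr ⟨max_lt (mul_pos hc hd) ?_, ?_⟩))
  · nlinarith [mul_pos (sub_pos.2 h2) (sub_pos.2 h3)]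
  · have : 0 < (c - d) ^ 2 := by
      have : c - d ≠ 0 := sub_ne_zero.2 h1
      positivity
    linarith

end Vale.Agent.P219.CH.Rigid
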