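import Vale.Agent.P219.Rigid.StrictTools
import Vale.Agent.P219.Ten.Value

/-!
# P219: the certificate of dimension ten is strict
-/

noncomputable section

open Set Filter Topology

namespace Vale.Agent.P219.CH.Rigid.InTen

open Ten

theorem quad_pos {a b e x : ℝ} (ha : 0 < a) (h : b ^ 2 < 4 * a * e) :
    0 < a * x ^ 2 + b * x + e := by
  have : 0 < 4 * a * (a * x ^ 2 + b * x + e) := by nlinarith [sq_nonneg (2 * a * x + b)]
  exact pos_of_mul_pos_right this (by positivity)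

theorem quartic_pos {e4 e3 e2 e1 e0 r : ℝ} (hr : 0 < r) (h0 : 0 < e0) (h4 : 0 < e4)
    (h : e0 * e3 ^ 2 < e4 * (4 * e0 * e2 - e1 ^ 2)) :
    0 < e4 * r ^ 4 + e3 * r ^ 3 + e2 * r ^ 2 + e1 * r + e0 := by
  have hq : 0 < 4 * e0 * e4 * r ^ 2 + 4 * e0 * e3 * r + (4 * e0 * e2 - e1 ^ 2) := by
    refine quad_pos (by positivity) ?_
    linarith [mul_lt_mul_of_pos_left h (show 0 < 16 * e0 by positivity)]
  refine pos_of_mul_pos_right (a := 4 * e0) ?_ (by positivity)
  have e : 4 * e0 * (e4 * r ^ 4 + e3 * r ^ 3 + e2 * r ^ 2 + e1 * r + e0) =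
      (2 * e0 + e1 * r) ^ 2 +
        r ^ 2 * (4 * e0 * e4 * r ^ 2 + 4 * e0 * e3 * r + (4 * e0 * e2 - e1 ^ 2)) := by ring
  rw [e]
  positivity

theorem sym_zero_pos (r : ℝ) {c : ℝ} (hc : 0 ≤ c) (hc1 : c ≤ 1) : 0 < symP r c 0 := by
  have hc2 : c ^ 2 ≤ 1 := pow_le_one₀ hc hc1
  have h1 : 0 ≤ 3360 * r ^ 2 + -6426 * c * r + 3073 * c ^ 2 :=
    quad_nonneg (by norm_num) (by nlinarith [sq_nonneg c])
  have h2 : 0 ≤ (9996 - 1645 * c ^ 2) * r ^ 2 + -12717 * c * r + 4842 * c ^ 2 := by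
    refine quad_nonneg (by linarith) ?_
    nlinarith [mul_le_mul_of_nonneg_left hc2 (sq_nonneg c), sq_nonneg c]
  have h3 : 0 < (14130 - 5790 * c ^ 2) * r ^ 2 + -18450 * c * r + (12300 + 6180 * c ^ 2) := by
    refine quad_pos (by linarith) ?_
    nlinarith [mul_le_mul_of_nonneg_left hc2 (sq_nonneg c), sq_nonneg c]
  unfold symP
  linarith [mul_nonneg (show 0 ≤ r ^ 4 by positivity) h1, mul_nonneg (sq_nonneg r) h2]

theorem edgeS_pos {r : ℝ} (hr : 0 < r) {c : ℝ} (hc : 0 ≤ c) (hc1 : c ≤ 1) : 0 < edgeS r c := by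
  have h2 : c ^ 2 ≤ c := by nlinarith
  have h3 : c ^ 3 ≤ c := by nlinarith [mul_le_mul_of_nonneg_left h2 hc]
  have htop : 0 < (10080 + 3360 * c) * r ^ 2 + (-19278 - 25704 * c - 6426 * c ^ 2) * r
      + (34272 + 11424 * c + 4284 * c ^ 2 + 1428 * c ^ 3
        - (23000 - 3900 * c - 17000 * c ^ 2)) := by
    refine quad_pos (by positivity) ?_
    linarith [edgeTop_disc hc hc1]
  have hlow : 0 ≤ (23000 - 3900 * c - 17000 * c ^ 2) * r ^ 4
      + (-38151 - 15228 * c + 34803 * c ^ 2 + 11880 * c ^ 3) * r ^ 3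
      + (39546 + 7902 * c - 34524 * c ^ 2 - 6228 * c ^ 3) * r ^ 2
      + (-55350 - 18720 * c + 54990 * c ^ 2 + 18360 * c ^ 3) * r
      + (55440 + 10320 * c - 54900 * c ^ 2 - 10140 * c ^ 3) := by
    refine quartic_nonneg (by linarith) (by linarith) ?_
    linarith [edgeMid_disc hc hc1]
  have e : edgeS r c = r ^ 4 * ((10080 + 3360 * c) * r ^ 2
        + (-19278 - 25704 * c - 6426 * c ^ 2) * r
        + (34272 + 11424 * c + 4284 * c ^ 2 + 1428 * c ^ 3
          - (23000 - 3900 * c - 17000 * c ^ 2)))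
      + ((23000 - 3900 * c - 17000 * c ^ 2) * r ^ 4
        + (-38151 - 15228 * c + 34803 * c ^ 2 + 11880 * c ^ 3) * r ^ 3
        + (39546 + 7902 * c - 34524 * c ^ 2 - 6228 * c ^ 3) * r ^ 2
        + (-55350 - 18720 * c + 54990 * c ^ 2 + 18360 * c ^ 3) * r
        + (55440 + 10320 * c - 54900 * c ^ 2 - 10140 * c ^ 3)) := by
    unfold edgeS symP kap
    ring
  rw [e]
  exact add_pos_of_pos_of_nonneg (mul_pos (pow_pos hr 4) htop) hlow

theorem diagS_pos {r : ℝ} (hr : 0 < r) {t : ℝ} (ht : 0 ≤ t) (ht1 : t ≤ 1) : 0 < diagS r t := by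
  have hx : t ^ 2 ≤ 1 := pow_le_one₀ ht ht1
  obtain ⟨x, hx0⟩ : ∃ x, x = t ^ 2 := ⟨_, rfl⟩
  rw [← hx0] at hx
  have h0 : 0 ≤ x := hx0 ▸ sq_nonneg t
  have hxx : x ^ 2 ≤ x := by nlinarith
  have hR : 0 < (198240 - 192549 * x) * r ^ 4 + -(t * (631800 - 596970 * x)) * r ^ 3
      + (489600 - 148440 * x - 274725 * x ^ 2) * r ^ 2 + -(t * (1476000 - 1468800 * x)) * r
      + (492000 + 168000 * x - 652800 * x ^ 2) := by
    refine quartic_pos hr (by linarith) (by linarith) ?_
    rw [neg_sq, neg_sq, mul_pow, mul_pow, ← hx0]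
    linarith [diagMid_disc h0 hx]
  have e : 40 * diagS r t =
      21 * (80 * r ^ 3 - 153 * t * r ^ 2 + (60 - 55 * x) * r) ^ 2
      + ((198240 - 192549 * x) * r ^ 4 + -(t * (631800 - 596970 * x)) * r ^ 3
        + (489600 - 148440 * x - 274725 * x ^ 2) * r ^ 2 + -(t * (1476000 - 1468800 * x)) * r
        + (492000 + 168000 * x - 652800 * x ^ 2)) := by
    rw [hx0]
    unfold diagS symP kap
    ring
  refine pos_of_mul_pos_right (a := (40 : ℝ)) ?_ (by norm_num)
  rw [e]
  exact add_pos_of_nonneg_of_pos (mul_nonneg (by norm_num) (sq_nonneg _)) hR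

theorem one_pos_sum {r c d : ℝ} (hr : 0 < r) (hc : 0 ≤ c) (hc1 : c ≤ 1) (hd : 0 ≤ d)
    (hd1 : d ≤ 1) : 0 < one r c d (cross c d) + one r d c (cross d c) := by
  rw [cross_comm d c, one_sym]
  by_cases h : c + d < 2
  · obtain ⟨s, hs⟩ : ∃ s, s = c + d := ⟨_, rfl⟩
    have hk : 0 < 4 - s ^ 2 := by rw [hs]; nlinarith
    refine pos_of_mul_pos_right (a := 4 - (c + d) ^ 2) ?_ (hs ▸ hk.le)
    have key : 0 < symT r (c + d) (c * d) := by
      obtain ⟨h0, h1⟩ := cosines_mem hc hc1 hd hd1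
      rw [← hs] at h0 h1 ⊢
      have hlow : 0 < symT r s (max 0 (s - 1)) := by
        rcases le_total s 1 with h' | h'
        · rw [max_eq_left (by linarith)]
          have e : symT r s 0 = (4 - s ^ 2) * symP r s 0 := by unfold symT; ring
          rw [e]
          exact mul_pos hk (sym_zero_pos r (by linarith) h')
        · rw [max_eq_right (by linarith)]
          obtain ⟨e', rfl⟩ : ∃ e', s = 1 + e' := ⟨s - 1, by ring⟩
          have e : symT r (1 + e') (1 + e' - 1) = (1 - e') * edgeS r e' := by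
            unfold symT edgeS; ring_nf
          rw [e]
          exact mul_pos (by linarith) (edgeS_pos hr (by linarith) (by linarith))
      have hhigh : 0 < symT r s ((s / 2) ^ 2) := by
        obtain ⟨t, rfl⟩ : ∃ t, s = 2 * t := ⟨s / 2, by ring⟩
        have e : symT r (2 * t) ((2 * t / 2) ^ 2) = (4 - 4 * t ^ 2) * diagS r t := by
          unfold symT diagS; ring_nf
        rw [e]
        exact mul_pos (by linarith) (diagS_pos hr (by linarith) (by linarith))
      rcases eq_or_lt_of_le h0 with he | he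
      · rw [← he]; exact hlow
      rcases eq_or_lt_of_le h1 with he' | he'
      · rw [he']; exact hhigh
      refine secant_pos (f := symT r s)
        (S := ((4 - s ^ 2) * (24480 + 10560 * r ^ 2) + kap r * (4 + s ^ 2)) *
          ((c * d - max 0 (s - 1)) * ((s / 2) ^ 2 - c * d) * ((s / 2) ^ 2 - max 0 (s - 1))))
        he he' hlow.le hhigh.le
        (mul_pos (by unfold kap; positivity)
          (mul_pos (mul_pos (by linarith) (by linarith)) (by linarith))) (le_of_eq ?_)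
      unfold symT symP kap
      ring
    refine lt_of_lt_of_eq key ?_
    rw [hs] at hk
    rw [symT, cross, if_pos h]
    field_simp
  · obtain ⟨rfl, rfl⟩ : c = 1 ∧ d = 1 := ⟨by linarith, by linarith⟩
    have := diagS_pos hr zero_le_one le_rfl
    rw [diagS] at this
    rw [cross, if_neg h]
    norm_num at this ⊢
    linarith

theorem diagJ_pos {r t : ℝ} (hr : 0 < r) (ht : 0 ≤ t) (ht1 : t ≤ 1) : 0 < diagJ r t := by
  have hx : t ^ 2 ≤ 1 := pow_le_one₀ ht ht1
  have := sq_nonneg t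
  have : 0 ≤ 9996 - 8232 * t ^ 2 := by linarith
  have : 0 ≤ 14550 - 11520 * t ^ 2 := by linarith
  have : 0 ≤ 14130 + t ^ 2 * (11040 - 18432 * t ^ 2) := by nlinarith
  have : 0 ≤ 19620 + t ^ 2 * (22680 - 27648 * t ^ 2) := by nlinarith
  have : 0 ≤ 12300 + t ^ 2 * (26160 + t ^ 2 * (30240 - 36864 * t ^ 2)) := by
    have : 0 ≤ 26160 + t ^ 2 * (30240 - 36864 * t ^ 2) := by nlinarith
    positivity
  have : 0 ≤ 49200 + t ^ 2 * (26160 + t ^ 2 * (30240 - 36864 * t ^ 2)) := by linarith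
  unfold diagJ
  positivity

theorem edgeF_pos {r c : ℝ} (hr : 0 < r) (hc : 0 ≤ c) (hc1 : c < 1) : 0 < edgeF r c := by
  rcases le_total r (899 / 1000 + 77 / 100 * c + 1 / 10 * c ^ 2) with h | h
  · obtain ⟨z, hz⟩ : ∃ z, z = 137472 + 98400 * c + 52320 * c ^ 3 + 60480 * c ^ 5 - 73728 * c ^ 7 :=
      ⟨_, rfl⟩
    have e : edgeF r c = r ^ 3 * edgeS r c + (3 + c) * c * (z - 147600 * r) := by
      rw [hz]; unfold edgeF aSum; ring
    rw [e]
    refine add_pos_of_pos_of_nonneg (mul_pos (pow_pos hr 3) (edgeS_pos hr hc hc1.le))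
      (mul_nonneg (by positivity) ?_)
    have := threshold hc hc1.le
    linarith
  · obtain ⟨v, rfl⟩ : ∃ v, r = 1 + c + v := ⟨r - 1 - c, by ring⟩
    rw [edgeF_expand]
    have hC := edgeSq_ge hc hc1.le (v := v) (by linarith)
    have hQ : (1 - c) * edge1 c ^ 2 < 4 * edge0 c * (120000 + 400000 * c + 600000 * c ^ 2) := by
      have := edge_disc hc hc1.le
      unfold edge0 edge1
      linarith
    have hCpos : 0 < edgeSq v c := lt_of_lt_of_le (by positivity) hC
    have h0 : 0 ≤ edge0 c := by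
      have := edge0_poly hc hc1.le
      unfold edge0
      linarith
    have := quad_pos (x := v) (b := (1 - c) * edge1 c) (e := (1 - c) * edge0 c) hCpos (by
      have h1 := mul_lt_mul_of_pos_left
        (hQ.trans_le (mul_le_mul_of_nonneg_left hC (by positivity))) (sub_pos.2 hc1)
      linarith)
    linarith

theorem line_eq {r c d : ℝ} (hr : 0 < r) (hc : 0 < c) (hc1 : c ≤ 1) (hd : 0 < d) (hd1 : d ≤ 1)
    (h : aCoef c * d + aCoef d * c + 147600 * (c * d) * r =
      r ^ 3 * (one r c d (cross c d) + one r d c (cross d c))) : r = 2 * c := by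
  rw [cross_comm d c, one_sym] at h
  have h' : lineP r (c + d) (c * d) - r ^ 3 * kap r * (c * d) * cross c d = 0 := by
    rw [lineP, aSum_eq]
    linarith
  by_cases hs : c + d < 2
  · have hk : 0 < 4 - (c + d) ^ 2 := by nlinarith
    have hT : lineT r (c + d) (c * d) = 0 := by
      refine Eq.trans ?_ (show (4 - (c + d) ^ 2) *
        (lineP r (c + d) (c * d) - r ^ 3 * kap r * (c * d) * cross c d) = 0 by rw [h', mul_zero])
      rw [lineT, cross, if_pos hs]
      field_simp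
    rcases cosine_cases hc hc1 hd hd1 with he | he | he | ⟨h0, h1⟩
    · subst he
      have e : lineT r (c + c) (c * c) = (4 - 4 * c ^ 2) *
          (lineP r (2 * c) (c ^ 2) - r ^ 3 * kap r * c ^ 2 * (1 - c ^ 2)) := by
        unfold lineT; ring_nf
      rw [e, line_diag_eq] at hT
      have h2 := (mul_eq_zero.1 hT).resolve_left (by nlinarith)
      have h3 := (mul_eq_zero.1 h2).resolve_right (diagJ_pos hr hc.le hc1).ne'
      linarith [pow_eq_zero_iff two_ne_zero |>.1 h3]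
    · subst he
      exfalso
      have e : lineT r (1 + d) (1 * d) = (1 - d) * edgeF r d := by
        unfold lineT lineP edgeF edgeS; ring_nf
      rw [e] at hT
      exact absurd hT (mul_pos (by linarith) (edgeF_pos hr hd.le (by linarith))).ne'
    · subst he
      exfalso
      have e : lineT r (c + 1) (c * 1) = (1 - c) * edgeF r c := by
        unfold lineT lineP edgeF edgeS; ring_nf
      rw [e] at hT
      exact absurd hT (mul_pos (by linarith) (edgeF_pos hr hc.le (by linarith))).ne'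
    · exfalso
      obtain ⟨s, hs'⟩ : ∃ s, s = c + d := ⟨_, rfl⟩
      rw [← hs'] at hT h0 h1 hk
      obtain ⟨q, hq⟩ : ∃ q, q = c * d := ⟨_, rfl⟩
      rw [← hq] at hT h0 h1
      obtain ⟨q0, e0⟩ : ∃ z, z = max 0 (s - 1) := ⟨_, rfl⟩
      obtain ⟨q1, e1⟩ : ∃ z, z = (s / 2) ^ 2 := ⟨_, rfl⟩
      rw [← e0] at h0
      rw [← e1] at h1
      have hs0 : 0 ≤ s := by linarith
      have hs2 : s ≤ 2 := by linarith
      obtain ⟨B, hB⟩ : ∃ B, B = -156960 - 302400 * s ^ 2 + 516096 * s ^ 4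
          + (302400 - 1032192 * s ^ 2) * (q0 + q + q1)
          + 516096 * (q0 ^ 2 + q ^ 2 + q1 ^ 2 + q0 * q + q0 * q1 + q * q1) := ⟨_, rfl⟩
      have hB0 : 0 ≤ -B := by rw [hB]; linarith [bend hs0 hs2 e0 e1 h0.le h1.le]
      refine (secant_pos (f := lineT r s)
        (S := ((4 - s ^ 2) * (r ^ 3 * (24480 + 10560 * r ^ 2) + s * -B)
          + r ^ 3 * kap r * (4 + s ^ 2)) * ((q - q0) * (q1 - q) * (q1 - q0)))
        h0 h1 (e0 ▸ lineT_low hr.le hs0 hs2) (e1 ▸ lineT_high hr.le hs0 hs2)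
        (mul_pos (by unfold kap; positivity)
          (mul_pos (mul_pos (by linarith) (by linarith)) (by linarith))) (le_of_eq ?_)).ne' hT
      rw [hB]
      unfold lineT lineP aSum symP kap
      ring
  · obtain ⟨rfl, rfl⟩ : c = 1 ∧ d = 1 := ⟨by linarith, by linarith⟩
    have e := line_diag_eq r 1
    rw [cross, if_neg hs] at h'
    norm_num at e h'
    rw [h'] at e
    have h3 := (mul_eq_zero.1 e.symm).resolve_right (diagJ_pos hr zero_le_one le_rfl).ne'
    linarith [pow_eq_zero_iff two_ne_zero |>.1 h3]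

/-! ## The limit kernel -/

/-- The cosine without its sign, kept below one. -/
def clip (x : ℝ) : ℝ := min |x| 1

theorem clip_eq {x : ℝ} (h : |x| ≤ 1) : clip x = |x| := min_eq_left h

theorem cross_le {c d : ℝ} (hc : 0 ≤ c) (hc1 : c ≤ 1) (hd : 0 ≤ d) (hd1 : d ≤ 1) :
    cross c d ≤ 1 - ((c + d) / 2) ^ 2 := by
  by_cases h : c + d < 2
  · have hk : 0 < 4 - (c + d) ^ 2 := by nlinarith
    rw [cross, if_pos h, div_le_iff₀ hk]
    linarith [mul_nonneg (sq_nonneg (c - d)) (show 0 ≤ 4 + (c + d) ^ 2 by positivity)]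
  · obtain ⟨rfl, rfl⟩ : c = 1 ∧ d = 1 := ⟨by linarith, by linarith⟩
    rw [cross, if_neg h]
    norm_num

theorem continuous_cross : Continuous fun p : ℝ × ℝ => cross (clip p.1) (clip p.2) := by
  have m : ∀ x, 0 ≤ clip x ∧ clip x ≤ 1 := fun x =>
    ⟨le_min (abs_nonneg x) zero_le_one, min_le_right _ _⟩
  have hc : Continuous fun p : ℝ × ℝ => clip p.1 := by unfold clip; fun_prop
  have hd : Continuous fun p : ℝ × ℝ => clip p.2 := by unfold clip; fun_prop
  refine continuous_iff_continuousAt.2 fun p => ?_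
  by_cases h : clip p.1 + clip p.2 < 2
  · have hk : 0 < 4 - (clip p.1 + clip p.2) ^ 2 := by nlinarith [(m p.1).1, (m p.2).1]
    have hcont : ContinuousAt (fun p : ℝ × ℝ =>
        (4 - 3 * (clip p.1 + clip p.2) ^ 2 + clip p.1 * clip p.2 * (4 + (clip p.1 + clip p.2) ^ 2)) /
          (4 - (clip p.1 + clip p.2) ^ 2)) p :=
      ContinuousAt.div (by fun_prop) (by fun_prop) hk.ne'
    refine hcont.congr ?_
    filter_upwards [(hc.add hd).continuousAt.eventually_lt continuousAt_const h] with z hz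
    rw [cross, if_pos (show clip z.1 + clip z.2 < 2 from hz)]
  · have e : cross (clip p.1) (clip p.2) = 0 := by rw [cross, if_neg h]
    rw [ContinuousAt, e]
    have hu : Tendsto (fun z : ℝ × ℝ => 1 - ((clip z.1 + clip z.2) / 2) ^ 2) (𝓝 p) (𝓝 0) := by
      have := (show Continuous fun z : ℝ × ℝ => 1 - ((clip z.1 + clip z.2) / 2) ^ 2 by fun_prop).tendsto p
      have e2 : clip p.1 + clip p.2 = 2 := by linarith [(m p.1).2, (m p.2).2]
      rw [e2] at this
      norm_num at this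
      exact this
    exact squeeze_zero (fun z => (cross_spec (m z.1).1 (m z.1).2 (m z.2).1 (m z.2).2).1)
      (fun z => cross_le (m z.1).1 (m z.1).2 (m z.2).1 (m z.2).2) hu

/-- The limit kernel. -/
def limKer (q : ℝ × ℝ × ℝ) : ℝ :=
  (psi q.1 (clip q.2.1) (clip q.2.2) + psi q.1 (clip q.2.2) (clip q.2.1)) / 1680

theorem limKer_eq {r c d : ℝ} (hr : 0 < r) (hc : |c| ≤ 1) (hd : |d| ≤ 1) :
    r ^ (10 - 1) * limKer (r, c, d) =
      r ^ 3 * (one r |c| |d| (cross |c| |d|) + one r |d| |c| (cross |d| |c|)) / 1680 := by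
  rw [← psi_sum hr.ne']
  simp only [limKer, clip_eq hc, clip_eq hd]
  ring

theorem limKer_pos {r c d : ℝ} (hr : 0 < r) (hc : |c| ≤ 1) (hd : |d| ≤ 1) :
    0 < limKer (r, c, d) := by
  refine pos_of_mul_pos_right (a := r ^ (10 - 1)) ?_ (by positivity)
  rw [limKer_eq hr hc hd]
  exact div_pos (mul_pos (pow_pos hr 3)
    (one_pos_sum hr (abs_nonneg c) hc (abs_nonneg d) hd)) (by norm_num)

/-- The certificate is strict. -/
theorem strict_ten : StrictCert 10 (fun c => aCoef c / 1680) (615 / 14) limKer := by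
  have hKc : ContinuousOn limKer {q | 0 < q.1} := by
    have hx : Continuous fun q : ℝ × ℝ × ℝ => cross (clip q.2.1) (clip q.2.2) :=
      continuous_cross.comp continuous_snd
    have hy : Continuous fun q : ℝ × ℝ × ℝ => cross (clip q.2.2) (clip q.2.1) :=
      continuous_cross.comp ((continuous_snd.comp continuous_snd).prodMk
        (continuous_fst.comp continuous_snd))
    have h1 : Continuous fun q : ℝ × ℝ × ℝ => clip q.2.1 := by unfold clip; fun_prop
    have h2 : Continuous fun q : ℝ × ℝ × ℝ => clip q.2.2 := by unfold clip; fun_prop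
    unfold limKer psi one wA wB
    intro q hq
    have : q.1 ≠ 0 := ne_of_gt hq
    exact ContinuousAt.continuousWithinAt (by fun_prop (disch := first | exact this | positivity))
  have hu : ∀ r c d, 0 < r → c ∈ Icc (-1 : ℝ) 1 → d ∈ Icc (-1 : ℝ) 1 →
      usedKer 10 (fun c => aCoef c / 1680) (615 / 14) 0 r c d ≤ limKer (r, c, d) ∧
        (usedKer 10 (fun c => aCoef c / 1680) (615 / 14) 0 r c d = limKer (r, c, d) → r = 2 * c) := by
    intro r c d hr hc hd
    have hc1 : |c| ≤ 1 := abs_le.2 ⟨hc.1, hc.2⟩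
    have hd1 : |d| ≤ 1 := abs_le.2 ⟨hd.1, hd.2⟩
    refine used_of_line (by simp [aCoef]) hr (limKer_pos hr hc1 hd1) (fun h1 h2 => ?_)
      fun h1 h2 h => ?_
    · rw [limKer_eq hr hc1 hd1, abs_of_pos h1, abs_of_pos h2]
      have := line_inequality hr.le h1.le hc.2 h2.le hd.2
      linarith
    · rw [limKer_eq hr hc1 hd1, abs_of_pos h1, abs_of_pos h2] at h
      exact line_eq hr h1 hc.2 h2 hd.2 (by linarith)
  refine ⟨cert_ten, by unfold aCoef; fun_prop, hKc, fun r c d hr hc hd => (hu r c d hr hc hd).1,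
    fun r c d hr hc hd => (hu r c d hr hc hd).2, fun ε T hε hT => ?_⟩
  obtain ⟨η₀, hη₀, hclose⟩ := exists_reg_close hKc hε T
  obtain ⟨C, hC⟩ : ∃ C, C = 5460480 * T ^ 9 + 5460480 + 590400 := ⟨_, rfl⟩
  have hT9 : 0 ≤ T ^ 9 := by positivity
  have hC0 : 0 < C := by rw [hC]; positivity
  obtain ⟨η, hη⟩ : ∃ η, η = min η₀ (min 1 (min (1680 * ε / C) (ε / 7000))) := ⟨_, rfl⟩
  have hη0 : 0 < η :=
    hη ▸ lt_min hη₀ (lt_min one_pos (lt_min (by positivity) (by positivity)))
  have hη1 : η ≤ 1 := hη ▸ (min_le_right _ _).trans (min_le_left _ _)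
  have hηC : η ≤ 1680 * ε / C :=
    hη ▸ (min_le_right _ _).trans ((min_le_right _ _).trans (min_le_left _ _))
  have hηε : η ≤ ε / 7000 :=
    hη ▸ (min_le_right _ _).trans ((min_le_right _ _).trans (min_le_right _ _))
  obtain ⟨hP, hF⟩ := weight_at (ε := ε) hη0 hη1 hT (hC ▸ (le_div_iff₀ hC0).1 hηC)
  refine ⟨weight η, contDiff_weight hη0.ne', fun p q hp hq => weight_pos hη0.ne' hp hq, hP, hF,
    fun r c d hr hc hd => ?_⟩
  have hc1 : |c| ≤ 1 := abs_le.2 ⟨hc.1, hc.2⟩
  have hd1 : |d| ≤ 1 := abs_le.2 ⟨hd.1, hd.2⟩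
  have h := sym_ge hη0 hη1 (hε.le.trans hr.1) hc1 hd1
  have h2 := hclose η hη0 (hη ▸ min_le_left _ _) r c d hr hc hd
  simp only [limKer, clip_eq hc1, clip_eq hd1] at h2 ⊢
  have h3 : |c| * |d| ≤ 1 := mul_le_one₀ hc1 (abs_nonneg d) hd1
  have h4 := mul_le_mul_of_nonneg_left h3 (show 0 ≤ 5460480 * η by positivity)
  linarith

end Vale.Agent.P219.CH.Rigid.InTen
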