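import Vale.Agent.P219.Rigid.Strict
import Vale.Agent.P219.Gen.PairAssembly
import Vale.Agent.P219.Gen.Polar
import Vale.Agent.P219.Gen.Moment
import Vale.Agent.P219.Six.Line
import Vale.Agent.P219.Six.Flow
import Vale.Agent.P219.Sharp.Basic

/-!
# P219: the pair integral along geodesics, with the used part only

The proof is that of `Gen.pairAssembly`, with the used part in place of the kernel.
-/

noncomputable section

open MeasureTheory Set Filter Topology Matrix
open scoped ENNReal

namespace Vale.Agent.P219.CH.Rigid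

open Six (slp cosv)

variable {n : ℕ} {G : (Fin n → ℝ) → Matrix (Fin n) (Fin n) ℝ}
  {D : (Fin n → ℝ) → (Fin n → ℝ) → ℝ} {e : Six.Phase n → Fin n → ℝ}
  {u : (Fin n → ℝ) → ℝ} {η ε s b : ℝ} {a : ℝ → ℝ} {o : Fin n → ℝ} {R : ℝ}

lemma usedKer_nonneg {r c d : ℝ} (hr : 0 ≤ r) : 0 ≤ usedKer n a b ε r c d :=
  div_nonneg (le_max_right _ _) (pow_nonneg hr _)

lemma usedPair_nonneg (hs : 0 ≤ s) (x y : Fin n → ℝ) : 0 ≤ usedPair G D a b ε u s x y :=
  usedKer_nonneg (mul_nonneg hs (Real.sqrt_nonneg _))

lemma le_usedKer {r c d : ℝ} (hr : 0 < r) (hc : 0 ≤ c) (hd : 0 ≤ d) :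
    a c * d + a d * c + 2 * b * c * d * r - ε * (c * d) ≤
      r ^ (n - 1) * usedKer n a b ε r c d := by
  rw [usedKer, max_eq_left hc, max_eq_left hd, mul_div_cancel₀ _ (pow_pos hr _).ne']
  exact (le_of_eq (by ring)).trans (le_max_left _ _)

lemma measurable_usedPair (h : IsCH G D) (hu : ContDiff ℝ 1 u) (ha : Measurable a) :
    Measurable fun z : (Fin n → ℝ) × (Fin n → ℝ) => usedPair G D a b ε u s z.1 z.2 := by
  have hd := Gen.measurable_scos h hu
  have hc : Measurable fun z : (Fin n → ℝ) × (Fin n → ℝ) => Dir.scos G D u z.2 z.1 := by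
    have := hd.comp (measurable_swap (α := Fin n → ℝ) (β := Fin n → ℝ))
    simpa only [Function.comp_def, Prod.fst_swap, Prod.snd_swap] using this
  have hr : Measurable fun z : (Fin n → ℝ) × (Fin n → ℝ) => s * Real.sqrt (2 * D z.1 z.2) :=
    ((h.continuous_D.measurable.const_mul 2).sqrt).const_mul s
  have hc0 := hc.max (measurable_const (a := (0 : ℝ)))
  have hd0 := hd.max (measurable_const (a := (0 : ℝ)))
  simp only [usedPair, usedKer]
  exact (((((ha.comp hc0).mul hd0).add ((ha.comp hd0).mul hc0)).add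
    (((hr.const_mul (2 * b)).sub_const ε).mul (hc0.mul hd0))).max measurable_const).div
      (hr.pow_const _)

/-- The used part with the two densities of perimeter. -/
def usedB (G : (Fin n → ℝ) → Matrix (Fin n) (Fin n) ℝ) (D : (Fin n → ℝ) → (Fin n → ℝ) → ℝ)
    (a : ℝ → ℝ) (b ε : ℝ) (u : (Fin n → ℝ) → ℝ) (s : ℝ) (x y : Fin n → ℝ) : ℝ≥0∞ :=
  ENNReal.ofReal (usedPair G D a b ε u s x y * (conorm G x (cd u x) * conorm G y (cd u y)))

lemma measurable_usedB (h : IsCH G D) (hu : ContDiff ℝ 1 u) (ha : Measurable a) :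
    Measurable fun z : (Fin n → ℝ) × (Fin n → ℝ) => usedB G D a b ε u s z.1 z.2 :=
  ((measurable_usedPair h hu ha).mul
    (((h.continuous_conorm_cd hu).measurable.comp measurable_fst).mul
      ((h.continuous_conorm_cd hu).measurable.comp measurable_snd))).ennreal_ofReal

lemma measurable_usedB_left (h : IsCH G D) (hu : ContDiff ℝ 1 u) (ha : Measurable a)
    (x : Fin n → ℝ) : Measurable fun y => usedB G D a b ε u s x y := by
  have hm := (measurable_usedB (b := b) (ε := ε) (s := s) h hu ha).comp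
    (measurable_prodMk_left (β := Fin n → ℝ) (x := x))
  exact hm

lemma measurable_usedPair_left (h : IsCH G D) (hu : ContDiff ℝ 1 u) (ha : Measurable a)
    (x : Fin n → ℝ) : Measurable fun y => ENNReal.ofReal (usedPair G D a b ε u s x y) := by
  have hm := ((measurable_usedPair (b := b) (ε := ε) (s := s) h hu ha).comp
    (measurable_prodMk_left (β := Fin n → ℝ) (x := x))).ennreal_ofReal
  exact hm

attribute [local irreducible] usedPair

lemma lintegral_pm_eq (h : IsCH G D) (hu : ContDiff ℝ 1 u) {f : (Fin n → ℝ) → ℝ≥0∞}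
    (hf : Measurable f) :
    ∫⁻ y, f y ∂Sharp.pm G u =
      ∫⁻ y, f y * ENNReal.ofReal (conorm G y (cd u y)) ∂Six.volM G := by
  rw [Six.volM, lintegral_withDensity_eq_lintegral_mul _ h.continuous_dens.measurable.ennreal_ofReal
      (hf.fun_mul (h.continuous_conorm_cd hu).measurable.ennreal_ofReal), Sharp.pm,
    lintegral_withDensity_eq_lintegral_mul _
      (show Measurable fun y => ENNReal.ofReal (conorm G y (cd u y) * dens G y) from
        ((h.continuous_conorm_cd hu).mul h.continuous_dens).measurable.ennreal_ofReal) hf]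
  refine lintegral_congr fun y => ?_
  simp only [Pi.mul_apply, ENNReal.ofReal_mul (conorm_nonneg _ _)]
  ring

lemma lintegral_usedB (h : IsCH G D) (hu : ContDiff ℝ 1 u) (ha : Measurable a) (hs : 0 ≤ s) :
    ∫⁻ x, (∫⁻ y, usedB G D a b ε u s x y ∂Six.volM G) ∂Six.volM G =
      ∫⁻ x, (∫⁻ y, ENNReal.ofReal (usedPair G D a b ε u s x y) ∂Sharp.pm G u) ∂Sharp.pm G u := by
  have : SFinite (Sharp.pm G u) := by unfold Sharp.pm; infer_instance
  have hm := (measurable_usedPair (b := b) (ε := ε) (s := s) h hu ha).ennreal_ofReal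
  rw [lintegral_pm_eq h hu (f := fun x =>
    ∫⁻ y, ENNReal.ofReal (usedPair G D a b ε u s x y) ∂Sharp.pm G u)
    (hm.lintegral_prod_right' (ν := Sharp.pm G u))]
  refine lintegral_congr fun x => ?_
  rw [lintegral_pm_eq h hu (f := fun y => ENNReal.ofReal (usedPair G D a b ε u s x y))
    (measurable_usedPair_left h hu ha x), ← lintegral_mul_const' _ _ ENNReal.ofReal_ne_top]
  refine lintegral_congr fun y => ?_
  rw [usedB, ENNReal.ofReal_mul (usedPair_nonneg hs x y), ENNReal.ofReal_mul (conorm_nonneg _ _)]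
  ring

/-- The pointwise inequality in real numbers. -/
lemma used_point {α β cx cy N t : ℝ} (hα : 0 < α) (hβ : 0 < β) (hN : 0 < N) (ht : 0 < t)
    (hs : 0 < s) (hcx : α ≤ cx * N) (hcy : β ≤ cy * N) :
    2 * b * s * t * (α * β) ≤
      s ^ (n - 1) * (usedKer n a b ε (s * (t * N)) (α / (cx * N)) (β / (cy * N)) * (cx * cy)) *
          ((t * N) ^ (n - 1) * N) +
        α * β * ((ε + -a (α / (cx * N)) / (α / (cx * N))) / N) +
        α * β * ((0 + -a (β / (cy * N)) / (β / (cy * N))) / N) := by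
  have hcx0 : 0 < cx := pos_of_mul_pos_left (hα.trans_le hcx) hN.le
  have hcy0 : 0 < cy := pos_of_mul_pos_left (hβ.trans_le hcy) hN.le
  obtain ⟨c, hc⟩ : ∃ c, c = α / (cx * N) := ⟨_, rfl⟩
  obtain ⟨d, hd⟩ : ∃ d, d = β / (cy * N) := ⟨_, rfl⟩
  rw [← hc, ← hd]
  have hc0 : 0 < c := by rw [hc]; positivity
  have hd0 : 0 < d := by rw [hd]; positivity
  have hp := mul_le_mul_of_nonneg_left
    (le_usedKer (n := n) (a := a) (b := b) (ε := ε) (r := s * (t * N)) (by positivity) hc0.le hd0.le)
    (by positivity : 0 ≤ cx * cy * N)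
  have e1 : c * d * (cx * cy * N) = α * β / N := by rw [hc, hd]; field_simp
  have eA : α * β / N * N = α * β := div_mul_cancel₀ _ hN.ne'
  have eL : cx * cy * N * (a c * d + a d * c + 2 * b * c * d * (s * (t * N)) - ε * (c * d)) =
      2 * b * s * t * (α * β) - α * β * ((ε + -a c / c) / N) - α * β * ((0 + -a d / d) / N) := by
    rw [show α * β * ((ε + -a c / c) / N) = α * β / N * (ε + -a c / c) by ring,
      show α * β * ((0 + -a d / d) / N) = α * β / N * (0 + -a d / d) by ring,
      show 2 * b * s * t * (α * β) = α * β / N * (2 * b * (s * (t * N))) by rw [← eA]; field_simp,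
      ← e1]
    field_simp
    ring
  rw [eL] at hp
  rw [show s ^ (n - 1) * (usedKer n a b ε (s * (t * N)) c d * (cx * cy)) * ((t * N) ^ (n - 1) * N) =
      cx * cy * N * ((s * (t * N)) ^ (n - 1) * usedKer n a b ε (s * (t * N)) c d) by
    rw [mul_pow s (t * N) (n - 1)]; ring]
  linarith

/-- The pointwise inequality in the coordinates of one geodesic. -/
lemma usedA_le (h : IsCH G D) (he : Six.IsExp G D e) (hb : 0 ≤ b) (hs : 0 < s)
    (p : Six.Phase n) {t : ℝ} (ht : 0 < t) :
    ENNReal.ofReal (2 * b * s) * (Gen.pairA e u η (p, t) * ENNReal.ofReal t) ≤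
      ENNReal.ofReal (s ^ (n - 1)) *
          (usedB G D a b ε u s p.1 (Six.line e p t) *
            ENNReal.ofReal ((t * Six.vnorm G p.1 p.2) ^ (n - 1) * Six.vnorm G p.1 p.2)) +
      Gen.pairA e u η (p, t) * Gen.pairW G u a ε p +
      Gen.pairA e u η (p, t) * Gen.pairW G u a 0 (Six.flow e t p) := by
  obtain ⟨hsymm, -, -, -, -, -, hN, hD, hgrad, -⟩ := Six.flowPin n G D e h he
  by_cases hz : (p, t) ∈ {z : Six.Phase n × ℝ | 0 < z.2 ∧ Six.Paired η (Gen.gl e u z.1) 0 z.2}
  swap
  · simp [Gen.pairA, Set.indicator_of_notMem hz]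
  simp only [Gen.pairA, Set.indicator_of_mem hz]
  rcases le_or_gt (slp u p) 0 with ha | ha
  · simp [ENNReal.ofReal_of_nonpos ha]
  rcases le_or_gt (-slp u (Six.flow e t p)) 0 with hb' | hb'
  · simp [ENNReal.ofReal_of_nonpos hb']
  obtain ⟨Np, hNp⟩ : ∃ Np, Np = Six.vnorm G p.1 p.2 := ⟨_, rfl⟩
  have hcx : slp u p ≤ conorm G p.1 (cd u p.1) * Np :=
    hNp ▸ (le_abs_self _).trans (h.dotProduct_le _ _ _)
  have hcy : -slp u (Six.flow e t p) ≤
      conorm G (Six.line e p t) (cd u (Six.line e p t)) * Np := by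
    have := (neg_le_abs _).trans
      (h.dotProduct_le (Six.flow e t p).1 (cd u (Six.flow e t p).1) (Six.flow e t p).2)
    rw [hN, ← hNp] at this
    exact this
  have hN0 : 0 < Np := pos_of_mul_pos_right (ha.trans_le hcx) (conorm_nonneg _ _)
  have hr : Real.sqrt (2 * D p.1 (Six.line e p t)) = t * Np := by
    rw [hD, ← hNp, show 2 * (t ^ 2 * Np ^ 2 / 2) = (t * Np) ^ 2 by ring,
      Real.sqrt_sq (by positivity)]
  have hc : Dir.scos G D u (Six.line e p t) p.1 =
      slp u p / (conorm G p.1 (cd u p.1) * Np) := by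
    have hl := he.logv_exp p.1 (t • p.2)
    unfold Dir.scos normalPart pairing
    rw [hsymm (Six.line e p t) p.1, hr,
      show (G p.1)⁻¹ *ᵥ cd (D (Six.line e p t)) p.1 = grad G (D (Six.line e p t)) p.1 from rfl,
      show grad G (D (Six.line e p t)) p.1 = -(t • p.2) by
        rw [← hl, Six.logv, neg_neg]; rfl,
      dotProduct_neg, dotProduct_smul, neg_neg, smul_eq_mul]
    rw [show cd u p.1 ⬝ᵥ p.2 = slp u p from rfl]
    field_simp
  have hd : Dir.scos G D u p.1 (Six.line e p t) =
      -slp u (Six.flow e t p) / (conorm G (Six.line e p t) (cd u (Six.line e p t)) * Np) := by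
    unfold Dir.scos normalPart pairing
    rw [hr, show (G (Six.line e p t))⁻¹ *ᵥ cd (D p.1) (Six.line e p t) =
        grad G (D p.1) (Six.line e p t) from rfl,
      hgrad, dotProduct_smul, smul_eq_mul,
      show cd u (Six.line e p t) ⬝ᵥ (Six.flow e t p).2 = slp u (Six.flow e t p) from rfl]
    field_simp
  have key := used_point (n := n) (a := a) (b := b) (ε := ε) ha hb' hN0 ht hs hcx hcy
  have hv0 : cosv G u p = slp u p / (conorm G p.1 (cd u p.1) * Np) := by
    rw [cosv, abs_of_pos ha, ← hNp]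
  have hv1 : cosv G u (Six.flow e t p) =
      -slp u (Six.flow e t p) / (conorm G (Six.line e p t) (cd u (Six.line e p t)) * Np) := by
    rw [cosv, hN, abs_of_neg (by linarith : slp u (Six.flow e t p) < 0), ← hNp]; rfl
  have hB0 : 0 ≤ usedPair G D a b ε u s p.1 (Six.line e p t) *
      (conorm G p.1 (cd u p.1) * conorm G (Six.line e p t) (cd u (Six.line e p t))) :=
    mul_nonneg (usedPair_nonneg hs.le _ _) (mul_nonneg (conorm_nonneg _ _) (conorm_nonneg _ _))
  rw [Gen.pairW, Gen.pairW, hv0, hv1, hN, ← hNp, usedB]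
  simp only [← ENNReal.ofReal_mul (show 0 ≤ 2 * b * s by positivity), ← ENNReal.ofReal_mul ha.le,
    ← ENNReal.ofReal_mul (mul_pos ha hb').le, ← ENNReal.ofReal_mul hB0,
    ← ENNReal.ofReal_mul (pow_nonneg hs.le (n - 1))]
  rw [show usedPair G D a b ε u s p.1 (Six.line e p t) = usedKer n a b ε (s * (t * Np))
      (slp u p / (conorm G p.1 (cd u p.1) * Np))
      (-slp u (Six.flow e t p) / (conorm G (Six.line e p t) (cd u (Six.line e p t)) * Np)) by
    rw [usedPair, hr, hc, hd]]
  exact (ENNReal.ofReal_le_ofReal (le_of_eq_of_le (by ring) (key.trans_eq (by ring)))).trans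
    ((ENNReal.ofReal_add_le).trans (add_le_add ENNReal.ofReal_add_le le_rfl))

/-- `UsedPin`. -/
theorem usedPin (n : ℕ) [NeZero n] : UsedPin n := by
  intro hn a b hcert ha G D e h he o R η s ε u hη hη2 hs hε hu
  obtain ⟨B, haB⟩ := hcert.a_bounded
  have ha0 := hcert.a_nonpos
  have hline := Six.Line.linePin
  have hflow := Six.flowPin n
  have hmom := Gen.momentPin n
  obtain ⟨hM, -, -⟩ := hmom hn
  have hrad : 0 ≤ Gen.radial n :=
    setIntegral_nonneg measurableSet_Ioi fun r hr => mul_nonneg (pow_nonneg (le_of_lt hr) _)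
      (Real.exp_pos _).le
  have : SFinite (Six.volM G) := by unfold Six.volM; infer_instance
  have hB := measurable_usedB (b := b) (ε := ε) (s := s) h hu.1 ha.measurable
  set PK : Six.Phase n × ℝ → ℝ≥0∞ := fun z =>
    usedB G D a b ε u s z.1.1 (Six.line e z.1 z.2) *
      ENNReal.ofReal ((z.2 * Six.vnorm G z.1.1 z.1.2) ^ (n - 1) * Six.vnorm G z.1.1 z.1.2)
  have hNm : Measurable fun z : Six.Phase n × ℝ => Six.vnorm G z.1.1 z.1.2 :=
    h.continuous_vnorm.measurable.comp measurable_fst
  have hPK : Measurable PK :=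
    (hB.comp ((measurable_fst.comp measurable_fst).prodMk he.continuous_line.measurable)).mul
      (((measurable_snd.mul hNm).pow_const (n - 1)).mul hNm).ennreal_ofReal
  have hPKi : Measurable fun p => ∫⁻ t in Ioi (0 : ℝ), PK (p, t) := hPK.lintegral_prod_right'
  have hpol : ∫⁻ p, (∫⁻ t in Ioi (0 : ℝ), PK (p, t)) ∂Six.liou G ≤
      ENNReal.ofReal (Gen.radial n) *
        ∫⁻ x, (∫⁻ y, usedB G D a b ε u s x y ∂Six.volM G) ∂Six.volM G := by
    rw [Gen.lintegral_phase h hPKi,
      ← lintegral_const_mul _ (hB.lintegral_prod_right' (ν := Six.volM G))]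
    exact lintegral_mono fun x =>
      Gen.polarPin n hn G D e h he x (fun y => usedB G D a b ε u s x y)
        (measurable_usedB_left h hu.1 ha.measurable x)
  have hA := Gen.measurable_pairA (η := η) hflow h he hu.1
  have hW := (hA.mul ((Gen.measurable_pairW h hu.1 hcert.measurable_a ε).comp measurable_fst))
  have hmain : ENNReal.ofReal (2 * b * s) * ∫⁻ p, Gen.pairH e u η p ∂Six.liou G ≤
      ENNReal.ofReal (s ^ (n - 1)) * (ENNReal.ofReal (Gen.radial n) *
          ∫⁻ x, (∫⁻ y, usedB G D a b ε u s x y ∂Six.volM G) ∂Six.volM G) +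
        ENNReal.ofReal (Gen.mass n * (ε + Gen.cmean n fun c => -a c) * per G u) +
        ENNReal.ofReal (Gen.mass n * (0 + Gen.cmean n fun c => -a c) * per G u) := by
    refine le_trans ?_ (add_le_add (add_le_add (mul_le_mul_right hpol _)
      (Gen.lintegral_entries_le hn hline hflow hmom h he hu hcert.measurable_a ha0 haB hη hη2 hε))
      (Gen.lintegral_exits_le hn hline hflow hmom h he hu hcert.measurable_a ha0 haB hη hη2 le_rfl))
    have hWi : Measurable fun p =>
        ∫⁻ t in Ioi (0 : ℝ), Gen.pairA e u η (p, t) * Gen.pairW G u a ε p :=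
      hW.lintegral_prod_right'
    rw [← lintegral_const_mul _ (Gen.measurable_pairH hflow h he hu.1),
      ← lintegral_const_mul _ hPKi, ← lintegral_add_left (hPKi.const_mul _),
      ← lintegral_add_left ((hPKi.const_mul _).fun_add hWi)]
    refine lintegral_mono fun p => ?_
    have m1 : Measurable fun t => PK (p, t) := hPK.comp measurable_prodMk_left
    have m2 : Measurable fun t => Gen.pairA e u η (p, t) * Gen.pairW G u a ε p :=
      (hA.comp measurable_prodMk_left).mul_const _
    simp only [Gen.pairH]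
    rw [← lintegral_const_mul' _ _ ENNReal.ofReal_ne_top, ← lintegral_const_mul _ m1,
      ← lintegral_add_left (m1.const_mul _), ← lintegral_add_left ((m1.const_mul _).fun_add m2)]
    exact setLIntegral_mono' measurableSet_Ioi fun t ht =>
      usedA_le h he hcert.b_nonneg hs p ht
  have hall := (mul_le_mul_right (Gen.le_lintegral_pairH hn hline hflow hmom h he hu hη hη2) _).trans
    hmain
  have hP0 := h.per_nonneg u
  have hE : 0 ≤ Gen.cmean n fun c => -a c :=
    Gen.cmean_nonneg hM fun c hc => by linarith [ha0 c hc]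
  have hb := hcert.b_nonneg
  rw [lintegral_usedB h hu.1 ha.measurable hs.le, add_assoc,
    ← ENNReal.ofReal_add (by positivity) (by positivity), ← mul_assoc,
    ← ENNReal.ofReal_mul (pow_nonneg hs.le _), ← ENNReal.ofReal_mul (by positivity)] at hall
  rw [hcert.value] at hall hE
  rw [mul_comm (s ^ (n - 1)) (Gen.radial n)] at hall
  refine le_trans (le_of_eq ?_) (tsub_le_iff_right.2 hall)
  rw [← ENNReal.ofReal_sub _ (by positivity)]
  congr 1
  ring

end Vale.Agent.P219.CH.Rigid
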